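import Claimed.Agent.R255.Iso.Defs

/-!
# Row 255, Sec. 5: the dyadic grids `tlev`, `tcell`, `trep`, `msh`; scalar geometry      (architect helper220)
-/

set_option autoImplicit false

namespace Claimed.Agent.R255

open Classical

theorem ig_msh_pos (ε u : ℝ) : 0 < msh ε u := by unfold msh; positivity

theorem ig_logb_pos (ε : ℝ) (h0 : 0 < ε) (h1 : ε < 1) : 0 < Real.logb 2 (1 / ε) :=
  Real.logb_pos (by norm_num) (by rw [lt_div_iff₀ h0]; linarith)

/-- `2 ^ (u log₂ (1/ε)) = ε ^ (-u)` -/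
theorem ig_two_rpow (ε u : ℝ) (h0 : 0 < ε) : (2 : ℝ) ^ (u * Real.logb 2 (1 / ε)) = ε ^ (-u) := by
  rw [mul_comm, Real.rpow_mul (by norm_num), Real.rpow_logb (by norm_num) (by norm_num) (by positivity),
    one_div, Real.inv_rpow h0.le, Real.rpow_neg h0.le]

theorem ig_pow_lev_ge (ε u : ℝ) (h0 : 0 < ε) : ε ^ (-u) ≤ (2 : ℝ) ^ (tlev ε u) := by
  rw [← ig_two_rpow ε u h0, ← Real.rpow_natCast]
  exact Real.rpow_le_rpow_of_exponent_le (by norm_num) (Nat.le_ceil _)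

theorem ig_pow_lev_le (ε u : ℝ) (h0 : 0 < ε) (h1 : ε < 1) (hu : 0 ≤ u) :
    (2 : ℝ) ^ (tlev ε u) ≤ 2 * ε ^ (-u) := by
  rw [← ig_two_rpow ε u h0, ← Real.rpow_natCast]
  have h : ((tlev ε u : ℕ) : ℝ) ≤ u * Real.logb 2 (1 / ε) + 1 :=
    (Nat.ceil_lt_add_one (mul_nonneg hu (ig_logb_pos ε h0 h1).le)).le
  calc (2 : ℝ) ^ ((tlev ε u : ℕ) : ℝ) ≤ (2 : ℝ) ^ (u * Real.logb 2 (1 / ε) + 1) :=
        Real.rpow_le_rpow_of_exponent_le (by norm_num) h
    _ = 2 * (2 : ℝ) ^ (u * Real.logb 2 (1 / ε)) := by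
        rw [Real.rpow_add (by norm_num), Real.rpow_one]; ring

/-- the mesh is at most `ε^u` -/
theorem ig_msh_le (ε u : ℝ) (h0 : 0 < ε) : msh ε u ≤ ε ^ u := by
  unfold msh
  have h := ig_pow_lev_ge ε u h0
  rw [Real.rpow_neg h0.le] at h
  have hp : 0 < ε ^ u := Real.rpow_pos_of_pos h0 u
  rw [div_le_iff₀ (by positivity)]
  have := mul_le_mul_of_nonneg_left h hp.le
  rw [mul_inv_cancel₀ hp.ne'] at this
  exact this

/-- and at least `ε^u / 2` -/
theorem ig_le_msh (ε u : ℝ) (h0 : 0 < ε) (h1 : ε < 1) (hu : 0 ≤ u) : ε ^ u ≤ 2 * msh ε u := by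
  unfold msh
  have h := ig_pow_lev_le ε u h0 h1 hu
  rw [Real.rpow_neg h0.le] at h
  have hp : 0 < ε ^ u := Real.rpow_pos_of_pos h0 u
  rw [mul_one_div, le_div_iff₀ (by positivity)]
  have := mul_le_mul_of_nonneg_left h hp.le
  calc ε ^ u * 2 ^ tlev ε u ≤ ε ^ u * (2 * (ε ^ u)⁻¹) := this
    _ = 2 := by field_simp

theorem ig_lev_mono (ε u u' : ℝ) (h0 : 0 < ε) (h1 : ε < 1) (h : u ≤ u') : tlev ε u ≤ tlev ε u' :=
  Nat.ceil_mono (mul_le_mul_of_nonneg_right h (ig_logb_pos ε h0 h1).le)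

theorem ig_lev_add_le (ε u g : ℝ) : tlev ε (u + g) ≤ tlev ε u + tlev ε g := by
  unfold tlev
  rw [add_mul]
  exact Nat.ceil_add_le _ _

theorem ig_lev_zero (ε : ℝ) : tlev ε 0 = 0 := by simp [tlev]

theorem ig_msh_zero (ε : ℝ) : msh ε 0 = 1 := by simp [msh, ig_lev_zero]

theorem ig_msh_anti (ε u u' : ℝ) (h0 : 0 < ε) (h1 : ε < 1) (h : u ≤ u') : msh ε u' ≤ msh ε u := by
  unfold msh
  exact one_div_le_one_div_of_le (by positivity)
    (pow_le_pow_right₀ (by norm_num) (ig_lev_mono ε u u' h0 h1 h))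

/-- ratio of two meshes -/
theorem ig_msh_ratio (ε u u' : ℝ) (h0 : 0 < ε) (h1 : ε < 1) (h : u ≤ u') :
    msh ε u = (2 : ℝ) ^ (tlev ε u' - tlev ε u) * msh ε u' := by
  unfold msh
  have hl := ig_lev_mono ε u u' h0 h1 h
  have : (2 : ℝ) ^ (tlev ε u') = 2 ^ (tlev ε u' - tlev ε u) * 2 ^ (tlev ε u) := by
    rw [← pow_add, Nat.sub_add_cancel hl]
  rw [this]
  field_simp

/-- `2^(lev(u+g) - lev u) · msh g ≤ 1` -/
theorem ig_ratio_msh_le (ε u g : ℝ) : (2 : ℝ) ^ (tlev ε (u + g) - tlev ε u) * msh ε g ≤ 1 := by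
  unfold msh
  rw [mul_one_div, div_le_one (by positivity)]
  refine pow_le_pow_right₀ (by norm_num) ?_
  have := ig_lev_add_le ε u g
  omega

/-- `2^(lev(u+g) - lev u) ≤ 2 ε^(-g)` -/
theorem ig_ratio_le (ε u g : ℝ) (h0 : 0 < ε) (h1 : ε < 1) (hg : 0 ≤ g) :
    (2 : ℝ) ^ (tlev ε (u + g) - tlev ε u) ≤ 2 * ε ^ (-g) := by
  refine le_trans (pow_le_pow_right₀ (by norm_num) ?_) (ig_pow_lev_le ε g h0 h1 hg)
  have := ig_lev_add_le ε u g
  omega

theorem ig_cell_le (ε u x : ℝ) : (tcell ε u x : ℝ) * msh ε u ≤ x := by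
  unfold tcell msh
  rw [mul_one_div, div_le_iff₀ (by positivity)]
  exact Int.floor_le _

theorem ig_lt_cell (ε u x : ℝ) : x < ((tcell ε u x : ℝ) + 1) * msh ε u := by
  unfold tcell msh
  rw [mul_one_div, lt_div_iff₀ (by positivity)]
  exact Int.lt_floor_add_one _

theorem ig_trep_eq (ε u c : ℝ) : trep ε u c = (tcell ε u c : ℝ) * msh ε u := by
  unfold trep msh; ring

theorem ig_trep_le (ε u c : ℝ) : trep ε u c ≤ c := by rw [ig_trep_eq]; exact ig_cell_le ε u c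

theorem ig_lt_trep (ε u c : ℝ) : c < trep ε u c + msh ε u := by
  have := ig_lt_cell ε u c
  rw [ig_trep_eq]; linarith

/-- `tcell` from a two-sided estimate -/
theorem ig_cell_abs (ε u x : ℝ) : |(tcell ε u x : ℝ) - x / msh ε u| ≤ 1 := by
  have hm := ig_msh_pos ε u
  have h1 := ig_cell_le ε u x
  have h2 := ig_lt_cell ε u x
  rw [abs_le]
  constructor
  · have : x / msh ε u < (tcell ε u x : ℝ) + 1 := by rw [div_lt_iff₀ hm]; exact h2
    linarith
  · have : (tcell ε u x : ℝ) ≤ x / msh ε u := by rw [le_div_iff₀ hm]; exact h1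
    linarith

/-- exact nesting of the grids -/
theorem ig_cell_nest (ε u u' x : ℝ) (h0 : 0 < ε) (h1 : ε < 1) (h : u ≤ u') :
    tcell ε u x = tcell ε u' x / (2 : ℤ) ^ (tlev ε u' - tlev ε u) := by
  have hl := ig_lev_mono ε u u' h0 h1 h
  unfold tcell
  have e : x * (2 : ℝ) ^ (tlev ε u) = x * 2 ^ (tlev ε u') / ((2 ^ (tlev ε u' - tlev ε u) : ℕ) : ℝ) := by
    have : (2 : ℝ) ^ (tlev ε u') = 2 ^ (tlev ε u' - tlev ε u) * 2 ^ (tlev ε u) := by
      rw [← pow_add, Nat.sub_add_cancel hl]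
    rw [this]; push_cast; field_simp
  rw [e, Int.floor_div_natCast]
  push_cast
  rfl

/-- the relative index of a fine cell in its coarse cell -/
theorem ig_rel_nonneg (ε u u' x : ℝ) (h0 : 0 < ε) (h1 : ε < 1) (h : u ≤ u') :
    0 ≤ (tcell ε u' x : ℝ) - (tcell ε u x : ℝ) * 2 ^ (tlev ε u' - tlev ε u) ∧
      (tcell ε u' x : ℝ) - (tcell ε u x : ℝ) * 2 ^ (tlev ε u' - tlev ε u) < 2 ^ (tlev ε u' - tlev ε u) := by
  have hn := ig_cell_nest ε u u' x h0 h1 h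
  have hp : (0 : ℤ) < 2 ^ (tlev ε u' - tlev ε u) := by positivity
  have e1 := Int.mul_ediv_self_le (x := tcell ε u' x) hp.ne'
  have e2 := Int.lt_mul_ediv_self_add (x := tcell ε u' x) hp
  rw [← hn] at e1 e2
  constructor
  · have : ((2 ^ (tlev ε u' - tlev ε u) * tcell ε u x : ℤ) : ℝ) ≤ (tcell ε u' x : ℝ) := by exact_mod_cast e1
    push_cast at this
    linarith
  · have : (tcell ε u' x : ℝ) < ((2 ^ (tlev ε u' - tlev ε u) * tcell ε u x + 2 ^ (tlev ε u' - tlev ε u) : ℤ) : ℝ) := by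
      exact_mod_cast e2
    push_cast at this
    linarith

/-- `0 ≤ trep_{u'} - trep_u < msh u` -/
theorem ig_trep_diff (ε u u' c : ℝ) (h0 : 0 < ε) (h1 : ε < 1) (h : u ≤ u') :
    trep ε u' c - trep ε u c
      = ((tcell ε u' c : ℝ) - (tcell ε u c : ℝ) * 2 ^ (tlev ε u' - tlev ε u)) * msh ε u' := by
  rw [ig_trep_eq, ig_trep_eq, ig_msh_ratio ε u u' h0 h1 h]; ring

theorem ig_trep_diff_bd (ε u u' c : ℝ) (h0 : 0 < ε) (h1 : ε < 1) (h : u ≤ u') :
    0 ≤ trep ε u' c - trep ε u c ∧ trep ε u' c - trep ε u c < msh ε u := by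
  have hr := ig_rel_nonneg ε u u' c h0 h1 h
  have hm := ig_msh_pos ε u'
  rw [ig_trep_diff ε u u' c h0 h1 h]
  refine ⟨mul_nonneg hr.1 hm.le, ?_⟩
  rw [ig_msh_ratio ε u u' h0 h1 h]
  exact mul_lt_mul_of_pos_right hr.2 hm

/-! ## scalar geometry: `a` = position, `v` = velocity (components along a fixed direction), `c` = time -/

/-- **intercepts** (G2): the intercept at the coarse time, at the fine resolution, from the fine point cell and the slope bin -/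
theorem ig_intercept (ε u g a v c : ℝ) (h0 : 0 < ε) (h1 : ε < 1) (hg : 0 ≤ g) :
    |(tcell ε (u + g) (a + trep ε u c * v) : ℝ)
      - ((tcell ε (u + g) (a + trep ε (u + g) c * v) : ℝ)
        - ((tcell ε (u + g) c : ℝ) - (tcell ε u c : ℝ) * 2 ^ (tlev ε (u + g) - tlev ε u))
          * ((tcell ε g v : ℝ) * msh ε g))| ≤ 3 := by
  have hu : u ≤ u + g := by linarith
  obtain ⟨n, hn⟩ : ∃ n : ℝ, n = (tcell ε (u + g) c : ℝ) - (tcell ε u c : ℝ) * 2 ^ (tlev ε (u + g) - tlev ε u) :=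
    ⟨_, rfl⟩
  have hr := ig_rel_nonneg ε u (u + g) c h0 h1 hu
  have hd := ig_trep_diff ε u (u + g) c h0 h1 hu
  rw [← hn] at hr hd ⊢
  have hm := ig_msh_pos ε (u + g)
  have hmg := ig_msh_pos ε g
  have c1 := ig_cell_abs ε (u + g) (a + trep ε u c * v)
  have c2 := ig_cell_abs ε (u + g) (a + trep ε (u + g) c * v)
  have e : (a + trep ε u c * v) / msh ε (u + g) = (a + trep ε (u + g) c * v) / msh ε (u + g) - n * v := by
    have : trep ε u c = trep ε (u + g) c - n * msh ε (u + g) := by linarith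
    rw [this]; field_simp; ring
  have w1 := ig_cell_le ε g v
  have w2 := ig_lt_cell ε g v
  have hnm : n * msh ε g ≤ 1 := by
    have := ig_ratio_msh_le ε u g
    have h3 := mul_le_mul_of_nonneg_right hr.2.le hmg.le
    linarith
  have k1 : 0 ≤ n * (v - (tcell ε g v : ℝ) * msh ε g) := mul_nonneg hr.1 (by linarith)
  have k2 : n * (v - (tcell ε g v : ℝ) * msh ε g) ≤ 1 := by
    have : n * (v - (tcell ε g v : ℝ) * msh ε g) ≤ n * msh ε g :=
      mul_le_mul_of_nonneg_left (by linarith) hr.1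
    linarith
  rw [e] at c1
  rw [abs_le] at c1 c2 ⊢
  constructor <;> nlinarith [c1.1, c1.2, c2.1, c2.2]

/-- **coarsening** (G1) -/
theorem ig_coarse (ε u u' a v c Bv : ℝ) (h0 : 0 < ε) (h1 : ε < 1) (h : u ≤ u') (hv : |v| ≤ Bv) :
    |(tcell ε u (a + trep ε u c * v) : ℝ)
      - (tcell ε u' (a + trep ε u' c * v) : ℝ) * (msh ε u' / msh ε u)| ≤ Bv + 2 := by
  have hm := ig_msh_pos ε u
  have hm' := ig_msh_pos ε u'
  have hmm := ig_msh_anti ε u u' h0 h1 h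
  have c1 := ig_cell_abs ε u (a + trep ε u c * v)
  have d1 := ig_cell_le ε u' (a + trep ε u' c * v)
  have d2 := ig_lt_cell ε u' (a + trep ε u' c * v)
  have hd := ig_trep_diff_bd ε u u' c h0 h1 h
  -- |y - y'| ≤ Bv msh u
  have hy : |(a + trep ε u c * v) - (a + trep ε u' c * v)| ≤ Bv * msh ε u := by
    have : (a + trep ε u c * v) - (a + trep ε u' c * v) = - ((trep ε u' c - trep ε u c) * v) := by ring
    rw [this, abs_neg, abs_mul, abs_of_nonneg hd.1, mul_comm]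
    exact mul_le_mul hv hd.2.le hd.1 ((abs_nonneg v).trans hv)
  have e1 : |(a + trep ε u c * v) / msh ε u - (a + trep ε u' c * v) / msh ε u| ≤ Bv := by
    rw [← sub_div, abs_div, abs_of_pos hm, div_le_iff₀ hm]; exact hy
  have e2 : |(a + trep ε u' c * v) / msh ε u
      - (tcell ε u' (a + trep ε u' c * v) : ℝ) * (msh ε u' / msh ε u)| ≤ 1 := by
    have : (a + trep ε u' c * v) / msh ε u - (tcell ε u' (a + trep ε u' c * v) : ℝ) * (msh ε u' / msh ε u)
        = ((a + trep ε u' c * v) - (tcell ε u' (a + trep ε u' c * v) : ℝ) * msh ε u') / msh ε u := by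
      field_simp
    rw [this, abs_div, abs_of_pos hm, div_le_iff₀ hm, abs_le]
    constructor <;> nlinarith
  rw [abs_le] at c1 e1 e2 ⊢
  constructor <;> linarith [c1.1, c1.2, e1.1, e1.2, e2.1, e2.2]

/-- **children** (G3) -/
theorem ig_children (ε u g a v c Bv : ℝ) (h0 : 0 < ε) (h1 : ε < 1) (hg : 0 ≤ g) (hv : |v| ≤ Bv) :
    |(tcell ε (u + g) (a + trep ε (u + g) c * v) : ℝ)
      - (tcell ε u (a + trep ε u c * v) : ℝ) * 2 ^ (tlev ε (u + g) - tlev ε u)| ≤ (Bv + 2) * (2 * ε ^ (-g)) := by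
  have hu : u ≤ u + g := by linarith
  have hc := ig_coarse ε u (u + g) a v c Bv h0 h1 hu hv
  have hm := ig_msh_pos ε u
  have hm' := ig_msh_pos ε (u + g)
  have hr := ig_msh_ratio ε u (u + g) h0 h1 hu
  have hR := ig_ratio_le ε u g h0 h1 hg
  have hB : 0 ≤ Bv + 2 := by linarith [(abs_nonneg v).trans hv]
  obtain ⟨ρ, hρ⟩ : ∃ ρ : ℝ, ρ = 2 ^ (tlev ε (u + g) - tlev ε u) := ⟨_, rfl⟩
  have hρ0 : 0 < ρ := by rw [hρ]; positivity
  rw [← hρ] at hr hR ⊢
  have e : msh ε (u + g) / msh ε u = 1 / ρ := by rw [hr]; field_simp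
  rw [e] at hc
  have : (tcell ε (u + g) (a + trep ε (u + g) c * v) : ℝ) - (tcell ε u (a + trep ε u c * v) : ℝ) * ρ
      = - (((tcell ε u (a + trep ε u c * v) : ℝ)
        - (tcell ε (u + g) (a + trep ε (u + g) c * v) : ℝ) * (1 / ρ)) * ρ) := by
    field_simp; ring
  rw [this, abs_neg, abs_mul, abs_of_pos hρ0]
  exact mul_le_mul hc hR hρ0.le hB

/-- bilinearity of `ip` -/
theorem ig_ip_add_smul (A V e : ℝ × ℝ) (t : ℝ) : ip (A + t • V) e = ip A e + t * ip V e := by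
  simp only [ip, Prod.fst_add, Prod.snd_add, Prod.smul_fst, Prod.smul_snd, smul_eq_mul]; ring

theorem ig_ip_abs_le (V e : ℝ × ℝ) (B : ℝ) (h1 : |V.1| ≤ B) (h2 : |V.2| ≤ B) (e1 : |e.1| ≤ 1) (e2 : |e.2| ≤ 1) :
    |ip V e| ≤ 2 * B := by
  unfold ip
  have hB : 0 ≤ B := (abs_nonneg _).trans h1
  calc |V.1 * e.1 + V.2 * e.2| ≤ |V.1 * e.1| + |V.2 * e.2| := abs_add_le _ _
    _ = |V.1| * |e.1| + |V.2| * |e.2| := by rw [abs_mul, abs_mul]
    _ ≤ B * 1 + B * 1 := add_le_add (mul_le_mul h1 e1 (abs_nonneg _) hB) (mul_le_mul h2 e2 (abs_nonneg _) hB)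
    _ = 2 * B := by ring

theorem ig_tang_abs (th : ℝ) : |(tang th).1| ≤ 1 ∧ |(tang th).2| ≤ 1 :=
  ⟨Real.abs_cos_le_one th, Real.abs_sin_le_one th⟩

theorem ig_nrm_abs (th : ℝ) : |(nrm th).1| ≤ 1 ∧ |(nrm th).2| ≤ 1 :=
  ⟨by simpa [nrm] using Real.abs_sin_le_one th, Real.abs_cos_le_one th⟩

/-- decomposition in the frame -/
theorem ig_frame (z : ℝ × ℝ) (th : ℝ) : z = ip z (tang th) • tang th + ip z (nrm th) • nrm th := by
  have h := Real.sin_sq_add_cos_sq th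
  ext
  · simp only [ip, tang, nrm, Prod.fst_add, Prod.smul_fst, smul_eq_mul]
    linear_combination (- z.1) * h
  · simp only [ip, tang, nrm, Prod.snd_add, Prod.smul_snd, smul_eq_mul]
    linear_combination (- z.2) * h

theorem ig_ip_tang_tang (th : ℝ) : ip (tang th) (tang th) = 1 := by
  simp only [ip, tang]; nlinarith [Real.sin_sq_add_cos_sq th]

theorem ig_ip_nrm_nrm (th : ℝ) : ip (nrm th) (nrm th) = 1 := by
  simp only [ip, nrm]; nlinarith [Real.sin_sq_add_cos_sq th]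

theorem ig_ip_tang_nrm (th : ℝ) : ip (tang th) (nrm th) = 0 := by
  simp only [ip, tang, nrm]; ring

theorem ig_ip_nrm_tang (th : ℝ) : ip (nrm th) (tang th) = 0 := by
  simp only [ip, tang, nrm]; ring

end Claimed.Agent.R255
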