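import Mathlib

/-!
# Row 255, Sec. 5: the linear pigeonhole over windows      (architect helper220)
-/

set_option autoImplicit false

namespace Claimed.Agent.R255

open scoped BigOperators

/-- If every window either satisfies the entropy inequality `x j ≤ a I j + A` or is `good`, all `x j ≤ Dm`, and the sum of the `x j` is large, then some window is good and has small information. -/
theorem iso_pigeon (N : ℕ) (x I : ℕ → ℝ) (a A Dm Is : ℝ) (good : ℕ → Prop)
    (hI : ∀ j < N, 0 ≤ I j) (hIs : 0 < Is) (hD : 0 ≤ Dm) (hA : 0 ≤ A) (ha : 0 ≤ a)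
    (h : ∀ j < N, x j ≤ a * I j + A ∨ good j) (hcap : ∀ j < N, x j ≤ Dm)
    (hsum : (a + Dm / Is) * ∑ j ∈ Finset.range N, I j + N * A < ∑ j ∈ Finset.range N, x j) :
    ∃ j < N, good j ∧ I j ≤ Is := by
  by_contra hc
  push Not at hc
  have key : ∀ j ∈ Finset.range N, x j ≤ (a + Dm / Is) * I j + A := by
    intro j hj
    have hj' := Finset.mem_range.1 hj
    have hIj := hI j hj'
    have hq : 0 ≤ Dm / Is := div_nonneg hD hIs.le
    rcases h j hj' with h1 | h1
    · have : 0 ≤ Dm / Is * I j := mul_nonneg hq hIj
      nlinarith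
    · have h2 := hc j hj' h1
      have h3 : Dm ≤ Dm / Is * I j := by
        rw [div_mul_eq_mul_div, le_div_iff₀ hIs]
        exact mul_le_mul_of_nonneg_left h2.le hD
      have h4 : 0 ≤ a * I j := mul_nonneg ha hIj
      have := hcap j hj'
      nlinarith
  have := Finset.sum_le_sum key
  rw [Finset.sum_add_distrib, ← Finset.mul_sum, Finset.sum_const, Finset.card_range, nsmul_eq_mul] at this
  linarith

end Claimed.Agent.R255
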