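import Claimed.Agent.R255.Iso.Win1
import Claimed.Agent.R255.Iso.Pigeon

/-!
# Row 255, Sec. 5: Stage A (three slopes => strip)      (architect helper220)
-/

set_option autoImplicit false

namespace Claimed.Agent.R255

open scoped BigOperators
open Classical

theorem isA_step (N j : ℕ) : (j : ℝ) / N + 1 / N = ((j + 1 : ℕ) : ℝ) / N := by push_cast; ring

/-- the three sums over the windows -/
theorem isA_sums (S : CSys) (P : FLaw S.Ω) (ε B : ℝ) (N : ℕ) (hN : 0 < N) (h0 : 0 < ε) (h1 : ε < 1)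
    (hB : (S.withLaw P).Bdd B) :
    (∑ j ∈ Finset.range N, P.entC (S.U1 ε ((j : ℝ) / N) (1 / N)) (S.Oo ε ((j : ℝ) / N))
        ≤ P.ent (S.Oo ε 1) + N * (2 * Real.log (2 * (B + 2) + 1))) ∧
    (∑ j ∈ Finset.range N, P.miC (S.U1 ε ((j : ℝ) / N) (1 / N)) (S.Vo ε (1 / N)) (S.Oo ε ((j : ℝ) / N))
        ≤ 2 * (1 / N * lg ε) + 2 * Real.log (2 * (2 * B + 1) + 1) + N * (2 * Real.log (2 * (B + 2) + 1))) ∧
    (∑ j ∈ Finset.range N, P.entC (S.Ct ε ((j : ℝ) / N + 1 / N)) (S.TC ε ((j : ℝ) / N))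
        = P.entC (S.Ct ε 1) S.T - P.entC (S.Ct ε 0) S.T) := by
  have hN' : (0 : ℝ) < N := by exact_mod_cast hN
  have hU : ∀ j : ℕ, S.U1 ε ((j : ℝ) / N) (1 / N)
      = FLaw.pair (S.Oo ε ((j : ℝ) / N)) (S.Oo ε (((j + 1 : ℕ) : ℝ) / N)) := by
    intro j; unfold CSys.U1; rw [isA_step]
  have hmono : ∀ j : ℕ, (j : ℝ) / N ≤ ((j + 1 : ℕ) : ℝ) / N := by
    intro j
    exact div_le_div_of_nonneg_right (by push_cast; linarith) hN'.le
  have hc : ∀ j < N, P.entC (S.Oo ε ((j : ℝ) / N)) (S.Oo ε (((j + 1 : ℕ) : ℝ) / N))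
      ≤ 2 * Real.log (2 * (B + 2) + 1) :=
    fun j _ => if_Oo_coarse S P ε _ _ B h0 h1 (hmono j) hB
  have hNN : ((N : ℕ) : ℝ) / N = 1 := div_self hN'.ne'
  have h00 : ((0 : ℕ) : ℝ) / N = 0 := by simp
  refine ⟨?_, ?_, ?_⟩
  · have := iso_tele_H P (fun j => S.Oo ε ((j : ℝ) / N)) N _ hc
    simp only [hU]
    rw [hNN] at this
    have h2 := ie_ent_nonneg P (S.Oo ε (((0 : ℕ) : ℝ) / N))
    linarith
  · have := iso_tele_I P (fun j => S.Oo ε ((j : ℝ) / N)) (S.Vo ε (1 / N)) N _ hc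
    simp only [hU]
    have h2 := if_ent_Vo S P ε (1 / N) B h0 h1 (by positivity) hB
    linarith
  · have : ∀ j ∈ Finset.range N, P.entC (S.Ct ε ((j : ℝ) / N + 1 / N)) (S.TC ε ((j : ℝ) / N))
        = P.entC (S.Ct ε (((j + 1 : ℕ) : ℝ) / N)) S.T - P.entC (S.Ct ε ((j : ℝ) / N)) S.T := by
      intro j _
      rw [isA_step]
      exact if_time_chain S P ε _ _ h0 h1 (hmono j)
    rw [Finset.sum_congr rfl this, Finset.sum_range_sub (fun j : ℕ => P.entC (S.Ct ε ((j : ℝ) / N)) S.T), hNN, h00]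

/-- **Stage A** -/
theorem iso_stageA (B b ϑ κ : ℝ) (hb : 0 < b) (hϑ : 0 < ϑ) (hϑ1 : ϑ ≤ 1) (hϑb : 48 * ϑ ≤ b) (hκ : 0 < κ) :
    ∃ N₀ : ℕ, ∀ N : ℕ, N₀ ≤ N → ∃ ε₀ : ℝ, 0 < ε₀ ∧ ∀ (ε : ℝ) (S : CSys) (P : FLaw S.Ω),
      0 < ε → ε < ε₀ → ε < 1 → (S.withLaw P).Bdd B →
      P.ent (S.Oo ε 1) ≤ 3 * P.entC (S.Ct ε 1) S.T - b * lg ε →
      ∃ (j : ℕ) (f : ℤ × ℤ × ℤ → ℝ × ℝ), j < N ∧
        ε ^ (κ * (ϑ / N)) ≤ P.pr (S.Strip ε ((j : ℝ) / N) (ϑ / N) f) := by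
  obtain ⟨C₁, hC₁, hwin⟩ := iso_win1 B
  obtain ⟨δ, hδdef⟩ : ∃ δ, δ = min 1 (b / 24) := ⟨_, rfl⟩
  have hδ : 0 < δ := by rw [hδdef]; exact lt_min one_pos (by positivity)
  have hδ1 : δ ≤ 1 := by rw [hδdef]; exact min_le_left _ _
  have hδb : 6 * δ ≤ b / 4 := by
    have : δ ≤ b / 24 := by rw [hδdef]; exact min_le_right _ _
    linarith
  obtain ⟨N₀, hN₀⟩ := exists_nat_gt (max (288 / b) (1728 / (κ * ϑ * b * δ)))
  refine ⟨N₀, fun N hN => ?_⟩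
  have hNgt : max (288 / b) (1728 / (κ * ϑ * b * δ)) < (N : ℝ) :=
    hN₀.trans_le (by exact_mod_cast hN)
  have hN1 : 288 / b < (N : ℝ) := (le_max_left _ _).trans_lt hNgt
  have hN2 : 1728 / (κ * ϑ * b * δ) < (N : ℝ) := (le_max_right _ _).trans_lt hNgt
  have hNpos : (0 : ℝ) < N := lt_trans (by positivity) hN1
  have hNnat : 0 < N := by exact_mod_cast hNpos
  obtain ⟨h, hhdef⟩ : ∃ h : ℝ, h = 1 / N := ⟨_, rfl⟩
  have hh : 0 < h := by rw [hhdef]; positivity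
  have hNh : (N : ℝ) * h = 1 := by rw [hhdef]; field_simp
  have hh1 : 288 * h < b := by
    rw [div_lt_iff₀ hb] at hN1
    have := mul_lt_mul_of_pos_right hN1 hh
    nlinarith
  have hh2 : 1728 * h < κ * ϑ * b * δ := by
    rw [div_lt_iff₀ (by positivity)] at hN2
    have := mul_lt_mul_of_pos_right hN2 hh
    nlinarith
  by_cases hB0 : 0 ≤ B
  swap
  · exact ⟨1, one_pos, fun ε S P _ _ _ hB => absurd (if_B_nonneg S P B hB) hB0⟩
  -- constants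
  obtain ⟨cO, hcO⟩ : ∃ c, c = 2 * Real.log (2 * (B + 2) + 1) := ⟨_, rfl⟩
  obtain ⟨cV, hcV⟩ : ∃ c, c = 2 * Real.log (2 * (2 * B + 1) + 1) := ⟨_, rfl⟩
  obtain ⟨c0, hc0⟩ : ∃ c, c = Real.log (2 * (B + 1) + 1) := ⟨_, rfl⟩
  have hcO0 : 0 ≤ cO := by rw [hcO]; exact mul_nonneg (by norm_num) (Real.log_nonneg (by linarith))
  have hcV0 : 0 ≤ cV := by rw [hcV]; exact mul_nonneg (by norm_num) (Real.log_nonneg (by linarith))
  have hc00 : 0 ≤ c0 := by rw [hc0]; exact Real.log_nonneg (by linarith)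
  have hl5 : 0 < Real.log 5 := Real.log_pos (by norm_num)
  have hl2 : 0 < Real.log 2 := Real.log_pos (by norm_num)
  have hl3 : 0 < Real.log 3 := Real.log_pos (by norm_num)
  obtain ⟨Λ, hΛdef⟩ : ∃ Λ, Λ = Real.log 5 / h + (cV + N * cO) / h
      + (3 * c0 + N * cO + N * C₁ + 1) / (3 * b / 8) + (Real.log 2 / δ + Real.log 3) / (κ * ϑ * h / 2) := ⟨_, rfl⟩
  have t1 : 0 ≤ Real.log 5 / h := by positivity
  have t2 : 0 ≤ (cV + N * cO) / h := by positivity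
  have t3 : 0 ≤ (3 * c0 + N * cO + N * C₁ + 1) / (3 * b / 8) := by positivity
  have t4 : 0 ≤ (Real.log 2 / δ + Real.log 3) / (κ * ϑ * h / 2) := by positivity
  refine ⟨Real.exp (-Λ), Real.exp_pos _, ?_⟩
  intro ε S P h0 hlt h1 hB hH
  obtain ⟨ℓ, hℓdef⟩ : ∃ ℓ, ℓ = lg ε := ⟨_, rfl⟩
  have hℓ0 : 0 < ℓ := by rw [hℓdef]; exact if_lg_pos ε h0 h1
  have hℓΛ : Λ ≤ ℓ := by
    have := Real.log_lt_log h0 hlt
    rw [Real.log_exp] at this
    rw [hℓdef]; unfold lg; rw [one_div, Real.log_inv]; linarith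
  have u1 : Real.log 5 ≤ h * ℓ := by
    have : Real.log 5 / h ≤ ℓ := by linarith
    rw [div_le_iff₀ hh] at this; linarith
  have u2 : cV + N * cO ≤ h * ℓ := by
    have : (cV + N * cO) / h ≤ ℓ := by linarith
    rw [div_le_iff₀ hh] at this; linarith
  have u3 : 3 * c0 + N * cO + N * C₁ + 1 ≤ 3 * b / 8 * ℓ := by
    have : (3 * c0 + N * cO + N * C₁ + 1) / (3 * b / 8) ≤ ℓ := by linarith
    rw [div_le_iff₀ (by positivity)] at this; linarith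
  have u4 : Real.log 2 / δ + Real.log 3 ≤ κ * ϑ * h / 2 * ℓ := by
    have : (Real.log 2 / δ + Real.log 3) / (κ * ϑ * h / 2) ≤ ℓ := by linarith
    rw [div_le_iff₀ (by positivity)] at this; linarith
  obtain ⟨sE, sI, sT⟩ := isA_sums S P ε B N hNnat h0 h1 hB
  rw [← hcO] at sE sI
  rw [← hcV, ← hℓdef, ← hhdef] at sI
  rw [← hhdef] at sE sT
  have hz := if_time_zero S P ε B hB
  rw [← hc0] at hz
  rw [← hℓdef] at hH
  obtain ⟨l, hldef⟩ : ∃ l : ℝ, l = ϑ / N := ⟨_, rfl⟩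
  have hl : 0 < l := by rw [hldef]; positivity
  have hlh : l ≤ h := by rw [hldef, hhdef]; exact div_le_div_of_nonneg_right hϑ1 hNpos.le
  have hNl : (N : ℝ) * l = ϑ := by rw [hldef]; field_simp
  obtain ⟨Is, hIs⟩ : ∃ Is, Is = 288 * h ^ 2 / b * ℓ := ⟨_, rfl⟩
  have hIs0 : 0 < Is := by rw [hIs]; positivity
  -- the pigeonhole
  have hp := iso_pigeon N
    (fun j => 3 * P.entC (S.Ct ε ((j : ℝ) / N + h)) (S.TC ε ((j : ℝ) / N))
      - P.entC (S.U1 ε ((j : ℝ) / N) h) (S.Oo ε ((j : ℝ) / N)))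
    (fun j => P.miC (S.U1 ε ((j : ℝ) / N) h) (S.Vo ε h) (S.Oo ε ((j : ℝ) / N)))
    6 (12 * l * ℓ + 6 * h * ℓ * δ + C₁) (3 * (h * ℓ + Real.log 5)) Is
    (fun j => ∃ f : ℤ × ℤ × ℤ → ℝ × ℝ,
      Real.exp (-(3 * P.miC (S.U1 ε ((j : ℝ) / N) h) (S.Vo ε h) (S.Oo ε ((j : ℝ) / N)) + Real.log 2) / δ)
        ≤ 3 * P.pr (S.Strip ε ((j : ℝ) / N) l f))
    (fun j _ => ie_miC_nonneg P _ _ _) hIs0 (by positivity) (by positivity) (by norm_num)
    (fun j _ => by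
      have := hwin ε S P ((j : ℝ) / N) h l δ h0 h1 hB hh.le hl.le hlh hδ hδ1
      rw [← hℓdef] at this
      rcases this with h' | h'
      · left; linarith
      · right; exact h')
    (fun j _ => by
      have a1 := if_time_cap S P ε ((j : ℝ) / N) h h0 h1 hh.le
      have a2 := ie_entC_nonneg P (S.U1 ε ((j : ℝ) / N) h) (S.Oo ε ((j : ℝ) / N))
      rw [← hℓdef] at a1
      show 3 * P.entC (S.Ct ε ((j : ℝ) / N + h)) (S.TC ε ((j : ℝ) / N))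
        - P.entC (S.U1 ε ((j : ℝ) / N) h) (S.Oo ε ((j : ℝ) / N)) ≤ _
      linarith)
    (by
      rw [Finset.sum_sub_distrib, ← Finset.mul_sum, sT]
      obtain ⟨SI, hSI⟩ : ∃ SI, SI = ∑ j ∈ Finset.range N,
        P.miC (S.U1 ε ((j : ℝ) / N) h) (S.Vo ε h) (S.Oo ε ((j : ℝ) / N)) := ⟨_, rfl⟩
      rw [← hSI] at sI ⊢
      have hSI0 : 0 ≤ SI := by
        rw [hSI]; exact Finset.sum_nonneg fun j _ => ie_miC_nonneg P _ _ _
      have hSI3 : SI ≤ 3 * (h * ℓ) := by linarith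
      -- Dm / Is ≤ b / (48 h)
      have hq : 3 * (h * ℓ + Real.log 5) / Is ≤ b / (48 * h) := by
        rw [hIs, div_le_div_iff₀ (by positivity) (by positivity)]
        have : 3 * (h * ℓ + Real.log 5) ≤ 6 * (h * ℓ) := by linarith
        calc 3 * (h * ℓ + Real.log 5) * (48 * h) ≤ 6 * (h * ℓ) * (48 * h) :=
              mul_le_mul_of_nonneg_right this (by positivity)
          _ = b * (288 * h ^ 2 / b * ℓ) := by field_simp; ring
      have hq0 : 0 ≤ 3 * (h * ℓ + Real.log 5) / Is := by positivity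
      have e1 : (6 + 3 * (h * ℓ + Real.log 5) / Is) * SI ≤ (6 + b / (48 * h)) * (3 * (h * ℓ)) :=
        mul_le_mul (by linarith) hSI3 hSI0 (by positivity)
      have e2 : (6 + b / (48 * h)) * (3 * (h * ℓ)) = 18 * h * ℓ + b / 16 * ℓ := by
        field_simp; ring
      have e3 : 18 * h * ℓ ≤ b / 16 * ℓ := mul_le_mul_of_nonneg_right (by linarith) hℓ0.le
      have e4 : (N : ℝ) * (12 * l * ℓ + 6 * h * ℓ * δ + C₁) = 12 * ϑ * ℓ + 6 * δ * ℓ + N * C₁ := by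
        calc (N : ℝ) * (12 * l * ℓ + 6 * h * ℓ * δ + C₁)
            = 12 * ((N : ℝ) * l) * ℓ + 6 * ((N : ℝ) * h) * ℓ * δ + N * C₁ := by ring
          _ = 12 * ϑ * ℓ + 6 * δ * ℓ + N * C₁ := by rw [hNl, hNh]; ring
      have e5 : 12 * ϑ * ℓ ≤ b / 4 * ℓ := mul_le_mul_of_nonneg_right (by linarith) hℓ0.le
      have e6 : 6 * δ * ℓ ≤ b / 4 * ℓ := mul_le_mul_of_nonneg_right hδb hℓ0.le
      rw [e4]
      linarith)
  obtain ⟨j, hjN, ⟨f, hf⟩, hIj⟩ := hp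
  refine ⟨j, f, hjN, ?_⟩
  rw [← hldef]
  -- lower bound of the exponential
  have g1 : κ * l = κ * ϑ * h := by rw [hldef, hhdef]; ring
  have g2 : (3 * Is + Real.log 2) / δ + Real.log 3 ≤ κ * l * ℓ := by
    have a1 : 3 * Is / δ ≤ κ * ϑ * h / 2 * ℓ := by
      rw [hIs, div_le_iff₀ hδ]
      have : 3 * (288 * h ^ 2 / b * ℓ) = 864 * h * (h * ℓ) / b := by field_simp; ring
      rw [this, div_le_iff₀ hb]
      have hhl : 0 < h * ℓ := by positivity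
      have : 864 * h ≤ κ * ϑ * b * δ / 2 := by linarith
      calc 864 * h * (h * ℓ) ≤ κ * ϑ * b * δ / 2 * (h * ℓ) := mul_le_mul_of_nonneg_right this hhl.le
        _ = κ * ϑ * h / 2 * ℓ * δ * b := by ring
    rw [g1, add_div]
    linarith
  have g3 : Real.exp (-(κ * l * ℓ)) * 3 ≤
      Real.exp (-(3 * P.miC (S.U1 ε ((j : ℝ) / N) h) (S.Vo ε h) (S.Oo ε ((j : ℝ) / N)) + Real.log 2) / δ) := by
    have : Real.exp (-(κ * l * ℓ)) * 3 = Real.exp (-(κ * l * ℓ) + Real.log 3) := by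
      rw [Real.exp_add, Real.exp_log (by norm_num)]
    rw [this]
    refine Real.exp_le_exp.2 ?_
    have a2 : (3 * P.miC (S.U1 ε ((j : ℝ) / N) h) (S.Vo ε h) (S.Oo ε ((j : ℝ) / N)) + Real.log 2) / δ
        ≤ (3 * Is + Real.log 2) / δ := div_le_div_of_nonneg_right (by linarith) hδ.le
    rw [neg_div]
    linarith
  have g4 : ε ^ (κ * l) = Real.exp (-(κ * l * ℓ)) := by
    rw [Real.rpow_def_of_pos h0, hℓdef]
    unfold lg
    rw [one_div, Real.log_inv]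
    congr 1; ring
  rw [g4]
  linarith

end Claimed.Agent.R255
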