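import Claimed.Agent.R255.Iso.Win2
import Claimed.Agent.R255.Iso.Pigeon

/-!
# Row 255, Sec. 5: Stage B (two slopes in the last block => confinement of the tangent velocity)      (architect helper220)
-/

set_option autoImplicit false

namespace Claimed.Agent.R255

open scoped BigOperators
open Classical

theorem isB_step (a gw : ℝ) (i : ℕ) : a + (i : ℝ) * gw + gw = a + ((i + 1 : ℕ) : ℝ) * gw := by push_cast; ring

/-- the three sums over the windows of the last block -/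
theorem isB_sums (S : CSys) (P : FLaw S.Ω) (ε B k a gw : ℝ) (f : ℤ × ℤ × ℤ → ℝ × ℝ) (M : ℕ) (h0 : 0 < ε)
    (h1 : ε < 1) (hgw : 0 ≤ gw) (hM : a + (M : ℝ) * gw = 1) (hB : (S.withLaw P).Bdd B) :
    (∑ i ∈ Finset.range M, P.entC (S.U2 ε k a (a + (i : ℝ) * gw) gw f) (S.Zo ε k a (a + (i : ℝ) * gw) f)
        ≤ P.entC (S.Oo ε 1) (S.Bo ε k a f) + Real.log (2 * (2 * B + 3) + 1)
          + M * Real.log (2 * (2 * B + 2) + 1)) ∧
    (∑ i ∈ Finset.range M, P.miC (S.U2 ε k a (a + (i : ℝ) * gw) gw f) (S.Xo ε k gw f)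
        (S.Zo ε k a (a + (i : ℝ) * gw) f)
        ≤ gw * lg ε + Real.log (2 * (2 * (2 * B) + 1) + 1) + M * Real.log (2 * (2 * B + 2) + 1)) ∧
    (∑ i ∈ Finset.range M, P.entC (S.Ct ε (a + (i : ℝ) * gw + gw)) (S.TC ε (a + (i : ℝ) * gw))
        = P.entC (S.Ct ε 1) (S.TC ε a)) := by
  have hU : ∀ i : ℕ, S.U2 ε k a (a + (i : ℝ) * gw) gw f
      = FLaw.pair (S.Zo ε k a (a + (i : ℝ) * gw) f) (S.Zo ε k a (a + ((i + 1 : ℕ) : ℝ) * gw) f) := by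
    intro i; unfold CSys.U2; rw [isB_step]
  have hmono : ∀ i : ℕ, a + (i : ℝ) * gw ≤ a + ((i + 1 : ℕ) : ℝ) * gw := by
    intro i; rw [← isB_step]; linarith
  have hc : ∀ i < M, P.entC (S.Zo ε k a (a + (i : ℝ) * gw) f) (S.Zo ε k a (a + ((i + 1 : ℕ) : ℝ) * gw) f)
      ≤ Real.log (2 * (2 * B + 2) + 1) :=
    fun i _ => if_Zo_coarse S P ε k a _ _ B f h0 h1 (hmono i) hB
  have h00 : a + ((0 : ℕ) : ℝ) * gw = a := by simp
  have ha1 : a ≤ 1 := by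
    have : 0 ≤ (M : ℝ) * gw := by positivity
    linarith
  refine ⟨?_, ?_, ?_⟩
  · have := iso_tele_H P (fun i => S.Zo ε k a (a + (i : ℝ) * gw) f) M _ hc
    simp only [hU]
    rw [hM] at this
    have b1 := if_Zo_of_O1 S P ε k a 1 B f h0 h1 le_rfl hB
    have b2 : P.ent (S.Zo ε k a 1 f) ≤ P.ent (FLaw.pair (S.Zo ε k a 1 f) (FLaw.pair (S.Oo ε 1) (S.Bo ε k a f))) :=
      ie_ent_le_pair P _ _
    have b3 : P.ent (S.Bo ε k a f) ≤ P.ent (S.Zo ε k a (a + ((0 : ℕ) : ℝ) * gw) f) :=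
      ie_ent_mono P _ _ Prod.fst (fun _ _ => rfl)
    have b4 : P.entC (S.Oo ε 1) (S.Bo ε k a f)
        = P.ent (FLaw.pair (S.Oo ε 1) (S.Bo ε k a f)) - P.ent (S.Bo ε k a f) := rfl
    unfold FLaw.entC at b1
    linarith
  · have := iso_tele_I P (fun i => S.Zo ε k a (a + (i : ℝ) * gw) f) (S.Xo ε k gw f) M _ hc
    simp only [hU]
    have h2 := if_ent_Xo S P ε k gw B f h0 h1 hgw hB
    linarith
  · have : ∀ i ∈ Finset.range M, P.entC (S.Ct ε (a + (i : ℝ) * gw + gw)) (S.TC ε (a + (i : ℝ) * gw))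
        = P.entC (S.Ct ε (a + ((i + 1 : ℕ) : ℝ) * gw)) S.T - P.entC (S.Ct ε (a + (i : ℝ) * gw)) S.T := by
      intro i _
      rw [isB_step]
      exact if_time_chain S P ε _ _ h0 h1 (hmono i)
    rw [Finset.sum_congr rfl this,
      Finset.sum_range_sub (fun i : ℕ => P.entC (S.Ct ε (a + (i : ℝ) * gw)) S.T), hM, h00,
      if_time_chain S P ε a 1 h0 h1 ha1]

/-- **Stage B** -/
theorem iso_stageB (B g κ₂ : ℝ) (hg : 0 < g) (hκ₂ : 0 < κ₂) :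
    ∃ a₀ : ℝ, 0 < a₀ ∧ a₀ ≤ 1 ∧ ∃ M₀ : ℕ, ∀ M : ℕ, M₀ ≤ M → ∀ l : ℝ, 0 < l → l ≤ 1 / 2 →
      ∃ ε₀ : ℝ, 0 < ε₀ ∧ ∀ (ε : ℝ) (S : CSys) (P' : FLaw S.Ω) (k : ℝ) (f : ℤ × ℤ × ℤ → ℝ × ℝ),
      0 < ε → ε < ε₀ → ε < 1 → (S.withLaw P').Bdd B → 0 ≤ k → k ≤ 1 - l →
      P'.entC (S.Oo ε 1) (S.Bo ε k (1 - l) f) - 2 * P'.entC (S.Ct ε 1) (S.TC ε (1 - l)) ≤ - g * l * lg ε →
      ∃ (i : ℕ) (f₂ : ((ℤ × ℤ × ℤ) × (ℤ × ℤ × ℤ) × ℤ) × (ℤ × ℤ) → ℝ), i < M ∧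
        ε ^ (κ₂ * (a₀ * l / M)) ≤
          P'.pr (S.Conf ε k (1 - l) (1 - l + (i : ℝ) * (l / M)) (a₀ * l / M) f f₂) := by
  obtain ⟨C₂, hC₂, hwin⟩ := iso_win2 B
  obtain ⟨a₀, ha₀def⟩ : ∃ a₀, a₀ = min 1 (g / 4) := ⟨_, rfl⟩
  have ha₀ : 0 < a₀ := by rw [ha₀def]; exact lt_min one_pos (by positivity)
  have ha₀1 : a₀ ≤ 1 := by rw [ha₀def]; exact min_le_left _ _
  have ha₀g : a₀ ≤ g / 4 := by rw [ha₀def]; exact min_le_right _ _
  obtain ⟨δ, hδdef⟩ : ∃ δ, δ = min 1 (g / 16) := ⟨_, rfl⟩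
  have hδ : 0 < δ := by rw [hδdef]; exact lt_min one_pos (by positivity)
  have hδ1 : δ ≤ 1 := by rw [hδdef]; exact min_le_left _ _
  have hδg : 2 * δ ≤ g / 8 := by
    have : δ ≤ g / 16 := by rw [hδdef]; exact min_le_right _ _
    linarith
  obtain ⟨e₁, he₁def⟩ : ∃ e₁, e₁ = κ₂ * a₀ * δ / 4 := ⟨_, rfl⟩
  have he₁ : 0 < e₁ := by rw [he₁def]; positivity
  obtain ⟨M₀, hM₀⟩ := exists_nat_gt (8 * (4 + 8 / e₁) / g)
  refine ⟨a₀, ha₀, ha₀1, M₀, fun M hM l hl hl2 => ?_⟩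
  have hMgt : 8 * (4 + 8 / e₁) / g < (M : ℝ) := hM₀.trans_le (by exact_mod_cast hM)
  have hMpos : (0 : ℝ) < M := lt_trans (by positivity) hMgt
  obtain ⟨gw, hgwdef⟩ : ∃ gw : ℝ, gw = l / M := ⟨_, rfl⟩
  have hgw : 0 < gw := by rw [hgwdef]; positivity
  have hMgw : (M : ℝ) * gw = l := by rw [hgwdef]; field_simp
  have hM1 : (4 + 8 / e₁) * gw ≤ g / 8 * l := by
    rw [div_lt_iff₀ hg] at hMgt
    have := mul_le_mul_of_nonneg_right hMgt.le hgw.le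
    nlinarith
  obtain ⟨d, hddef⟩ : ∃ d : ℝ, d = a₀ * l / M := ⟨_, rfl⟩
  have hdgw : d = a₀ * gw := by rw [hddef, hgwdef]; ring
  have hd : 0 < d := by rw [hdgw]; positivity
  have hdle : d ≤ gw := by rw [hdgw]; nlinarith
  have hMd : (M : ℝ) * d = a₀ * l := by rw [hdgw, ← hMgw]; ring
  by_cases hB0 : 0 ≤ B
  swap
  · exact ⟨1, one_pos, fun ε S P k f _ _ _ hB => absurd (if_B_nonneg S P B hB) hB0⟩
  obtain ⟨cZ, hcZ⟩ : ∃ c, c = Real.log (2 * (2 * B + 2) + 1) := ⟨_, rfl⟩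
  obtain ⟨cX, hcX⟩ : ∃ c, c = Real.log (2 * (2 * (2 * B) + 1) + 1) := ⟨_, rfl⟩
  obtain ⟨cF, hcF⟩ : ∃ c, c = Real.log (2 * (2 * B + 3) + 1) := ⟨_, rfl⟩
  have hcZ0 : 0 ≤ cZ := by rw [hcZ]; exact Real.log_nonneg (by linarith)
  have hcX0 : 0 ≤ cX := by rw [hcX]; exact Real.log_nonneg (by linarith)
  have hcF0 : 0 ≤ cF := by rw [hcF]; exact Real.log_nonneg (by linarith)
  have hl5 : 0 < Real.log 5 := Real.log_pos (by norm_num)
  have hl2' : 0 < Real.log 2 := Real.log_pos (by norm_num)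
  obtain ⟨Λ, hΛdef⟩ : ∃ Λ, Λ = Real.log 5 / gw + (cX + M * cZ) / gw
      + (cF + M * cZ + M * C₂ + 1) / (g * l / 2) + (Real.log 2 / δ + Real.log 2) / (κ₂ * d / 2) := ⟨_, rfl⟩
  have t1 : 0 ≤ Real.log 5 / gw := by positivity
  have t2 : 0 ≤ (cX + M * cZ) / gw := by positivity
  have t3 : 0 ≤ (cF + M * cZ + M * C₂ + 1) / (g * l / 2) := by positivity
  have t4 : 0 ≤ (Real.log 2 / δ + Real.log 2) / (κ₂ * d / 2) := by positivity
  refine ⟨Real.exp (-Λ), Real.exp_pos _, ?_⟩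
  intro ε S P k f h0 hlt h1 hB hk0 hk1 hH
  obtain ⟨ℓ, hℓdef⟩ : ∃ ℓ, ℓ = lg ε := ⟨_, rfl⟩
  have hℓ0 : 0 < ℓ := by rw [hℓdef]; exact if_lg_pos ε h0 h1
  have hℓΛ : Λ ≤ ℓ := by
    have := Real.log_lt_log h0 hlt
    rw [Real.log_exp] at this
    rw [hℓdef]; unfold lg; rw [one_div, Real.log_inv]; linarith
  have u1 : Real.log 5 ≤ gw * ℓ := by
    have : Real.log 5 / gw ≤ ℓ := by linarith
    rw [div_le_iff₀ hgw] at this; linarith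
  have u2 : cX + M * cZ ≤ gw * ℓ := by
    have : (cX + M * cZ) / gw ≤ ℓ := by linarith
    rw [div_le_iff₀ hgw] at this; linarith
  have u3 : cF + M * cZ + M * C₂ + 1 ≤ g * l / 2 * ℓ := by
    have : (cF + M * cZ + M * C₂ + 1) / (g * l / 2) ≤ ℓ := by linarith
    rw [div_le_iff₀ (by positivity)] at this; linarith
  have u4 : Real.log 2 / δ + Real.log 2 ≤ κ₂ * d / 2 * ℓ := by
    have : (Real.log 2 / δ + Real.log 2) / (κ₂ * d / 2) ≤ ℓ := by linarith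
    rw [div_le_iff₀ (by positivity)] at this; linarith
  obtain ⟨a, hadef⟩ : ∃ a : ℝ, a = 1 - l := ⟨_, rfl⟩
  rw [← hadef] at hk1 hH ⊢
  rw [← hℓdef] at hH
  rw [← hgwdef, ← hddef]
  have haM : a + (M : ℝ) * gw = 1 := by rw [hMgw, hadef]; ring
  obtain ⟨sE, sI, sT⟩ := isB_sums S P ε B k a gw f M h0 h1 hgw.le haM hB
  rw [← hcZ, ← hcF] at sE
  rw [← hcZ, ← hcX, ← hℓdef] at sI
  obtain ⟨Is, hIs⟩ : ∃ Is, Is = e₁ * (gw * ℓ) := ⟨_, rfl⟩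
  have hIs0 : 0 < Is := by rw [hIs]; positivity
  have hp := iso_pigeon M
    (fun i => 2 * P.entC (S.Ct ε (a + (i : ℝ) * gw + gw)) (S.TC ε (a + (i : ℝ) * gw))
      - P.entC (S.U2 ε k a (a + (i : ℝ) * gw) gw f) (S.Zo ε k a (a + (i : ℝ) * gw) f))
    (fun i => P.miC (S.U2 ε k a (a + (i : ℝ) * gw) gw f) (S.Xo ε k gw f) (S.Zo ε k a (a + (i : ℝ) * gw) f))
    2 (d * ℓ + 2 * gw * ℓ * δ + C₂) (2 * (gw * ℓ + Real.log 5)) Is
    (fun i => ∃ f₂ : ((ℤ × ℤ × ℤ) × (ℤ × ℤ × ℤ) × ℤ) × (ℤ × ℤ) → ℝ,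
      Real.exp (-(2 * P.miC (S.U2 ε k a (a + (i : ℝ) * gw) gw f) (S.Xo ε k gw f)
        (S.Zo ε k a (a + (i : ℝ) * gw) f) + Real.log 2) / δ)
        ≤ 2 * P.pr (S.Conf ε k a (a + (i : ℝ) * gw) d f f₂))
    (fun i _ => ie_miC_nonneg P _ _ _) hIs0 (by positivity) (by positivity) (by norm_num)
    (fun i _ => by
      have hti : a ≤ a + (i : ℝ) * gw := by
        have : 0 ≤ (i : ℝ) * gw := by positivity
        linarith
      have := hwin ε S P k a (a + (i : ℝ) * gw) gw d δ f h0 h1 hB hk1 hti hgw.le hd.le hdle hδ hδ1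
      rw [← hℓdef] at this
      rcases this with h' | h'
      · left; linarith
      · right; exact h')
    (fun i _ => by
      have a1 := if_time_cap S P ε (a + (i : ℝ) * gw) gw h0 h1 hgw.le
      have a2 := ie_entC_nonneg P (S.U2 ε k a (a + (i : ℝ) * gw) gw f) (S.Zo ε k a (a + (i : ℝ) * gw) f)
      rw [← hℓdef] at a1
      show 2 * P.entC (S.Ct ε (a + (i : ℝ) * gw + gw)) (S.TC ε (a + (i : ℝ) * gw))
        - P.entC (S.U2 ε k a (a + (i : ℝ) * gw) gw f) (S.Zo ε k a (a + (i : ℝ) * gw) f) ≤ _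
      linarith)
    (by
      rw [Finset.sum_sub_distrib, ← Finset.mul_sum, sT]
      obtain ⟨SI, hSI⟩ : ∃ SI, SI = ∑ i ∈ Finset.range M,
        P.miC (S.U2 ε k a (a + (i : ℝ) * gw) gw f) (S.Xo ε k gw f) (S.Zo ε k a (a + (i : ℝ) * gw) f) := ⟨_, rfl⟩
      rw [← hSI] at sI ⊢
      have hSI0 : 0 ≤ SI := by
        rw [hSI]; exact Finset.sum_nonneg fun j _ => ie_miC_nonneg P _ _ _
      have hSI3 : SI ≤ 2 * (gw * ℓ) := by linarith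
      have hq : 2 * (gw * ℓ + Real.log 5) / Is ≤ 4 / e₁ := by
        rw [hIs, div_le_div_iff₀ (by positivity) he₁]
        have : 2 * (gw * ℓ + Real.log 5) ≤ 4 * (gw * ℓ) := by linarith
        calc 2 * (gw * ℓ + Real.log 5) * e₁ ≤ 4 * (gw * ℓ) * e₁ := mul_le_mul_of_nonneg_right this he₁.le
          _ = 4 * (e₁ * (gw * ℓ)) := by ring
      have hq0 : 0 ≤ 2 * (gw * ℓ + Real.log 5) / Is := by positivity
      have e1 : (2 + 2 * (gw * ℓ + Real.log 5) / Is) * SI ≤ (2 + 4 / e₁) * (2 * (gw * ℓ)) :=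
        mul_le_mul (by linarith) hSI3 hSI0 (by positivity)
      have e2 : (2 + 4 / e₁) * (2 * (gw * ℓ)) = (4 + 8 / e₁) * gw * ℓ := by ring
      have e3 : (4 + 8 / e₁) * gw * ℓ ≤ g / 8 * l * ℓ := mul_le_mul_of_nonneg_right hM1 hℓ0.le
      have e4 : (M : ℝ) * (d * ℓ + 2 * gw * ℓ * δ + C₂) = a₀ * l * ℓ + 2 * δ * l * ℓ + M * C₂ := by
        calc (M : ℝ) * (d * ℓ + 2 * gw * ℓ * δ + C₂)
            = ((M : ℝ) * d) * ℓ + 2 * ((M : ℝ) * gw) * ℓ * δ + M * C₂ := by ring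
          _ = a₀ * l * ℓ + 2 * δ * l * ℓ + M * C₂ := by rw [hMd, hMgw]; ring
      have hlℓ : 0 < l * ℓ := by positivity
      have e5 : a₀ * l * ℓ ≤ g / 4 * l * ℓ := by
        have := mul_le_mul_of_nonneg_right ha₀g hlℓ.le
        linarith
      have e6 : 2 * δ * l * ℓ ≤ g / 8 * l * ℓ := by
        have := mul_le_mul_of_nonneg_right hδg hlℓ.le
        linarith
      rw [e4]
      linarith)
  obtain ⟨i, hiM, ⟨f₂, hf⟩, hIi⟩ := hp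
  refine ⟨i, f₂, hiM, ?_⟩
  have g2 : (2 * Is + Real.log 2) / δ + Real.log 2 ≤ κ₂ * d * ℓ := by
    have a1 : 2 * Is / δ ≤ κ₂ * d / 2 * ℓ := by
      rw [hIs, div_le_iff₀ hδ, he₁def, hdgw]
      exact le_of_eq (by ring)
    rw [add_div]
    linarith
  have g3 : Real.exp (-(κ₂ * d * ℓ)) * 2 ≤
      Real.exp (-(2 * P.miC (S.U2 ε k a (a + (i : ℝ) * gw) gw f) (S.Xo ε k gw f)
        (S.Zo ε k a (a + (i : ℝ) * gw) f) + Real.log 2) / δ) := by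
    have : Real.exp (-(κ₂ * d * ℓ)) * 2 = Real.exp (-(κ₂ * d * ℓ) + Real.log 2) := by
      rw [Real.exp_add, Real.exp_log (by norm_num)]
    rw [this]
    refine Real.exp_le_exp.2 ?_
    have a2 : (2 * P.miC (S.U2 ε k a (a + (i : ℝ) * gw) gw f) (S.Xo ε k gw f)
        (S.Zo ε k a (a + (i : ℝ) * gw) f) + Real.log 2) / δ
        ≤ (2 * Is + Real.log 2) / δ := div_le_div_of_nonneg_right (by linarith) hδ.le
    rw [neg_div]
    linarith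
  have g4 : ε ^ (κ₂ * d) = Real.exp (-(κ₂ * d * ℓ)) := by
    rw [Real.rpow_def_of_pos h0, hℓdef]
    unfold lg
    rw [one_div, Real.log_inv]
    congr 1; ring
  rw [g4]
  linarith

end Claimed.Agent.R255
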