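import Claimed.Agent.R255.Iso.Labels

/-!
# Row 255, Sec. 5: Stage B0 (score comparison of `B` and `O_1`) and Stage C (confined velocities contradict universality)      (architect helper220)
-/

set_option autoImplicit false

namespace Claimed.Agent.R255

open scoped BigOperators
open Classical

theorem isb_bdd_dom (S : CSys) (B K : ℝ) (P' : FLaw S.Ω) (hS : S.Bdd B) (hD : P'.Dom K S.P) :
    (S.withLaw P').Bdd B := fun ω hω => hS ω (ie_dom_supp P' S.P K hD ω hω)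

/-- given `T`, the anchored observation and the time cell determine each other -/
theorem isb_entC_Oo_T (S : CSys) (P : FLaw S.Ω) (ε u : ℝ) :
    P.entC (S.Oo ε u) S.T = P.entC (S.Ct ε u) S.T := by
  unfold FLaw.entC
  congr 1
  refine ie_ent_congr P _ _ (fun x => (x.1.1, x.2))
    (fun x => ((x.1, tcell ε u ((S.A x.2).1 + (x.1 : ℝ) / 2 ^ (tlev ε u) * (S.V x.2).1),
      tcell ε u ((S.A x.2).2 + (x.1 : ℝ) / 2 ^ (tlev ε u) * (S.V x.2).2)), x.2)) ?_ ?_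
  · intro ω _
    rfl
  · intro ω _
    rfl

/-- the common arithmetic of the two score comparisons -/
theorem isb_arith (w mG ca τ β t ν K η mO c1 ℓ : ℝ) (hℓ : 0 < ℓ)
    (hu : w - mG / ℓ + 2 * (ca / ℓ) ≤ τ + β * t + ν)
    (hr : β - 4 * Real.log K / ℓ - η ≤ - (mO / ℓ) + 2 * (c1 / ℓ) - τ) :
    w * ℓ + (mO - mG) - 2 * (c1 - ca) ≤ - β * (1 - t) * ℓ + (ν + η) * ℓ + 4 * Real.log K := by
  have h := add_le_add hu hr
  have h2 := mul_le_mul_of_nonneg_right h hℓ.le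
  have e1 : (w - mG / ℓ + 2 * (ca / ℓ) + (β - 4 * Real.log K / ℓ - η)) * ℓ
      = w * ℓ - mG + 2 * ca + β * ℓ - 4 * Real.log K - η * ℓ := by field_simp; ring
  have e2 : (τ + β * t + ν + (- (mO / ℓ) + 2 * (c1 / ℓ) - τ)) * ℓ
      = β * t * ℓ + ν * ℓ - mO + 2 * c1 := by field_simp; ring
  rw [e1, e2] at h2
  linarith

/-- **Stage B0** -/
theorem iso_stageB0 (γ B ν : ℝ) (h0 : 0 < γ) (h1 : γ < 1) (U : UnivBound γ (beta γ)) (hν : 0 < ν) :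
    ∃ C ε₀ : ℝ, 0 ≤ C ∧ 0 < ε₀ ∧ ∀ (ε : ℝ) (S : CSys) (P' : FLaw S.Ω) (K η k l : ℝ) (f : ℤ × ℤ × ℤ → ℝ × ℝ),
      0 < ε → ε < ε₀ → ε < 1 → S.Bdd B → S.RSat γ ε η → 1 ≤ K → P'.Dom K S.P →
      0 ≤ k → 0 < l → l ≤ 1 / 2 → k ≤ 1 - l → (∀ ω, 0 < P'.p ω → S.Strip ε k l f ω) →
      P'.entC (S.Oo ε 1) (S.Bo ε k (1 - l) f) - 2 * P'.entC (S.Ct ε 1) (S.TC ε (1 - l))
        ≤ - (beta γ - γ) * l * lg ε + (ν + η) * lg ε + 4 * Real.log K + C := by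
  obtain ⟨ε₀, hε₀, -, hU⟩ := U (3 + 2 * B) B 1 (1 / 2) ν (by norm_num) hν
  by_cases hB0 : 0 ≤ B
  swap
  · exact ⟨0, 1, le_rfl, one_pos, fun ε S P' K η k l f _ _ _ hS _ _ hD =>
      absurd (if_B_nonneg S P' B (isb_bdd_dom S B K P' hS hD)) hB0⟩
  have hlB : 0 ≤ Real.log (2 * (B + 2) + 1) := Real.log_nonneg (by linarith)
  have hl19 : 0 ≤ Real.log 19 := Real.log_nonneg (by norm_num)
  have hl5 : 0 ≤ Real.log 5 := Real.log_nonneg (by norm_num)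
  refine ⟨4 * Real.log (2 * (B + 2) + 1) + Real.log 19 + Real.log 5, ε₀, by positivity, hε₀, ?_⟩
  intro ε S P' K η k l f hε hlt hε1 hS hR hK hD hk hl hl2 hk1 hSt
  have hB' := isb_bdd_dom S B K P' hS hD
  have hℓ := if_lg_pos ε hε hε1
  have hlab := iso_label_B S P' ε k l B f hε hε1 hl.le hB' hSt
  have huniv := hU ε hε hlt (1 - l) 1 (by linarith) (by linarith) le_rfl (S.withLaw P') _
    (S.Bo ε k (1 - l) f) (geoB ε l f) hB' hlab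
  have hu : (1 - γ) * l - P'.mi S.T (S.Bo ε k (1 - l) f) / lg ε + 2 * (P'.entC (S.Ct ε (1 - l)) S.T / lg ε)
      ≤ (S.withLaw P').tau γ ε 1 + beta γ * (1 - l) + ν := by
    have hev : P'.ev (fun ω => wt γ (geoB ε l f (S.Bo ε k (1 - l) f ω))) = (1 - γ) * l := by
      simp only [il_wt_geoB]; exact ie_ev_const P' _
    rw [← hev]
    exact huniv
  have hr := hR P' K hK hD
  unfold CSys.tsc at hr
  have key := isb_arith _ _ _ _ _ _ _ _ _ _ _ _ hℓ hu hr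
  -- entropy facts
  have f1 := ie_mi_eq P' S.T (S.Oo ε 1)
  have f2 := ie_mi_eq P' S.T (S.Bo ε k (1 - l) f)
  rw [isb_entC_Oo_T] at f1
  have f3 : P'.ent (S.Oo ε 1) - P'.ent (S.Bo ε k (1 - l) f)
      = P'.entC (S.Oo ε 1) (S.Bo ε k (1 - l) f) - P'.entC (S.Bo ε k (1 - l) f) (S.Oo ε 1) := by
    unfold FLaw.entC
    rw [ie_ent_pair_comm P' (S.Bo ε k (1 - l) f) (S.Oo ε 1)]; ring
  have f4 : P'.entC (S.Ct ε (1 - l)) S.T ≤ P'.entC (S.Bo ε k (1 - l) f) S.T :=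
    ie_entC_mono P' _ _ _ (fun t => t.1.2.1.1) (fun _ _ => rfl)
  have f5 := if_time_chain S P' ε (1 - l) 1 hε hε1 (by linarith)
  have f6 := if_time_cap S P' ε (1 - l) l hε hε1 hl.le
  have e1 : (1 : ℝ) - l + l = 1 := by ring
  rw [e1] at f6
  have f7 := if_Bo_of_O1 S P' ε k l B f hε hε1 hk1 hl.le (by linarith) hB' hSt
  have e2 : - beta γ * (1 - (1 - l)) * lg ε = - beta γ * l * lg ε := by ring
  rw [e2] at key
  nlinarith

/-- **Stage C** -/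
theorem iso_stageC (γ B ν : ℝ) (h0 : 0 < γ) (h1 : γ < 1) (U : UnivBound γ (beta γ)) (hν : 0 < ν) :
    ∃ C ε₀ : ℝ, 0 ≤ C ∧ 0 < ε₀ ∧ ∀ (ε : ℝ) (S : CSys) (P'' : FLaw S.Ω) (K η k l t d : ℝ)
      (f : ℤ × ℤ × ℤ → ℝ × ℝ) (f₂ : ((ℤ × ℤ × ℤ) × (ℤ × ℤ × ℤ) × ℤ) × (ℤ × ℤ) → ℝ),
      0 < ε → ε < ε₀ → ε < 1 → S.Bdd B → S.RSat γ ε η → 1 ≤ K → P''.Dom K S.P →
      0 ≤ k → 0 < l → l ≤ 1 / 2 → k ≤ 1 - l → 1 - l ≤ t → t ≤ 1 → 0 < d → d ≤ l →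
      (∀ ω, 0 < P''.p ω → S.Strip ε k l f ω ∧ S.Conf ε k (1 - l) t d f f₂ ω) →
      beta γ * d * lg ε ≤ 4 * Real.log K + (ν + η) * lg ε + C := by
  obtain ⟨ε₀, hε₀, -, hU⟩ := U 3 B 1 (1 / 2) ν (by norm_num) hν
  by_cases hB0 : 0 ≤ B
  swap
  · exact ⟨0, 1, le_rfl, one_pos, fun ε S P' K η k l t d f f₂ _ _ _ hS _ _ hD =>
      absurd (if_B_nonneg S P' B (isb_bdd_dom S B K P' hS hD)) hB0⟩
  have hlB : 0 ≤ Real.log (2 * (B + 2) + 1) := Real.log_nonneg (by linarith)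
  have hlF : 0 ≤ Real.log (2 * (2 * B + 3) + 1) := Real.log_nonneg (by linarith)
  have hl19 : 0 ≤ Real.log 19 := Real.log_nonneg (by norm_num)
  have hl5 : 0 ≤ Real.log 5 := Real.log_nonneg (by norm_num)
  refine ⟨4 * Real.log (2 * (B + 2) + 1) + Real.log 19 + Real.log (2 * (2 * B + 3) + 1) + 2 * Real.log 5, ε₀,
    by positivity, hε₀, ?_⟩
  intro ε S P'' K η k l t d f f₂ hε hlt hε1 hS hR hK hD hk hl hl2 hk1 ht0 ht1 hd hdl hSt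
  have hB' := isb_bdd_dom S B K P'' hS hD
  have hℓ := if_lg_pos ε hε hε1
  have hlab := iso_label_G S P'' ε k (1 - l) t l d f f₂ hε hε1 hd.le hdl hSt
  have huniv := hU ε hε hlt (1 - d) 1 (by linarith) (by linarith) le_rfl (S.withLaw P'') _
    (FLaw.pair (S.Oo ε 1) (S.Zo ε k (1 - l) t f)) (geoG ε d f f₂) hB' hlab
  have hu : 2 * d - P''.mi S.T (FLaw.pair (S.Oo ε 1) (S.Zo ε k (1 - l) t f)) / lg ε
      + 2 * (P''.entC (S.Ct ε (1 - d)) S.T / lg ε) ≤ (S.withLaw P'').tau γ ε 1 + beta γ * (1 - d) + ν := by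
    have hev : P''.ev (fun ω => wt γ (geoG ε d f f₂ (FLaw.pair (S.Oo ε 1) (S.Zo ε k (1 - l) t f) ω)))
        = 2 * d := by
      simp only [il_wt_geoG]; exact ie_ev_const P'' _
    rw [← hev]
    exact huniv
  have hr := hR P'' K hK hD
  unfold CSys.tsc at hr
  have key := isb_arith _ _ _ _ _ _ _ _ _ _ _ _ hℓ hu hr
  have f1 := ie_mi_eq P'' S.T (S.Oo ε 1)
  have f2 := ie_mi_eq P'' S.T (FLaw.pair (S.Oo ε 1) (S.Zo ε k (1 - l) t f))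
  -- H(O_1, Z) = H(O_1) + H(Z | O_1)
  have f3 : P''.ent (FLaw.pair (S.Oo ε 1) (S.Zo ε k (1 - l) t f))
      = P''.ent (S.Oo ε 1) + P''.entC (S.Zo ε k (1 - l) t f) (S.Oo ε 1) := by
    unfold FLaw.entC
    rw [ie_ent_pair_comm P'' (S.Zo ε k (1 - l) t f) (S.Oo ε 1)]; ring
  have f4 : P''.entC (S.Oo ε 1) S.T ≤ P''.entC (FLaw.pair (S.Oo ε 1) (S.Zo ε k (1 - l) t f)) S.T :=
    ie_entC_mono P'' _ _ _ (fun t => t.1.1) (fun _ _ => rfl)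
  -- H(Z | O_1) ≤ H(B | O_1) + H(Z | O_1, B)
  have f5 : P''.entC (S.Zo ε k (1 - l) t f) (S.Oo ε 1)
      ≤ P''.entC (S.Bo ε k (1 - l) f) (S.Oo ε 1)
        + P''.entC (S.Zo ε k (1 - l) t f) (FLaw.pair (S.Oo ε 1) (S.Bo ε k (1 - l) f)) := by
    have a1 := ie_entC_chain P'' (S.Bo ε k (1 - l) f) (S.Zo ε k (1 - l) t f) (S.Oo ε 1)
    have a2 : P''.entC (S.Zo ε k (1 - l) t f) (S.Oo ε 1)
        ≤ P''.entC (FLaw.pair (S.Bo ε k (1 - l) f) (S.Zo ε k (1 - l) t f)) (S.Oo ε 1) :=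
      ie_entC_mono P'' _ _ _ (fun t => t.1.2) (fun _ _ => rfl)
    have a3 : P''.entC (S.Zo ε k (1 - l) t f) (FLaw.pair (S.Bo ε k (1 - l) f) (S.Oo ε 1))
        = P''.entC (S.Zo ε k (1 - l) t f) (FLaw.pair (S.Oo ε 1) (S.Bo ε k (1 - l) f)) :=
      ie_entC_congr_cond P'' _ _ _ Prod.swap Prod.swap (fun _ _ => rfl) (fun _ _ => rfl)
    linarith
  have f6 := if_Bo_of_O1 S P'' ε k l B f hε hε1 hk1 hl.le (by linarith) hB' (fun ω hω => (hSt ω hω).1)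
  have f7 := if_Zo_of_O1 S P'' ε k (1 - l) t B f hε hε1 ht1 hB'
  have f8 := if_time_chain S P'' ε (1 - d) 1 hε hε1 (by linarith)
  have f9 := if_time_cap S P'' ε (1 - d) d hε hε1 hd.le
  have e1 : (1 : ℝ) - d + d = 1 := by ring
  rw [e1] at f9
  have e2 : - beta γ * (1 - (1 - d)) * lg ε = - beta γ * d * lg ε := by ring
  rw [e2] at key
  nlinarith

end Claimed.Agent.R255
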