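import Claimed.Agent.R255.Iso.Stages
import Claimed.Agent.R255.Iso.StageA
import Claimed.Agent.R255.Iso.StageB
import Claimed.Agent.R255.Iso.StageB0
import Claimed.Agent.R255.Cl.Tools.Tau

/-!
# Row 255, Sec. 5: the glue of the stages      (architect helper220)
-/

set_option autoImplicit false

namespace Claimed.Agent.R255

open scoped BigOperators
open Classical

theorem iso_lg_pos (ε : ℝ) (h0 : 0 < ε) (h1 : ε < 1) : 0 < lg ε := by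
  unfold lg
  exact Real.log_pos (by rw [lt_div_iff₀ h0]; linarith)

theorem iso_lg_eq (ε : ℝ) : lg ε = - Real.log ε := by
  unfold lg
  rw [one_div, Real.log_inv]

/-- `- log p ≤ x ℓ` if `ε^x ≤ p` -/
theorem iso_neg_log_le (ε x p : ℝ) (h0 : 0 < ε) (h : ε ^ x ≤ p) : - Real.log p ≤ x * lg ε := by
  have h1 : 0 < ε ^ x := Real.rpow_pos_of_pos h0 x
  have h2 := Real.log_le_log h1 h
  rw [Real.log_rpow h0] at h2
  rw [iso_lg_eq]
  linarith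

/-- given `T`, the anchored observation and the time cell determine each other -/
theorem iso_entC_Oo_T (S : CSys) (P : FLaw S.Ω) (ε u : ℝ) :
    P.entC (S.Oo ε u) S.T = P.entC (S.Ct ε u) S.T := by
  unfold FLaw.entC
  congr 1
  refine ie_ent_congr P _ _ (fun x => (x.1.1, x.2))
    (fun x => ((x.1, tcell ε u ((S.A x.2).1 + (x.1 : ℝ) / 2 ^ (tlev ε u) * (S.V x.2).1),
      tcell ε u ((S.A x.2).2 + (x.1 : ℝ) / 2 ^ (tlev ε u) * (S.V x.2).2)), x.2)) ?_ ?_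
  · intro ω _
    rfl
  · intro ω _
    rfl

theorem iso_bdd_dom (S : CSys) (B K : ℝ) (P' : FLaw S.Ω) (hS : S.Bdd B) (hD : P'.Dom K S.P) :
    (S.withLaw P').Bdd B := fun ω hω => hS ω (ie_dom_supp P' S.P K hD ω hω)

theorem iso_core (γ : ℝ) (h0 : 0 < γ) (h1 : γ < 1) (hβ : γ < beta γ) (U : UnivBound γ (beta γ)) (B : ℝ) :
    ∃ η ε₀ : ℝ, 0 < η ∧ 0 < ε₀ ∧ ∀ (ε : ℝ) (S : CSys), 0 < ε → ε < ε₀ → ε < 1 → S.Bdd B →
      ¬ S.RSat γ ε η := by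
  obtain ⟨β, hβdef⟩ : ∃ β, β = beta γ := ⟨_, rfl⟩
  rw [← hβdef] at hβ
  have hβ0 : 0 < β := h0.trans hβ
  obtain ⟨g₀, hg₀def⟩ : ∃ g₀, g₀ = β - γ := ⟨_, rfl⟩
  have hg₀ : 0 < g₀ := by rw [hg₀def]; linarith
  obtain ⟨ϑ, hϑdef⟩ : ∃ ϑ, ϑ = min 1 (β / 96) := ⟨_, rfl⟩
  have hϑ : 0 < ϑ := by rw [hϑdef]; exact lt_min one_pos (by positivity)
  have hϑ1 : ϑ ≤ 1 := by rw [hϑdef]; exact min_le_left _ _
  have hϑb : 48 * ϑ ≤ β / 2 := by
    have : ϑ ≤ β / 96 := by rw [hϑdef]; exact min_le_right _ _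
    linarith
  obtain ⟨a₀, ha₀, ha₀1, M₀, hB⟩ := iso_stageB B (g₀ / 2) (β / 16) (by positivity) (by positivity)
  obtain ⟨M, hMdef⟩ : ∃ M : ℕ, M = max M₀ 1 := ⟨_, rfl⟩
  have hMM₀ : M₀ ≤ M := by rw [hMdef]; exact le_max_left _ _
  have hM1 : (1 : ℝ) ≤ M := by
    have : 1 ≤ M := by rw [hMdef]; exact le_max_right _ _
    exact_mod_cast this
  have hM0 : (0 : ℝ) < M := by linarith
  obtain ⟨κ, hκdef⟩ : ∃ κ, κ = min (g₀ / 32) (β * a₀ / (16 * M)) := ⟨_, rfl⟩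
  have hκ : 0 < κ := by rw [hκdef]; exact lt_min (by positivity) (by positivity)
  have hκ1 : κ ≤ g₀ / 32 := by rw [hκdef]; exact min_le_left _ _
  have hκ2 : κ ≤ β * a₀ / (16 * M) := by rw [hκdef]; exact min_le_right _ _
  obtain ⟨N₀, hA⟩ := iso_stageA B (β / 2) ϑ κ (by positivity) hϑ hϑ1 hϑb hκ
  obtain ⟨N, hNdef⟩ : ∃ N : ℕ, N = max N₀ 2 := ⟨_, rfl⟩
  have hNN₀ : N₀ ≤ N := by rw [hNdef]; exact le_max_left _ _
  have hN2 : (2 : ℝ) ≤ N := by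
    have : 2 ≤ N := by rw [hNdef]; exact le_max_right _ _
    exact_mod_cast this
  have hN0 : (0 : ℝ) < N := by linarith
  obtain ⟨εA, hεA, hA'⟩ := hA N hNN₀
  obtain ⟨l, hldef⟩ : ∃ l, l = ϑ / N := ⟨_, rfl⟩
  have hl : 0 < l := by rw [hldef]; positivity
  have hlN : l ≤ 1 / N := by rw [hldef]; exact div_le_div_of_nonneg_right hϑ1 hN0.le
  have hl2 : l ≤ 1 / 2 := hlN.trans (one_div_le_one_div_of_le (by norm_num) hN2)
  obtain ⟨d, hddef⟩ : ∃ d, d = a₀ * l / M := ⟨_, rfl⟩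
  have hd : 0 < d := by rw [hddef]; positivity
  have hdl : d ≤ l := by
    rw [hddef, div_le_iff₀ hM0]
    have e1 : a₀ * l ≤ 1 * l := mul_le_mul_of_nonneg_right ha₀1 hl.le
    have e2 : l * 1 ≤ l * M := mul_le_mul_of_nonneg_left hM1 hl.le
    linarith
  obtain ⟨εB, hεB, hB'⟩ := hB M hMM₀ l hl hl2
  obtain ⟨ν, hνdef⟩ : ∃ ν, ν = min (g₀ * l / 32) (β * d / 32) := ⟨_, rfl⟩
  have hν : 0 < ν := by rw [hνdef]; exact lt_min (by positivity) (by positivity)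
  have hν1 : ν ≤ g₀ * l / 32 := by rw [hνdef]; exact min_le_left _ _
  have hν2 : ν ≤ β * d / 32 := by rw [hνdef]; exact min_le_right _ _
  obtain ⟨C0, ε0, hC0, hε0, hB0⟩ := iso_stageB0 γ B ν h0 h1 U hν
  obtain ⟨CC, εC, hCC, hεC, hC⟩ := iso_stageC γ B ν h0 h1 U hν
  obtain ⟨Cτ', hτ'⟩ := tl_tau_ge B
  obtain ⟨Cτ, hCτdef⟩ : ∃ Cτ, Cτ = max Cτ' 0 := ⟨_, rfl⟩
  have hCτ : 0 ≤ Cτ := by rw [hCτdef]; exact le_max_right _ _
  have hCτ' : Cτ' ≤ Cτ := by rw [hCτdef]; exact le_max_left _ _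
  obtain ⟨Λ, hΛdef⟩ : ∃ Λ, Λ = Cτ / (β / 4) + C0 / (g₀ * l / 8) + CC / (β * d / 8) := ⟨_, rfl⟩
  have hΛ1 : Cτ ≤ β / 4 * Λ := by
    have e1 : Cτ / (β / 4) ≤ Λ := by
      rw [hΛdef]
      have : 0 ≤ C0 / (g₀ * l / 8) := by positivity
      have : 0 ≤ CC / (β * d / 8) := by positivity
      linarith
    rw [div_le_iff₀ (by positivity)] at e1
    linarith
  have hΛ2 : C0 ≤ g₀ * l / 8 * Λ := by
    have e1 : C0 / (g₀ * l / 8) ≤ Λ := by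
      rw [hΛdef]
      have : 0 ≤ Cτ / (β / 4) := by positivity
      have : 0 ≤ CC / (β * d / 8) := by positivity
      linarith
    rw [div_le_iff₀ (by positivity)] at e1
    linarith
  have hΛ3 : CC ≤ β * d / 8 * Λ := by
    have e1 : CC / (β * d / 8) ≤ Λ := by
      rw [hΛdef]
      have : 0 ≤ Cτ / (β / 4) := by positivity
      have : 0 ≤ C0 / (g₀ * l / 8) := by positivity
      linarith
    rw [div_le_iff₀ (by positivity)] at e1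
    linarith
  refine ⟨ν, min (min εA εB) (min (min ε0 εC) (Real.exp (- Λ))), hν,
    lt_min (lt_min hεA hεB) (lt_min (lt_min hε0 hεC) (Real.exp_pos _)), ?_⟩
  intro ε S hε hεlt hε1 hS hR
  have hltA : ε < εA := hεlt.trans_le ((min_le_left _ _).trans (min_le_left _ _))
  have hltB : ε < εB := hεlt.trans_le ((min_le_left _ _).trans (min_le_right _ _))
  have hlt0 : ε < ε0 := hεlt.trans_le ((min_le_right _ _).trans ((min_le_left _ _).trans (min_le_left _ _)))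
  have hltC : ε < εC := hεlt.trans_le ((min_le_right _ _).trans ((min_le_left _ _).trans (min_le_right _ _)))
  have hltΛ : ε < Real.exp (- Λ) := hεlt.trans_le ((min_le_right _ _).trans (min_le_right _ _))
  obtain ⟨ℓ, hℓdef⟩ : ∃ ℓ, ℓ = lg ε := ⟨_, rfl⟩
  have hℓ0 : 0 < ℓ := by rw [hℓdef]; exact iso_lg_pos ε hε hε1
  have hℓΛ : Λ ≤ ℓ := by
    rw [hℓdef, iso_lg_eq]
    have := Real.log_lt_log hε hltΛ
    rw [Real.log_exp] at this
    linarith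
  -- (i) the hypothesis of stage A
  have hi : S.P.ent (S.Oo ε 1) ≤ 3 * S.P.entC (S.Ct ε 1) S.T - β / 2 * lg ε := by
    have h := hR S.P 1 le_rfl (fun ω => by rw [one_mul])
    have ht : - Cτ / lg ε ≤ S.tau γ ε 1 := by
      refine le_trans ?_ (hτ' S γ ε 1 hS h0 h1 hε hε1 zero_le_one)
      exact div_le_div_of_nonneg_right (by linarith) (iso_lg_pos ε hε hε1).le
    have hwl : S.withLaw S.P = S := rfl
    unfold CSys.tsc at h
    rw [hwl, Real.log_one, ie_mi_eq, iso_entC_Oo_T, ← hβdef, ← hℓdef] at h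
    rw [← hℓdef] at ht ⊢
    have e1 : β - ν + (S.P.ent (S.Oo ε 1) - S.P.entC (S.Ct ε 1) S.T) / ℓ
        - 2 * (S.P.entC (S.Ct ε 1) S.T / ℓ) ≤ Cτ / ℓ := by
      have : -Cτ / ℓ = - (Cτ / ℓ) := by ring
      rw [this] at ht
      have h' : β - 4 * 0 / ℓ - ν ≤ -((S.P.ent (S.Oo ε 1) - S.P.entC (S.Ct ε 1) S.T) / ℓ)
        + 2 * (S.P.entC (S.Ct ε 1) S.T / ℓ) - S.tau γ ε 1 := h
      simp only [mul_zero, zero_div, sub_zero] at h'
      linarith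
    have e2 : (β - ν) * ℓ + (S.P.ent (S.Oo ε 1) - S.P.entC (S.Ct ε 1) S.T)
        - 2 * S.P.entC (S.Ct ε 1) S.T ≤ Cτ := by
      have := mul_le_mul_of_nonneg_right e1 hℓ0.le
      have e3 : (β - ν + (S.P.ent (S.Oo ε 1) - S.P.entC (S.Ct ε 1) S.T) / ℓ
        - 2 * (S.P.entC (S.Ct ε 1) S.T / ℓ)) * ℓ = (β - ν) * ℓ
          + (S.P.ent (S.Oo ε 1) - S.P.entC (S.Ct ε 1) S.T) - 2 * S.P.entC (S.Ct ε 1) S.T := by
        field_simp
      rw [e3, div_mul_cancel₀ _ hℓ0.ne'] at this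
      exact this
    have e4 : ν ≤ β / 4 := by
      have := mul_le_mul_of_nonneg_left (hdl.trans hl2) hβ0.le
      linarith
    have e5 : Cτ ≤ β / 4 * ℓ := hΛ1.trans (mul_le_mul_of_nonneg_left hℓΛ (by positivity))
    have e6 := mul_le_mul_of_nonneg_right e4 hℓ0.le
    linarith
  -- (ii) the strip
  obtain ⟨j, f, hjN, hp₁⟩ := hA' ε S S.P hε hltA hε1 hS hi
  rw [← hldef] at hp₁
  obtain ⟨k, hkdef⟩ : ∃ k : ℝ, k = (j : ℝ) / N := ⟨_, rfl⟩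
  rw [← hkdef] at hp₁
  have hk0 : 0 ≤ k := by rw [hkdef]; positivity
  have hk1 : k ≤ 1 - l := by
    have : (j : ℝ) + 1 ≤ N := by exact_mod_cast hjN
    have e : k ≤ 1 - 1 / N := by
      rw [hkdef, div_le_iff₀ hN0]
      field_simp
      linarith
    linarith
  have hp₁0 : 0 < S.P.pr (S.Strip ε k l f) := lt_of_lt_of_le (Real.rpow_pos_of_pos hε _) hp₁
  obtain ⟨p₁, hp₁def⟩ : ∃ p₁, p₁ = S.P.pr (S.Strip ε k l f) := ⟨_, rfl⟩
  have hp₁le : p₁ ≤ 1 := by rw [hp₁def]; exact ie_pr_le_one _ _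
  have hp₁pos : 0 < p₁ := by rw [hp₁def]; exact hp₁0
  have hlog₁ : - Real.log p₁ ≤ κ * l * ℓ := by
    rw [hℓdef, hp₁def]; exact iso_neg_log_le ε _ _ hε hp₁
  have hK₁ : 1 ≤ 1 / p₁ := by rw [le_div_iff₀ hp₁pos]; linarith
  have hD₁ : (S.P.cond _ hp₁0).Dom (1 / p₁) S.P := by rw [hp₁def]; exact ie_cond_dom _ _ _
  have hsupp₁ : ∀ ω, 0 < (S.P.cond _ hp₁0).p ω → S.Strip ε k l f ω :=
    fun ω hω => (ie_cond_supp _ _ _ ω hω).1
  -- (iii)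
  have hiii := hB0 ε S (S.P.cond _ hp₁0) (1 / p₁) ν k l f hε hlt0 hε1 hS hR hK₁ hD₁ hk0 hl hl2 hk1 hsupp₁
  rw [← hβdef, ← hℓdef, ← hg₀def, one_div, Real.log_inv] at hiii
  have hiii' : (S.P.cond _ hp₁0).entC (S.Oo ε 1) (S.Bo ε k (1 - l) f)
      - 2 * (S.P.cond _ hp₁0).entC (S.Ct ε 1) (S.TC ε (1 - l)) ≤ - (g₀ / 2) * l * lg ε := by
    rw [← hℓdef]
    have e5 : C0 ≤ g₀ * l / 8 * ℓ := hΛ2.trans (mul_le_mul_of_nonneg_left hℓΛ (by positivity))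
    have e6 : (ν + ν) * ℓ ≤ g₀ * l / 16 * ℓ := mul_le_mul_of_nonneg_right (by linarith) hℓ0.le
    have e7 : κ * l * ℓ ≤ g₀ / 32 * l * ℓ :=
      mul_le_mul_of_nonneg_right (mul_le_mul_of_nonneg_right hκ1 hl.le) hℓ0.le
    have e8 : 0 < g₀ * l * ℓ := by positivity
    linarith
  -- (iv) the confinement
  obtain ⟨i, f₂, hiM, hp₂⟩ := hB' ε S (S.P.cond _ hp₁0) k f hε hltB hε1 (iso_bdd_dom S B _ _ hS hD₁) hk0 hk1 hiii'
  rw [← hddef] at hp₂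
  obtain ⟨t, htdef⟩ : ∃ t : ℝ, t = 1 - l + (i : ℝ) * (l / M) := ⟨_, rfl⟩
  rw [← htdef] at hp₂
  have ht0 : 1 - l ≤ t := by
    rw [htdef]
    have : 0 ≤ (i : ℝ) * (l / M) := by positivity
    linarith
  have ht1 : t ≤ 1 := by
    have : (i : ℝ) ≤ M := by exact_mod_cast hiM.le
    have e : (i : ℝ) * (l / M) ≤ l := by
      rw [mul_div_assoc', div_le_iff₀ hM0]
      have := mul_le_mul_of_nonneg_right this hl.le
      linarith
    rw [htdef]; linarith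
  have hp₂0 : 0 < (S.P.cond _ hp₁0).pr (S.Conf ε k (1 - l) t d f f₂) :=
    lt_of_lt_of_le (Real.rpow_pos_of_pos hε _) hp₂
  obtain ⟨p₂, hp₂def⟩ : ∃ p₂, p₂ = (S.P.cond _ hp₁0).pr (S.Conf ε k (1 - l) t d f f₂) := ⟨_, rfl⟩
  have hp₂le : p₂ ≤ 1 := by rw [hp₂def]; exact ie_pr_le_one _ _
  have hp₂pos : 0 < p₂ := by rw [hp₂def]; exact hp₂0
  have hlog₂ : - Real.log p₂ ≤ β / 16 * d * ℓ := by
    rw [hℓdef, hp₂def]; exact iso_neg_log_le ε _ _ hε hp₂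
  have hK₂ : 1 ≤ 1 / p₂ := by rw [le_div_iff₀ hp₂pos]; linarith
  have hD₂ : ((S.P.cond _ hp₁0).cond _ hp₂0).Dom (1 / p₂ * (1 / p₁)) S.P := by
    refine ie_dom_trans _ _ _ _ _ (by positivity) ?_ hD₁
    rw [hp₂def]; exact ie_cond_dom _ _ _
  have hsupp₂ : ∀ ω, 0 < ((S.P.cond _ hp₁0).cond _ hp₂0).p ω →
      S.Strip ε k l f ω ∧ S.Conf ε k (1 - l) t d f f₂ ω := by
    intro ω hω
    have := ie_cond_supp _ _ _ ω hω
    exact ⟨hsupp₁ ω this.2, this.1⟩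
  -- (v)
  have hv := hC ε S ((S.P.cond _ hp₁0).cond _ hp₂0) (1 / p₂ * (1 / p₁)) ν k l t d f f₂ hε hltC hε1 hS hR
    (one_le_mul_of_one_le_of_one_le hK₂ hK₁) hD₂ hk0 hl hl2 hk1 ht0 ht1 hd hdl hsupp₂
  rw [← hβdef, ← hℓdef, Real.log_mul (by positivity) (by positivity), one_div, one_div, Real.log_inv,
    Real.log_inv] at hv
  have e5 : CC ≤ β * d / 8 * ℓ := hΛ3.trans (mul_le_mul_of_nonneg_left hℓΛ (by positivity))
  have e6 : (ν + ν) * ℓ ≤ β * d / 16 * ℓ := mul_le_mul_of_nonneg_right (by linarith) hℓ0.le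
  have e7 : κ * l ≤ β * d / 16 := by
    have : β * a₀ / (16 * M) * l = β * d / 16 := by
      rw [hddef]; field_simp
    rw [← this]
    exact mul_le_mul_of_nonneg_right hκ2 hl.le
  have e8 : κ * l * ℓ ≤ β * d / 16 * ℓ := mul_le_mul_of_nonneg_right e7 hℓ0.le
  have e9 : 0 < β * d * ℓ := by positivity
  linarith

/-- **Proposition 5.1** -/
theorem iso_excl (γ : ℝ) (h0 : 0 < γ) (h1 : γ < 1) (hβ : γ < beta γ) (U : UnivBound γ (beta γ)) (s : ℝ)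
    (J : Iso γ s) : False := by
  obtain ⟨η, ε₀, hη, hε₀, h⟩ := iso_core γ h0 h1 hβ U J.Q.B
  obtain ⟨S, ε, hε, hlt, hε1, hS, hR⟩ := iso_rsat_exists γ s h0 h1 J η ε₀ hη hε₀
  exact h ε S hε hlt hε1 hS hR

end Claimed.Agent.R255
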