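import Claimed.Agent.R255.Iso.StarDefs

/-!
# Row 255, Sec. 5: LEAF ISO-AVG (averaging in the star law over the base)      (architect helper220)
Pure finite probability.  Tools: `Iso/Ent.lean` (`ie_*`), `RW/Ent.lean` (`en_*`, `Pm.copies`, `Pm.pi`, `Pm.cond`; sorry-free).
-/

set_option autoImplicit false

namespace Claimed.Agent.R255

open Claimed.Agent.RW
open scoped BigOperators
open Classical

variable {Ω : Type} [Fintype Ω]

/-- weight of a product law after changing one coordinate -/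
theorem iso_avg_update {ι : Type} [Fintype ι] [DecidableEq ι] (ν : Pm Ω) (i : ι) (b : ι → Ω) (ω' : Ω) :
    (Pm.pi fun _ : ι => ν).w (Function.update b i ω') * ν.w (b i) = (Pm.pi fun _ : ι => ν).w b * ν.w ω' := by
  show (∏ t, ν.w (Function.update b i ω' t)) * ν.w (b i) = (∏ t, ν.w (b t)) * ν.w ω'
  rw [← Finset.mul_prod_erase Finset.univ _ (Finset.mem_univ i),
    ← Finset.mul_prod_erase Finset.univ (fun t => ν.w (b t)) (Finset.mem_univ i), Function.update_self]
  have : ∏ t ∈ Finset.univ.erase i, ν.w (Function.update b i ω' t) = ∏ t ∈ Finset.univ.erase i, ν.w (b t) := by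
    refine Finset.prod_congr rfl fun t ht => ?_
    rw [Function.update_of_ne (Finset.mem_erase.1 ht).1]
  rw [this]; ring

/-- resampling one coordinate of a product law -/
theorem iso_avg_resample {ι : Type} [Fintype ι] [DecidableEq ι] (ν : Pm Ω) (i : ι) (H : (ι → Ω) → ℝ) :
    ∑ b, (Pm.pi fun _ : ι => ν).w b * H b
      = ∑ b, (Pm.pi fun _ : ι => ν).w b * ∑ ω', ν.w ω' * H (Function.update b i ω') := by
  have hinv : Function.Involutive (fun p : (ι → Ω) × Ω => (Function.update p.1 i p.2, p.1 i)) := by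
    rintro ⟨b, ω'⟩
    simp
  have e1 : ∑ b, (Pm.pi fun _ : ι => ν).w b * ∑ ω', ν.w ω' * H (Function.update b i ω')
      = ∑ p : (ι → Ω) × Ω, (Pm.pi fun _ : ι => ν).w p.1 * (ν.w p.2 * H (Function.update p.1 i p.2)) := by
    rw [Fintype.sum_prod_type]
    exact Finset.sum_congr rfl fun b _ => Finset.mul_sum _ _ _
  set e := Function.Involutive.toPerm _ hinv with he
  rw [e1, ← Equiv.sum_comp e]
  have e2 : ∀ p : (ι → Ω) × Ω,
      (Pm.pi fun _ : ι => ν).w (e p).1 * (ν.w (e p).2 * H (Function.update (e p).1 i (e p).2))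
      = (Pm.pi fun _ : ι => ν).w p.1 * H p.1 * ν.w p.2 := by
    rintro ⟨b, ω'⟩
    show (Pm.pi fun _ : ι => ν).w (Function.update b i ω') * (ν.w (b i) * H (Function.update (Function.update b i ω') i (b i))) = _
    rw [Function.update_idem, Function.update_eq_self, ← mul_assoc, iso_avg_update]
    ring
  simp only [e2]
  rw [Fintype.sum_prod_type]
  refine Finset.sum_congr rfl fun b _ => ?_
  show _ = ∑ y, (Pm.pi fun _ : ι => ν).w b * H b * ν.w y
  rw [← Finset.mul_sum, ν.sum_one, mul_one]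

/-- LEAF (averaging).  Under `P.star Z r` the slopes are i.i.d. given `Z`; if the bad event forces some `w i` into a set `mem (φ i z w)` not depending on `w i`, one set per base cell carries the mass. -/
theorem iso_star_avg (P : FLaw Ω) (r : ℕ) {ζ ϖ σ : Type} (Z : Ω → ζ) (W : Ω → ϖ)
    (A : ζ × (Fin r → ϖ) → Prop) (mem : σ → ϖ → Prop) (φ : Fin r → ζ → (Fin r → ϖ) → σ)
    (hφ : ∀ i z w x, φ i z (Function.update w i x) = φ i z w)
    (hA : ∀ z w, A (z, w) → ∃ i, mem (φ i z w) (w i))
    (hpos : 0 < (P.star Z r).pr (fun x => A (starY r Z W x))) :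
    ∃ f : ζ → σ, (P.star Z r).pr (fun x => A (starY r Z W x)) ≤ r * P.pr (fun ω => mem (f (Z ω)) (W ω)) := by
  set Q := P.isoPm with hQ
  set M := Q.copies Z (Fin r) with hM
  have eM : (P.star Z r).pr (fun x => A (starY r Z W x))
      = ∑ x, M.w x * (if A (starY r Z W x) then 1 else 0) := by
    unfold FLaw.pr
    refine Finset.sum_congr rfl fun x _ => ?_
    by_cases h : A (starY r Z W x)
    · simp only [h, if_true, mul_one]; rfl
    · simp only [h, if_false, mul_zero]
  -- a point of the event: `Fin r` and `Ω` are nonempty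
  obtain ⟨x0, -, hx0⟩ := Finset.exists_ne_zero_of_sum_ne_zero (eM ▸ hpos).ne'
  have hx0A : A (starY r Z W x0) := by
    by_contra h
    simp [h] at hx0
  obtain ⟨i0, -⟩ := hA _ _ hx0A
  have : Nonempty (Fin r × (Fin r → Ω)) := ⟨(i0, x0.2)⟩
  -- the mass of a candidate set in the base cell `z`
  set g : ζ → σ → ℝ := fun z s => ∑ ω', (Q.cond Z z).w ω' * (if mem s (W ω') then 1 else 0) with hg
  have hmax : ∀ z, ∃ p : Fin r × (Fin r → Ω), ∀ p' : Fin r × (Fin r → Ω),
      g z (φ p'.1 z (fun j => W (p'.2 j))) ≤ g z (φ p.1 z (fun j => W (p.2 j))) :=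
    fun z => Finite.exists_max (fun p : Fin r × (Fin r → Ω) => g z (φ p.1 z (fun j => W (p.2 j))))
  choose pz hpz using hmax
  refine ⟨fun z => φ (pz z).1 z (fun j => W ((pz z).2 j)), ?_⟩
  set f : ζ → σ := fun z => φ (pz z).1 z (fun j => W ((pz z).2 j)) with hf
  -- one coordinate
  have hone : ∀ (i : Fin r) (ω₁ : Ω),
      ∑ b, (Pm.pi fun _ : Fin r => Q.cond Z (Z ω₁)).w b *
        (if mem (φ i (Z ω₁) (fun j => W (b j))) (W (b i)) then 1 else 0) ≤ g (Z ω₁) (f (Z ω₁)) := by
    intro i ω₁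
    rw [iso_avg_resample (Q.cond Z (Z ω₁)) i]
    calc ∑ b, (Pm.pi fun _ : Fin r => Q.cond Z (Z ω₁)).w b * ∑ ω', (Q.cond Z (Z ω₁)).w ω' *
          (if mem (φ i (Z ω₁) (fun j => W (Function.update b i ω' j))) (W (Function.update b i ω' i))
            then 1 else 0)
        ≤ ∑ b, (Pm.pi fun _ : Fin r => Q.cond Z (Z ω₁)).w b * g (Z ω₁) (f (Z ω₁)) := by
          refine Finset.sum_le_sum fun b _ => mul_le_mul_of_nonneg_left ?_ (Pm.nonneg _ b)
          refine le_trans (le_of_eq ?_) (hpz (Z ω₁) (i, b))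
          simp only [hg]
          refine Finset.sum_congr rfl fun ω' _ => ?_
          have e1 : (fun j => W (Function.update b i ω' j)) = Function.update (fun j => W (b j)) i (W ω') := by
            funext j
            by_cases hj : j = i
            · subst hj; simp
            · simp [Function.update_of_ne hj]
          rw [e1, hφ, Function.update_self]
      _ = g (Z ω₁) (f (Z ω₁)) := by rw [← Finset.sum_mul, Pm.sum_one, one_mul]
  -- union bound
  have hun : ∀ x : Ω × (Fin r → Ω), (if A (starY r Z W x) then (1 : ℝ) else 0)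
      ≤ ∑ i, (if mem (φ i (Z x.1) (fun j => W (x.2 j))) (W (x.2 i)) then 1 else 0) := by
    intro x
    by_cases h : A (starY r Z W x)
    · obtain ⟨i, hi⟩ := hA _ _ h
      rw [if_pos h]
      have := Finset.single_le_sum (f := fun i => if mem (φ i (Z x.1) (fun j => W (x.2 j))) (W (x.2 i)) then (1 : ℝ) else 0)
        (fun j _ => by split_ifs <;> norm_num) (Finset.mem_univ i)
      simp only [if_pos hi] at this
      exact this
    · rw [if_neg h]
      exact Finset.sum_nonneg fun j _ => by split_ifs <;> norm_num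
  have eP : P.pr (fun ω => mem (f (Z ω)) (W ω)) = ∑ ω₁, Q.w ω₁ * g (Z ω₁) (f (Z ω₁)) := by
    simp only [hg]
    rw [en_cp_disint Q Z (fun z ω' => if mem (f z) (W ω') then 1 else 0)]
    unfold FLaw.pr
    refine Finset.sum_congr rfl fun ω _ => ?_
    by_cases h : mem (f (Z ω)) (W ω)
    · simp only [h, if_true, mul_one]; rfl
    · simp only [h, if_false, mul_zero]
  rw [eM, eP]
  calc ∑ x, M.w x * (if A (starY r Z W x) then 1 else 0)
      ≤ ∑ x, M.w x * ∑ i, (if mem (φ i (Z x.1) (fun j => W (x.2 j))) (W (x.2 i)) then 1 else 0) :=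
        Finset.sum_le_sum fun x _ => mul_le_mul_of_nonneg_left (hun x) (M.nonneg x)
    _ = ∑ i : Fin r, ∑ ω₁, Q.w ω₁ * ∑ b, (Pm.pi fun _ : Fin r => Q.cond Z (Z ω₁)).w b *
          (if mem (φ i (Z ω₁) (fun j => W (b j))) (W (b i)) then 1 else 0) := by
        simp only [Finset.mul_sum]
        rw [Finset.sum_comm]
        refine Finset.sum_congr rfl fun i _ => ?_
        rw [Fintype.sum_prod_type]
        refine Finset.sum_congr rfl fun ω₁ _ => Finset.sum_congr rfl fun b _ => ?_
        show Q.w ω₁ * (Pm.pi fun _ : Fin r => Q.cond Z (Z ω₁)).w b * _ = _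
        ring
    _ ≤ ∑ i : Fin r, ∑ ω₁, Q.w ω₁ * g (Z ω₁) (f (Z ω₁)) :=
        Finset.sum_le_sum fun i _ => Finset.sum_le_sum fun ω₁ _ =>
          mul_le_mul_of_nonneg_left (hone i ω₁) (Q.nonneg ω₁)
    _ = r * ∑ ω₁, Q.w ω₁ * g (Z ω₁) (f (Z ω₁)) := by
        rw [Finset.sum_const, Finset.card_univ, Fintype.card_fin, nsmul_eq_mul]

end Claimed.Agent.R255
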