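import Claimed.Agent.R255.Iso.Ent
import Claimed.Agent.R255.Cl.ToolsDefs

/-!
# Row 255, Sec. 5 (isotropic exclusion), file 2: definitions      (architect helper220)

FINITARY FORM of Proposition 5.1.  One finite system `S`, one precision `ε`; `ℓ = lg ε`; entropies in NATURAL units.
* `S.withLaw P'` (Cl/ToolsDefs) the system `S` with another law `P'` on the same space.  `Bdd` only concerns the SUPPORT of the law: statements about a law `P` on `S.Ω` assume `(S.withLaw P).Bdd B`.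
* `S.Oo ε u`     `O_u = (C_u, [A + C_u V]_u)`;  `S.Vo ε d = V_d`;  `S.Vv`, `S.Aa` velocity and position of the sampled particle.
* `S.RSat γ ε η` ROBUST SATURATION: every law `P' ≤ K · S.P` has terminal score minus its own root supremum `≥ β - 4 log K / ℓ - η`.
* `f : ℤ × ℤ × ℤ → ℝ × ℝ` a choice of strip `(th, w)` in every base cell `O_k`;  `S.Strip ε k l f` : `|V · nrm th - w| ≤ 3 ε^l`.
* `S.Bo ε k a f = (O_k, O_a, [(A + C_a V) · nrm th]_1)`   the earlier anisotropic observation (5.earlier-test).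
* `S.Psi ε k t f = (C_t, [(A + C_t V) · tang th]_t)`  the last-block filtration;  `S.Zo = (B, Ψ_t)`.
* `S.Conf ε k a t d f f₂` : `|V · tang th - f₂ (B, Ψ_t)| ≤ 2 ε^d`.
-/

set_option autoImplicit false

namespace Claimed.Agent.R255

open scoped BigOperators
open Classical

namespace CSys

variable (S : CSys)

/-- velocity of the sampled particle -/
def Vv : S.Ω → ℝ × ℝ := fun ω => S.V (S.T ω)

/-- position (at time zero) of the sampled particle -/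
def Aa : S.Ω → ℝ × ℝ := fun ω => S.A (S.T ω)

/-- `O_u` -/
noncomputable def Oo (ε u : ℝ) : S.Ω → ℤ × ℤ × ℤ := fun ω => iObs ε u (S.Vv ω) (S.Aa ω) (S.c ω)

/-- `V_d` -/
noncomputable def Vo (ε d : ℝ) : S.Ω → ℤ × ℤ := fun ω => vObs ε d (S.Vv ω)

/-- the anchored position at depth `u` -/
noncomputable def Xa (ε u : ℝ) : S.Ω → ℝ × ℝ := fun ω => S.Aa ω + trep ε u (S.c ω) • S.Vv ω

/-- `(T, C_u)` -/
noncomputable def TC (ε u : ℝ) : S.Ω → S.ι × ℤ := FLaw.pair S.T (S.Ct ε u)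

/-- terminal score minus root supremum of the law `P'` -/
noncomputable def tsc (γ ε : ℝ) (P' : FLaw S.Ω) : ℝ :=
  - (P'.mi S.T (S.Oo ε 1) / lg ε) + 2 * (P'.entC (S.Ct ε 1) S.T / lg ε) - (S.withLaw P').tau γ ε 1

/-- robust saturation -/
def RSat (γ ε η : ℝ) : Prop :=
  ∀ (P' : FLaw S.Ω) (K : ℝ), 1 ≤ K → P'.Dom K S.P → beta γ - 4 * Real.log K / lg ε - η ≤ S.tsc γ ε P'

/-- the frame angle chosen in the base cell -/
noncomputable def th (ε k : ℝ) (f : ℤ × ℤ × ℤ → ℝ × ℝ) : S.Ω → ℝ := fun ω => (f (S.Oo ε k ω)).1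

/-- the velocity lies in the strip chosen in the base cell -/
def Strip (ε k l : ℝ) (f : ℤ × ℤ × ℤ → ℝ × ℝ) : S.Ω → Prop :=
  fun ω => |ip (S.Vv ω) (nrm (S.th ε k f ω)) - (f (S.Oo ε k ω)).2| ≤ 3 * ε ^ l

/-- the earlier anisotropic observation -/
noncomputable def Bo (ε k a : ℝ) (f : ℤ × ℤ × ℤ → ℝ × ℝ) : S.Ω → (ℤ × ℤ × ℤ) × (ℤ × ℤ × ℤ) × ℤ :=
  fun ω => (S.Oo ε k ω, S.Oo ε a ω, tcell ε 1 (ip (S.Xa ε a ω) (nrm (S.th ε k f ω))))

/-- time and tangent position at depth `t` -/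
noncomputable def Psi (ε k t : ℝ) (f : ℤ × ℤ × ℤ → ℝ × ℝ) : S.Ω → ℤ × ℤ :=
  fun ω => (S.Ct ε t ω, tcell ε t (ip (S.Xa ε t ω) (tang (S.th ε k f ω))))

/-- the last-block filtration -/
noncomputable def Zo (ε k a t : ℝ) (f : ℤ × ℤ × ℤ → ℝ × ℝ) :
    S.Ω → ((ℤ × ℤ × ℤ) × (ℤ × ℤ × ℤ) × ℤ) × (ℤ × ℤ) :=
  FLaw.pair (S.Bo ε k a f) (S.Psi ε k t f)

/-- the tangent velocity is confined -/
def Conf (ε k a t d : ℝ) (f : ℤ × ℤ × ℤ → ℝ × ℝ)
    (f₂ : ((ℤ × ℤ × ℤ) × (ℤ × ℤ × ℤ) × ℤ) × (ℤ × ℤ) → ℝ) : S.Ω → Prop :=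
  fun ω => |ip (S.Vv ω) (tang (S.th ε k f ω)) - f₂ (S.Zo ε k a t f ω)| ≤ 2 * ε ^ d

/-- the tangent slope bin of depth `g` -/
noncomputable def Xo (ε k g : ℝ) (f : ℤ × ℤ × ℤ → ℝ × ℝ) : S.Ω → ℤ :=
  fun ω => tcell ε g (ip (S.Vv ω) (tang (S.th ε k f ω)))

/-- the intercepts of the first window: position at the coarse time `C_k`, at the fine resolution `k + h` -/
noncomputable def In1 (ε k h : ℝ) : S.Ω → ℤ × ℤ :=
  fun ω => (tcell ε (k + h) ((S.Aa ω).1 + trep ε k (S.c ω) * (S.Vv ω).1),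
    tcell ε (k + h) ((S.Aa ω).2 + trep ε k (S.c ω) * (S.Vv ω).2))

/-- the intercept of the second window: tangent position at the coarse time `C_t`, at the fine resolution `t + g` -/
noncomputable def In2 (ε k t g : ℝ) (f : ℤ × ℤ × ℤ → ℝ × ℝ) : S.Ω → ℤ :=
  fun ω => tcell ε (t + g) (ip (S.Xa ε t ω) (tang (S.th ε k f ω)))

end CSys

/-- mesh of the dyadic grid of depth `u` -/
noncomputable def msh (ε u : ℝ) : ℝ := 1 / 2 ^ (tlev ε u)

/-- representative of a velocity bin -/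
noncomputable def vrep (ε d : ℝ) (w : ℤ × ℤ) : ℝ × ℝ := ((w.1 : ℝ) * msh ε d, (w.2 : ℝ) * msh ε d)

/-- `det ((1,r₀),(1,r₁),(1,r₂))` -/
def det3 (r₀ r₁ r₂ : ℝ × ℝ) : ℝ := (r₁.1 - r₀.1) * (r₂.2 - r₀.2) - (r₁.2 - r₀.2) * (r₂.1 - r₀.1)

end Claimed.Agent.R255
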