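import Claimed.Agent.R255.Base.Seq
import Claimed.Agent.RW.Ent

/-!
# Row 255, Sec. 5 (isotropic exclusion), file 1: Shannon calculus on `FLaw`      (architect helper220)

Bridge `FLaw ↔ RW.Pm` (`FLaw.isoPm`, `iso_ofPm`, `ie_ent : P.ent X = P.isoPm.ent X`) and the basic calculus, prefix `ie_`.
"`Y` is a function of `X`" is always written `∀ ω, 0 < P.p ω → Y ω = f (X ω)` (on the support).
-/

set_option autoImplicit false

namespace Claimed.Agent.R255

open Claimed.Agent.RW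
open scoped BigOperators
open Classical

variable {Ω : Type} [Fintype Ω]

/-- the same law in the language of `RW/Ent.lean` -/
def FLaw.isoPm (P : FLaw Ω) : Pm Ω := ⟨P.p, P.nonneg, P.sum_one⟩

/-- and back -/
def iso_ofPm (P : Pm Ω) : FLaw Ω := ⟨P.w, P.nonneg, P.sum_one⟩

@[simp] theorem ie_isoPm_w (P : FLaw Ω) (ω : Ω) : P.isoPm.w ω = P.p ω := rfl

@[simp] theorem ie_ofPm_p (P : Pm Ω) (ω : Ω) : (iso_ofPm P).p ω = P.w ω := rfl

theorem ie_ofPm_isoPm (P : Pm Ω) : (iso_ofPm P).isoPm = P := rfl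

theorem ie_isoPm_ofPm (P : FLaw Ω) : iso_ofPm P.isoPm = P := rfl

theorem ie_ne_zero_iff (P : FLaw Ω) (ω : Ω) : P.isoPm.w ω ≠ 0 ↔ 0 < P.p ω :=
  ⟨fun h => lt_of_le_of_ne (P.nonneg ω) (Ne.symm h), fun h => h.ne'⟩

theorem ie_fib (P : FLaw Ω) {α : Type} [DecidableEq α] (X : Ω → α) (ω : Ω) :
    P.fib X ω = P.isoPm.pr X (X ω) := by
  unfold FLaw.fib FLaw.pr Pm.pr
  rw [Finset.sum_filter]
  refine Finset.sum_congr rfl fun ω' _ => ?_
  by_cases h : X ω' = X ω <;> simp [h]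

/-- **the bridge** -/
theorem ie_ent (P : FLaw Ω) {α : Type} [DecidableEq α] (X : Ω → α) : P.ent X = P.isoPm.ent X := by
  rw [en_ent_eq_ex]
  unfold FLaw.ent FLaw.ev
  refine Finset.sum_congr rfl fun ω _ => ?_
  show P.p ω * (- Real.log (P.fib X ω)) = _
  rw [ie_fib]
  rfl

theorem ie_pr_eq (P : FLaw Ω) (E : Ω → Prop) : P.pr E = P.isoPm.pr (fun ω => decide (E ω)) true := by
  unfold FLaw.pr Pm.pr
  rw [Finset.sum_filter]
  refine Finset.sum_congr rfl fun ω' _ => ?_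
  by_cases h : E ω' <;> simp [h]

/-! ## probabilities -/

theorem ie_pr_nonneg (P : FLaw Ω) (E : Ω → Prop) : 0 ≤ P.pr E :=
  Finset.sum_nonneg fun ω _ => by split_ifs; exacts [P.nonneg ω, le_refl 0]

theorem ie_pr_mono (P : FLaw Ω) (E F : Ω → Prop) (h : ∀ ω, 0 < P.p ω → E ω → F ω) : P.pr E ≤ P.pr F := by
  unfold FLaw.pr
  refine Finset.sum_le_sum fun ω _ => ?_
  by_cases hE : E ω
  · rcases (P.nonneg ω).eq_or_lt with h0 | h0
    · simp [← h0]
    · simp [hE, h ω h0 hE]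
  · simp only [hE, if_false]
    split_ifs
    exacts [P.nonneg ω, le_refl 0]

theorem ie_pr_le_one (P : FLaw Ω) (E : Ω → Prop) : P.pr E ≤ 1 := by
  rw [← P.sum_one]
  unfold FLaw.pr
  refine Finset.sum_le_sum fun ω _ => ?_
  split_ifs
  exacts [le_refl _, P.nonneg ω]

theorem ie_pr_true (P : FLaw Ω) (E : Ω → Prop) (h : ∀ ω, 0 < P.p ω → E ω) : P.pr E = 1 := by
  rw [← P.sum_one]
  unfold FLaw.pr
  refine Finset.sum_congr rfl fun ω _ => ?_
  rcases (P.nonneg ω).eq_or_lt with h0 | h0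
  · simp [← h0]
  · simp [h ω h0]

theorem ie_pr_compl (P : FLaw Ω) (E : Ω → Prop) : P.pr (fun ω => ¬ E ω) = 1 - P.pr E := by
  rw [← P.sum_one]
  unfold FLaw.pr
  rw [← Finset.sum_sub_distrib]
  refine Finset.sum_congr rfl fun ω _ => ?_
  by_cases h : E ω <;> simp [h]

theorem ie_pr_union_le (P : FLaw Ω) (E F : Ω → Prop) : P.pr (fun ω => E ω ∨ F ω) ≤ P.pr E + P.pr F := by
  unfold FLaw.pr
  rw [← Finset.sum_add_distrib]
  refine Finset.sum_le_sum fun ω _ => ?_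
  have := P.nonneg ω
  by_cases h : E ω <;> by_cases h' : F ω <;> simp [h, h', this]

theorem ie_pr_pos_of (P : FLaw Ω) (E : Ω → Prop) (ω : Ω) (h : 0 < P.p ω) (hE : E ω) : 0 < P.pr E := by
  refine lt_of_lt_of_le h ?_
  unfold FLaw.pr
  have := Finset.single_le_sum (f := fun ω => if E ω then P.p ω else 0)
    (fun i _ => by split_ifs; exacts [P.nonneg i, le_refl 0]) (Finset.mem_univ ω)
  simpa [hE] using this

theorem ie_ev_mono (P : FLaw Ω) (f g : Ω → ℝ) (h : ∀ ω, 0 < P.p ω → f ω ≤ g ω) : P.ev f ≤ P.ev g := by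
  unfold FLaw.ev
  refine Finset.sum_le_sum fun ω _ => ?_
  rcases (P.nonneg ω).eq_or_lt with h0 | h0
  · simp [← h0]
  · exact mul_le_mul_of_nonneg_left (h ω h0) h0.le

theorem ie_ev_const (P : FLaw Ω) (a : ℝ) : P.ev (fun _ => a) = a := by
  unfold FLaw.ev
  rw [← Finset.sum_mul, P.sum_one, one_mul]

theorem ie_ev_add (P : FLaw Ω) (f g : Ω → ℝ) : P.ev (fun ω => f ω + g ω) = P.ev f + P.ev g := by
  unfold FLaw.ev
  rw [← Finset.sum_add_distrib]
  exact Finset.sum_congr rfl fun ω _ => by ring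

theorem ie_ev_sub (P : FLaw Ω) (f g : Ω → ℝ) : P.ev (fun ω => f ω - g ω) = P.ev f - P.ev g := by
  unfold FLaw.ev
  rw [← Finset.sum_sub_distrib]
  exact Finset.sum_congr rfl fun ω _ => by ring

theorem ie_ev_mul_const (P : FLaw Ω) (f : Ω → ℝ) (a : ℝ) : P.ev (fun ω => a * f ω) = a * P.ev f := by
  unfold FLaw.ev
  rw [Finset.mul_sum]
  exact Finset.sum_congr rfl fun ω _ => by ring

/-! ## conditional laws -/

theorem ie_cond_p (P : FLaw Ω) (E : Ω → Prop) (h : 0 < P.pr E) (ω : Ω) :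
    (P.cond E h).p ω = (if E ω then P.p ω else 0) / P.pr E := rfl

theorem ie_cond_supp (P : FLaw Ω) (E : Ω → Prop) (h : 0 < P.pr E) (ω : Ω) (hω : 0 < (P.cond E h).p ω) :
    E ω ∧ 0 < P.p ω := by
  rw [ie_cond_p] at hω
  by_cases hE : E ω
  · simp only [hE, if_true] at hω
    refine ⟨hE, ?_⟩
    by_contra h0
    have h1 : P.p ω = 0 := le_antisymm (not_lt.1 h0) (P.nonneg ω)
    simp [h1] at hω
  · simp [hE] at hω

theorem ie_cond_dom (P : FLaw Ω) (E : Ω → Prop) (h : 0 < P.pr E) : (P.cond E h).Dom (1 / P.pr E) P := by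
  intro ω
  rw [ie_cond_p]
  have := P.nonneg ω
  by_cases hE : E ω
  · simp only [hE, if_true]
    exact le_of_eq (by ring)
  · simp only [hE, if_false, zero_div]
    positivity

theorem ie_dom_trans (P Q R : FLaw Ω) (K L : ℝ) (hK : 0 ≤ K) (h1 : P.Dom K Q) (h2 : Q.Dom L R) :
    P.Dom (K * L) R := by
  intro ω
  calc P.p ω ≤ K * Q.p ω := h1 ω
    _ ≤ K * (L * R.p ω) := mul_le_mul_of_nonneg_left (h2 ω) hK
    _ = K * L * R.p ω := by ring

theorem ie_dom_supp (P Q : FLaw Ω) (K : ℝ) (h : P.Dom K Q) (ω : Ω) (hω : 0 < P.p ω) : 0 < Q.p ω := by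
  by_contra h0
  have h1 : Q.p ω = 0 := le_antisymm (not_lt.1 h0) (Q.nonneg ω)
  have := h ω
  rw [h1, mul_zero] at this
  linarith

theorem ie_dom_pr (P Q : FLaw Ω) (K : ℝ) (h : P.Dom K Q) (E : Ω → Prop) : P.pr E ≤ K * Q.pr E := by
  unfold FLaw.pr
  rw [Finset.mul_sum]
  refine Finset.sum_le_sum fun ω _ => ?_
  split_ifs
  · exact h ω
  · simp

/-! ## entropy -/

variable (P : FLaw Ω) {α β γ δ : Type}

theorem ie_ent_nonneg (X : Ω → α) : 0 ≤ P.ent X := by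
  rw [ie_ent]; exact en_nonneg _ _

/-- mutual determination on the support -/
theorem ie_ent_congr (X : Ω → α) (Y : Ω → β) (f : α → β) (g : β → α)
    (hf : ∀ ω, 0 < P.p ω → Y ω = f (X ω)) (hg : ∀ ω, 0 < P.p ω → X ω = g (Y ω)) : P.ent X = P.ent Y := by
  rw [ie_ent, ie_ent]
  exact en_congr _ X Y f g (fun ω h => hf ω ((ie_ne_zero_iff P ω).1 h))
    (fun ω h => hg ω ((ie_ne_zero_iff P ω).1 h))

theorem ie_ent_le_pair (X : Ω → α) (Y : Ω → β) : P.ent X ≤ P.ent (FLaw.pair X Y) := by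
  rw [ie_ent, ie_ent]; exact en_le_pair _ X Y

theorem ie_ent_le_pair' (X : Ω → α) (Y : Ω → β) : P.ent Y ≤ P.ent (FLaw.pair X Y) := by
  refine (ie_ent_le_pair P Y X).trans (le_of_eq ?_)
  exact ie_ent_congr P _ _ Prod.swap Prod.swap (fun _ _ => rfl) (fun _ _ => rfl)

/-- a function of `X` has at most the entropy of `X` -/
theorem ie_ent_mono (X : Ω → α) (Y : Ω → β) (f : α → β) (hf : ∀ ω, 0 < P.p ω → Y ω = f (X ω)) :
    P.ent Y ≤ P.ent X := by
  refine (ie_ent_le_pair' P X Y).trans (le_of_eq ?_)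
  exact ie_ent_congr P _ _ Prod.fst (fun x => (x, f x)) (fun _ _ => rfl)
    (fun ω h => by simp [FLaw.pair, hf ω h])

/-- adjoining a function of `X` does not change the entropy -/
theorem ie_ent_pair_det (X : Ω → α) (Y : Ω → β) (f : α → β) (hf : ∀ ω, 0 < P.p ω → Y ω = f (X ω)) :
    P.ent (FLaw.pair X Y) = P.ent X :=
  ie_ent_congr P _ _ Prod.fst (fun x => (x, f x)) (fun _ _ => rfl)
    (fun ω h => by simp [FLaw.pair, hf ω h])

theorem ie_ent_pair_comm (X : Ω → α) (Y : Ω → β) : P.ent (FLaw.pair X Y) = P.ent (FLaw.pair Y X) :=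
  ie_ent_congr P _ _ Prod.swap Prod.swap (fun _ _ => rfl) (fun _ _ => rfl)

theorem ie_ent_pair_assoc (X : Ω → α) (Y : Ω → β) (Z : Ω → γ) :
    P.ent (FLaw.pair (FLaw.pair X Y) Z) = P.ent (FLaw.pair X (FLaw.pair Y Z)) :=
  ie_ent_congr P _ _ (fun t => (t.1.1, t.1.2, t.2)) (fun t => ((t.1, t.2.1), t.2.2)) (fun _ _ => rfl)
    (fun _ _ => rfl)

theorem ie_ent_pair_le (X : Ω → α) (Y : Ω → β) : P.ent (FLaw.pair X Y) ≤ P.ent X + P.ent Y := by
  rw [ie_ent, ie_ent, ie_ent]; exact en_pair_le _ X Y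

theorem ie_ent_const (c : α) : P.ent (fun _ : Ω => c) = 0 := by
  rw [ie_ent]; exact en_const _ c

/-- submodularity -/
theorem ie_submod (X : Ω → α) (Y : Ω → β) (Z : Ω → γ) :
    P.ent (FLaw.pair (FLaw.pair X Y) Z) + P.ent Z ≤ P.ent (FLaw.pair X Z) + P.ent (FLaw.pair Y Z) := by
  rw [ie_ent_pair_assoc, ie_ent, ie_ent, ie_ent, ie_ent]
  exact en_submod _ X Y Z

theorem ie_ent_le_log_card (X : Ω → α) (S : Finset α) (hS : ∀ ω, 0 < P.p ω → X ω ∈ S) :
    P.ent X ≤ Real.log S.card := by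
  rw [ie_ent]
  exact en_le_log_card _ X S (fun ω h => hS ω ((ie_ne_zero_iff P ω).1 h))

/-! ## conditional entropy and information -/

theorem ie_entC_nonneg (X : Ω → α) (Y : Ω → β) : 0 ≤ P.entC X Y := by
  unfold FLaw.entC
  linarith [ie_ent_le_pair' P X Y]

theorem ie_entC_le_ent (X : Ω → α) (Y : Ω → β) : P.entC X Y ≤ P.ent X := by
  unfold FLaw.entC
  linarith [ie_ent_pair_le P X Y]

theorem ie_mi_nonneg (X : Ω → α) (Y : Ω → β) : 0 ≤ P.mi X Y := by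
  unfold FLaw.mi
  linarith [ie_ent_pair_le P X Y]

theorem ie_miC_nonneg (X : Ω → α) (Y : Ω → β) (Z : Ω → γ) : 0 ≤ P.miC X Y Z := by
  unfold FLaw.miC
  linarith [ie_submod P X Y Z]

theorem ie_mi_eq (X : Ω → α) (Y : Ω → β) : P.mi X Y = P.ent Y - P.entC Y X := by
  unfold FLaw.mi FLaw.entC
  rw [ie_ent_pair_comm P Y X]; ring

theorem ie_mi_eq' (X : Ω → α) (Y : Ω → β) : P.mi X Y = P.ent X - P.entC X Y := by
  unfold FLaw.mi FLaw.entC
  ring

theorem ie_miC_eq (X : Ω → α) (Y : Ω → β) (Z : Ω → γ) :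
    P.miC X Y Z = P.entC X Z - P.entC X (FLaw.pair Y Z) := by
  unfold FLaw.miC FLaw.entC
  rw [ie_ent_pair_assoc]; ring

/-- chain rule -/
theorem ie_entC_chain (X : Ω → α) (X' : Ω → β) (Y : Ω → γ) :
    P.entC (FLaw.pair X X') Y = P.entC X Y + P.entC X' (FLaw.pair X Y) := by
  unfold FLaw.entC
  have : P.ent (FLaw.pair (FLaw.pair X X') Y) = P.ent (FLaw.pair X' (FLaw.pair X Y)) :=
    ie_ent_congr P _ _ (fun t => (t.1.2, t.1.1, t.2)) (fun t => ((t.2.1, t.1), t.2.2)) (fun _ _ => rfl)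
      (fun _ _ => rfl)
  rw [this]; ring

/-- conditioning on more reduces the entropy -/
theorem ie_entC_anti (X : Ω → α) (Y : Ω → β) (Y' : Ω → γ) (f : β → γ)
    (hf : ∀ ω, 0 < P.p ω → Y' ω = f (Y ω)) : P.entC X Y ≤ P.entC X Y' := by
  have h := ie_submod P X Y Y'
  have e1 : P.ent (FLaw.pair (FLaw.pair X Y) Y') = P.ent (FLaw.pair X Y) :=
    ie_ent_pair_det P _ _ (fun t => f t.2) (fun ω h => by simp [FLaw.pair, hf ω h])
  have e2 : P.ent (FLaw.pair Y Y') = P.ent Y := ie_ent_pair_det P _ _ f hf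
  unfold FLaw.entC
  rw [e1, e2] at h
  linarith

/-- a function of `(X, Y)` has at most the conditional entropy of `X` -/
theorem ie_entC_mono (X : Ω → α) (X' : Ω → γ) (Y : Ω → β) (f : α × β → γ)
    (hf : ∀ ω, 0 < P.p ω → X' ω = f (X ω, Y ω)) : P.entC X' Y ≤ P.entC X Y := by
  unfold FLaw.entC
  have : P.ent (FLaw.pair X' Y) ≤ P.ent (FLaw.pair X Y) :=
    ie_ent_mono P _ _ (fun t => (f t, t.2)) (fun ω h => by simp [FLaw.pair, hf ω h])
  linarith

theorem ie_entC_det (X : Ω → α) (Y : Ω → β) (f : β → α) (hf : ∀ ω, 0 < P.p ω → X ω = f (Y ω)) :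
    P.entC X Y = 0 := by
  unfold FLaw.entC
  rw [ie_ent_pair_comm, ie_ent_pair_det P Y X f hf, sub_self]

theorem ie_entC_pair_le (X : Ω → α) (X' : Ω → β) (Y : Ω → γ) :
    P.entC (FLaw.pair X X') Y ≤ P.entC X Y + P.entC X' Y := by
  rw [ie_entC_chain]
  have := ie_entC_anti P X' (FLaw.pair X Y) Y Prod.snd (fun _ _ => rfl)
  linarith

/-- the conditioning variable may be replaced by an equivalent one -/
theorem ie_entC_congr_cond (X : Ω → α) (Y : Ω → β) (Y' : Ω → γ) (f : β → γ) (g : γ → β)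
    (hf : ∀ ω, 0 < P.p ω → Y' ω = f (Y ω)) (hg : ∀ ω, 0 < P.p ω → Y ω = g (Y' ω)) :
    P.entC X Y = P.entC X Y' :=
  le_antisymm (ie_entC_anti P X Y Y' f hf) (ie_entC_anti P X Y' Y g hg)

/-- `H(X | Y) = ∑_y P(y) H_y(X)`, in the language of `Pm` -/
theorem ie_entC_eq_sum (X : Ω → α) (Y : Ω → β) :
    P.entC X Y = ∑ y ∈ Finset.univ.image Y, P.isoPm.pr Y y * (P.isoPm.cond Y y).ent X := by
  unfold FLaw.entC
  rw [ie_ent, ie_ent]
  have := en_pair_eq_cond P.isoPm X Y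
  unfold FLaw.pair
  linarith

/-- conditional entropy from a fibrewise bound -/
theorem ie_entC_le_of_fib (X : Ω → α) (Y : Ω → β) (c : ℝ)
    (h : ∀ y, P.isoPm.pr Y y ≠ 0 → (P.isoPm.cond Y y).ent X ≤ c) : P.entC X Y ≤ c := by
  rw [ie_entC_eq_sum]
  calc ∑ y ∈ Finset.univ.image Y, P.isoPm.pr Y y * (P.isoPm.cond Y y).ent X
      ≤ ∑ y ∈ Finset.univ.image Y, P.isoPm.pr Y y * c := by
        refine Finset.sum_le_sum fun y _ => ?_
        by_cases h0 : P.isoPm.pr Y y = 0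
        · simp [h0]
        · exact mul_le_mul_of_nonneg_left (h y h0) (en_pr_nonneg _ _ _)
    _ = c := by rw [← Finset.sum_mul, en_pr_sum, one_mul]

/-- number of integers in a real interval -/
theorem ie_card_int_ball (a R : ℝ) (hR : 0 ≤ R) :
    ((Finset.Icc ⌈a - R⌉ ⌊a + R⌋).card : ℝ) ≤ 2 * R + 1 := by
  rw [Int.card_Icc]
  have h1 : (⌊a + R⌋ : ℝ) ≤ a + R := Int.floor_le _
  have h2 : a - R ≤ (⌈a - R⌉ : ℝ) := Int.le_ceil _
  by_cases h : 0 ≤ ⌊a + R⌋ + 1 - ⌈a - R⌉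
  · have : ((⌊a + R⌋ + 1 - ⌈a - R⌉).toNat : ℝ) = ((⌊a + R⌋ + 1 - ⌈a - R⌉ : ℤ) : ℝ) := by
      exact_mod_cast Int.toNat_of_nonneg h
    rw [this]; push_cast; linarith
  · have : (⌊a + R⌋ + 1 - ⌈a - R⌉).toNat = 0 := Int.toNat_eq_zero.2 (not_le.1 h).le
    rw [this]; simp; linarith

/-- **bounded ambiguity, unconditional**: an integer observation within `R` of a constant -/
theorem ie_ent_int_le (X : Ω → ℤ) (a R : ℝ) (hR : 0 ≤ R) (h : ∀ ω, 0 < P.p ω → |(X ω : ℝ) - a| ≤ R) :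
    P.ent X ≤ Real.log (2 * R + 1) := by
  obtain ⟨ω0, h0⟩ : ∃ ω, 0 < P.p ω := by
    by_contra hc
    push Not at hc
    have : ∑ ω, P.p ω ≤ 0 := Finset.sum_nonpos fun ω _ => hc ω
    rw [P.sum_one] at this
    linarith
  have hm : ∀ ω, 0 < P.p ω → X ω ∈ Finset.Icc ⌈a - R⌉ ⌊a + R⌋ := by
    intro ω hω
    have := abs_le.1 (h ω hω)
    rw [Finset.mem_Icc]
    exact ⟨Int.ceil_le.2 (by linarith [this.1]), Int.le_floor.2 (by linarith [this.2])⟩
  refine (ie_ent_le_log_card P X _ hm).trans ?_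
  refine Real.log_le_log ?_ (ie_card_int_ball a R hR)
  exact_mod_cast Finset.card_pos.2 ⟨_, hm ω0 h0⟩

/-- **bounded ambiguity**: an integer observation within `R` of a function of `Y` -/
theorem ie_entC_int_le (X : Ω → ℤ) (Y : Ω → β) (f : β → ℝ) (R : ℝ) (hR : 0 ≤ R)
    (h : ∀ ω, 0 < P.p ω → |(X ω : ℝ) - f (Y ω)| ≤ R) : P.entC X Y ≤ Real.log (2 * R + 1) := by
  refine ie_entC_le_of_fib P X Y _ fun y hy => ?_
  have := ie_ent_int_le (iso_ofPm (P.isoPm.cond Y y)) X (f y) R hR (fun ω hω => by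
    rw [ie_ofPm_p, en_cond_w _ _ _ hy] at hω
    by_cases hY : Y ω = y
    · rw [if_pos hY] at hω
      have hp : 0 < P.p ω := by
        by_contra h0
        have h1 : P.p ω = 0 := le_antisymm (not_lt.1 h0) (P.nonneg ω)
        simp [h1] at hω
      rw [← hY]; exact h ω hp
    · rw [if_neg hY] at hω; exact absurd hω (lt_irrefl _))
  rw [ie_ent, ie_ofPm_isoPm] at this
  convert this

end Claimed.Agent.R255
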