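import Claimed.Agent.R255.Iso.Ent

/-!
# Row 255, Sec. 5: telescoping over windows (replaces (5.integrated-information) and the regular points)      (architect helper220)
-/

set_option autoImplicit false

namespace Claimed.Agent.R255

open scoped BigOperators
open Classical

variable {Ω : Type} [Fintype Ω] (P : FLaw Ω) {α β : Type}

theorem iso_win_ent (X Y : Ω → α) : P.entC (FLaw.pair X Y) X = P.ent (FLaw.pair X Y) - P.ent X := by
  unfold FLaw.entC
  rw [ie_ent_pair_det P (FLaw.pair X Y) X Prod.fst (fun _ _ => rfl)]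

/-- point entropies of the windows -/
theorem iso_tele_H (O : ℕ → Ω → α) (N : ℕ) (c : ℝ) (h : ∀ j < N, P.entC (O j) (O (j + 1)) ≤ c) :
    ∑ j ∈ Finset.range N, P.entC (FLaw.pair (O j) (O (j + 1))) (O j) ≤ P.ent (O N) - P.ent (O 0) + N * c := by
  induction N with
  | zero => simp
  | succ n ih =>
    rw [Finset.sum_range_succ]
    have h1 := ih (fun j hj => h j (Nat.lt_succ_of_lt hj))
    have h2 := h n (Nat.lt_succ_self n)
    rw [iso_win_ent]
    unfold FLaw.entC at h2
    push_cast
    linarith

/-- informations of the windows about a fixed observation `W` -/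
theorem iso_tele_I (O : ℕ → Ω → α) (W : Ω → β) (N : ℕ) (c : ℝ)
    (h : ∀ j < N, P.entC (O j) (O (j + 1)) ≤ c) :
    ∑ j ∈ Finset.range N, P.miC (FLaw.pair (O j) (O (j + 1))) W (O j) ≤ P.ent W + N * c := by
  have key : ∀ n ≤ N, ∑ j ∈ Finset.range n, P.miC (FLaw.pair (O j) (O (j + 1))) W (O j)
      ≤ P.entC W (O 0) - P.entC W (O n) + n * c := by
    intro n hn
    induction n with
    | zero => simp
    | succ n ih =>
      rw [Finset.sum_range_succ]
      have h1 := ih (Nat.le_of_succ_le hn)
      have h2 := h n (Nat.lt_of_succ_le hn)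
      have e1 : P.ent (FLaw.pair (FLaw.pair (O n) (O (n + 1))) (O n)) = P.ent (FLaw.pair (O n) (O (n + 1))) :=
        ie_ent_pair_det P _ _ Prod.fst (fun _ _ => rfl)
      have e2 : P.ent (FLaw.pair W (O (n + 1)))
          ≤ P.ent (FLaw.pair (FLaw.pair (FLaw.pair (O n) (O (n + 1))) W) (O n)) :=
        ie_ent_mono P _ _ (fun t => (t.1.2, t.1.1.2)) (fun _ _ => rfl)
      have step : P.miC (FLaw.pair (O n) (O (n + 1))) W (O n)
          ≤ P.entC W (O n) - P.entC W (O (n + 1)) + c := by
        unfold FLaw.miC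
        unfold FLaw.entC at h2 ⊢
        rw [e1]
        linarith
      push_cast
      linarith
  have := key N le_rfl
  have h1 := ie_entC_le_ent P W (O 0)
  have h2 := ie_entC_nonneg P W (O N)
  linarith

/-- exact chain rule for a nested pair given `T` -/
theorem iso_chain_nested {τ : Type} (T : Ω → τ) (C C' : Ω → α) (g : α → α) (hg : ∀ ω, C ω = g (C' ω)) :
    P.entC C' (FLaw.pair T C) = P.entC C' T - P.entC C T := by
  unfold FLaw.entC
  have e1 : P.ent (FLaw.pair C' (FLaw.pair T C)) = P.ent (FLaw.pair C' T) :=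
    ie_ent_congr P _ _ (fun t => (t.1, t.2.1)) (fun t => (t.1, t.2, g t.1)) (fun _ _ => rfl)
      (fun ω _ => by simp [FLaw.pair, hg ω])
  rw [e1, ie_ent_pair_comm P T C]
  ring

end Claimed.Agent.R255
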