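import Claimed.Agent.R255.Iso.Grid
import Claimed.Agent.R255.Iso.Tele

/-!
# Row 255, Sec. 5: entropy facts about the concrete observations (bounded ambiguity, capacities)      (architect helper220)
Prefix `if_`.  `P` is ANY law on `S.Ω` with `(S.withLaw P).Bdd B`.
-/

set_option autoImplicit false

namespace Claimed.Agent.R255

open scoped BigOperators
open Classical

theorem if_lg_pos (ε : ℝ) (h0 : 0 < ε) (h1 : ε < 1) : 0 < lg ε := by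
  unfold lg
  exact Real.log_pos (by rw [lt_div_iff₀ h0]; linarith)

/-- `log (a ε^(-g)) = g ℓ + log a` -/
theorem if_log_mul_rpow (ε a g : ℝ) (h0 : 0 < ε) (ha : 0 < a) :
    Real.log (a * ε ^ (-g)) = g * lg ε + Real.log a := by
  rw [Real.log_mul ha.ne' (Real.rpow_pos_of_pos h0 _).ne', Real.log_rpow h0]
  unfold lg
  rw [one_div, Real.log_inv]
  ring

theorem if_one_le_rpow_neg (ε g : ℝ) (h0 : 0 < ε) (h1 : ε < 1) (hg : 0 ≤ g) : 1 ≤ ε ^ (-g) :=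
  Real.one_le_rpow_of_pos_of_le_one_of_nonpos h0 h1.le (by linarith)

/-- `log (2 (a ε^(-g)) + 1) ≤ g ℓ + log (2a + 1)` -/
theorem if_log_count (ε a g : ℝ) (h0 : 0 < ε) (h1 : ε < 1) (hg : 0 ≤ g) (ha : 0 ≤ a) :
    Real.log (2 * (a * ε ^ (-g)) + 1) ≤ g * lg ε + Real.log (2 * a + 1) := by
  rw [← if_log_mul_rpow ε (2 * a + 1) g h0 (by positivity)]
  have := if_one_le_rpow_neg ε g h0 h1 hg
  refine Real.log_le_log (by positivity) ?_
  nlinarith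

variable (S : CSys) (P : FLaw S.Ω)

theorem if_B_nonneg (B : ℝ) (hB : (S.withLaw P).Bdd B) : 0 ≤ B := by
  obtain ⟨ω, hω⟩ : ∃ ω, 0 < P.p ω := by
    by_contra hc
    push Not at hc
    have : ∑ ω, P.p ω ≤ 0 := Finset.sum_nonpos fun ω _ => hc ω
    rw [P.sum_one] at this
    linarith
  exact (abs_nonneg _).trans (hB ω hω).1

theorem if_bdd (B : ℝ) (hB : (S.withLaw P).Bdd B) (ω : S.Ω) (hω : 0 < P.p ω) :
    |(S.Vv ω).1| ≤ B ∧ |(S.Vv ω).2| ≤ B ∧ |(S.Aa ω).1| ≤ B ∧ |(S.Aa ω).2| ≤ B ∧ |S.c ω| ≤ B := hB ω hω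

/-! ## time -/

theorem if_Ct_nest (ε u u' : ℝ) (h0 : 0 < ε) (h1 : ε < 1) (h : u ≤ u') (ω : S.Ω) :
    S.Ct ε u ω = S.Ct ε u' ω / (2 : ℤ) ^ (tlev ε u' - tlev ε u) := ig_cell_nest ε u u' _ h0 h1 h

theorem if_time_chain (ε u u' : ℝ) (h0 : 0 < ε) (h1 : ε < 1) (h : u ≤ u') :
    P.entC (S.Ct ε u') (S.TC ε u) = P.entC (S.Ct ε u') S.T - P.entC (S.Ct ε u) S.T :=
  iso_chain_nested P S.T (S.Ct ε u) (S.Ct ε u') (fun x => x / (2 : ℤ) ^ (tlev ε u' - tlev ε u))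
    (fun ω => if_Ct_nest S ε u u' h0 h1 h ω)

theorem if_time_cap (ε u g : ℝ) (h0 : 0 < ε) (h1 : ε < 1) (hg : 0 ≤ g) :
    P.entC (S.Ct ε (u + g)) (S.TC ε u) ≤ g * lg ε + Real.log 5 := by
  have hb := ie_entC_int_le P (S.Ct ε (u + g)) (S.TC ε u)
    (fun x => (x.2 : ℝ) * 2 ^ (tlev ε (u + g) - tlev ε u)) (2 * ε ^ (-g)) (by positivity)
    (fun ω _ => by
      have hr := ig_rel_nonneg ε u (u + g) (S.c ω) h0 h1 (by linarith)
      have hR := ig_ratio_le ε u g h0 h1 hg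
      show |(tcell ε (u + g) (S.c ω) : ℝ) - (tcell ε u (S.c ω) : ℝ) * 2 ^ (tlev ε (u + g) - tlev ε u)| ≤ _
      rw [abs_of_nonneg hr.1]
      linarith [hr.2])
  refine hb.trans ?_
  have := if_log_count ε 2 g h0 h1 hg (by norm_num)
  norm_num at this ⊢
  exact this

theorem if_time_zero (ε B : ℝ) (hB : (S.withLaw P).Bdd B) :
    P.entC (S.Ct ε 0) S.T ≤ Real.log (2 * (B + 1) + 1) := by
  refine (ie_entC_le_ent P _ _).trans ?_
  refine ie_ent_int_le P (S.Ct ε 0) 0 (B + 1) (by linarith [if_B_nonneg S P B hB]) (fun ω hω => ?_)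
  have hc := (if_bdd S P B hB ω hω).2.2.2.2
  have h1 := ig_cell_abs ε 0 (S.c ω)
  rw [ig_msh_zero, div_one] at h1
  show |(tcell ε 0 (S.c ω) : ℝ) - 0| ≤ _
  rw [abs_le] at h1 hc ⊢
  constructor <;> linarith [h1.1, h1.2, hc.1, hc.2]

/-! ## capacities of slope bins -/

theorem if_ent_cell (ε d Bv : ℝ) (h0 : 0 < ε) (h1 : ε < 1) (hd : 0 ≤ d) (hBv : 0 ≤ Bv) (v : S.Ω → ℝ)
    (hv : ∀ ω, 0 < P.p ω → |v ω| ≤ Bv) :
    P.ent (fun ω => tcell ε d (v ω)) ≤ d * lg ε + Real.log (2 * (2 * Bv + 1) + 1) := by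
  have hb := ie_ent_int_le P (fun ω => tcell ε d (v ω)) 0 ((2 * Bv + 1) * ε ^ (-d)) (by positivity)
    (fun ω hω => by
      have hc := ig_cell_abs ε d (v ω)
      have hm := ig_msh_pos ε d
      have hl := ig_pow_lev_le ε d h0 h1 hd
      have h1' := if_one_le_rpow_neg ε d h0 h1 hd
      have e : |v ω / msh ε d| ≤ Bv * (2 * ε ^ (-d)) := by
        rw [abs_div, abs_of_pos hm]
        unfold msh
        rw [div_div_eq_mul_div, div_one]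
        exact mul_le_mul (hv ω hω) hl (by positivity) hBv
      rw [abs_le] at hc e ⊢
      constructor <;> nlinarith [hc.1, hc.2, e.1, e.2])
  exact hb.trans (if_log_count ε (2 * Bv + 1) d h0 h1 hd (by positivity))

theorem if_ent_Vo (ε d B : ℝ) (h0 : 0 < ε) (h1 : ε < 1) (hd : 0 ≤ d) (hB : (S.withLaw P).Bdd B) :
    P.ent (S.Vo ε d) ≤ 2 * (d * lg ε) + 2 * Real.log (2 * (2 * B + 1) + 1) := by
  have hB0 := if_B_nonneg S P B hB
  have e1 := if_ent_cell S P ε d B h0 h1 hd hB0 (fun ω => (S.Vv ω).1) (fun ω hω => (if_bdd S P B hB ω hω).1)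
  have e2 := if_ent_cell S P ε d B h0 h1 hd hB0 (fun ω => (S.Vv ω).2) (fun ω hω => (if_bdd S P B hB ω hω).2.1)
  have := ie_ent_pair_le P (fun ω => tcell ε d (S.Vv ω).1) (fun ω => tcell ε d (S.Vv ω).2)
  have e : P.ent (S.Vo ε d) = P.ent (FLaw.pair (fun ω => tcell ε d (S.Vv ω).1) (fun ω => tcell ε d (S.Vv ω).2)) := rfl
  rw [e]
  linarith

theorem if_ip_V (B : ℝ) (hB : (S.withLaw P).Bdd B) (e : ℝ × ℝ) (e1 : |e.1| ≤ 1) (e2 : |e.2| ≤ 1) (ω : S.Ω)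
    (hω : 0 < P.p ω) : |ip (S.Vv ω) e| ≤ 2 * B :=
  ig_ip_abs_le _ _ B (if_bdd S P B hB ω hω).1 (if_bdd S P B hB ω hω).2.1 e1 e2

theorem if_ent_Xo (ε k g B : ℝ) (f : ℤ × ℤ × ℤ → ℝ × ℝ) (h0 : 0 < ε) (h1 : ε < 1) (hg : 0 ≤ g)
    (hB : (S.withLaw P).Bdd B) :
    P.ent (S.Xo ε k g f) ≤ g * lg ε + Real.log (2 * (2 * (2 * B) + 1) + 1) :=
  if_ent_cell S P ε g (2 * B) h0 h1 hg (by linarith [if_B_nonneg S P B hB]) _
    (fun ω hω => if_ip_V S P B hB _ (ig_tang_abs _).1 (ig_tang_abs _).2 ω hω)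

end Claimed.Agent.R255
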