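import Claimed.Agent.R255.Iso.Facts

/-!
# Row 255, Sec. 5: bounded ambiguity of the anchored observations      (architect helper220)
-/

set_option autoImplicit false

namespace Claimed.Agent.R255

open scoped BigOperators
open Classical

variable (S : CSys) (P : FLaw S.Ω)

theorem if_entC_triple {Ω : Type} [Fintype Ω] (P : FLaw Ω) {α β γ δ : Type} (X : Ω → α) (Y : Ω → β)
    (Z : Ω → γ) (W : Ω → δ) :
    P.entC (fun ω => (X ω, Y ω, Z ω)) W ≤ P.entC X W + P.entC Y W + P.entC Z W := by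
  have h1 := ie_entC_pair_le P X (FLaw.pair Y Z) W
  have h2 := ie_entC_pair_le P Y Z W
  have e : P.entC (fun ω => (X ω, Y ω, Z ω)) W = P.entC (FLaw.pair X (FLaw.pair Y Z)) W := rfl
  rw [e]; linarith

/-- the anchored position, componentwise -/
theorem if_Xa_ip (ε u : ℝ) (e : ℝ × ℝ) (ω : S.Ω) :
    ip (S.Xa ε u ω) e = ip (S.Aa ω) e + trep ε u (S.c ω) * ip (S.Vv ω) e := ig_ip_add_smul _ _ _ _

/-- `O_u` from `O_{u'}`, `u ≤ u'` -/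
theorem if_Oo_coarse (ε u u' B : ℝ) (h0 : 0 < ε) (h1 : ε < 1) (h : u ≤ u') (hB : (S.withLaw P).Bdd B) :
    P.entC (S.Oo ε u) (S.Oo ε u') ≤ 2 * Real.log (2 * (B + 2) + 1) := by
  have hB0 := if_B_nonneg S P B hB
  have ht := if_entC_triple P (S.Ct ε u)
    (fun ω => tcell ε u ((S.Aa ω).1 + trep ε u (S.c ω) * (S.Vv ω).1))
    (fun ω => tcell ε u ((S.Aa ω).2 + trep ε u (S.c ω) * (S.Vv ω).2)) (S.Oo ε u')
  have e0 : P.entC (S.Ct ε u) (S.Oo ε u') = 0 :=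
    ie_entC_det P _ _ (fun x => x.1 / (2 : ℤ) ^ (tlev ε u' - tlev ε u))
      (fun ω _ => if_Ct_nest S ε u u' h0 h1 h ω)
  have e1 := ie_entC_int_le P (fun ω => tcell ε u ((S.Aa ω).1 + trep ε u (S.c ω) * (S.Vv ω).1)) (S.Oo ε u')
    (fun x => (x.2.1 : ℝ) * (msh ε u' / msh ε u)) (B + 2) (by linarith)
    (fun ω hω => ig_coarse ε u u' _ _ _ B h0 h1 h (if_bdd S P B hB ω hω).1)
  have e2 := ie_entC_int_le P (fun ω => tcell ε u ((S.Aa ω).2 + trep ε u (S.c ω) * (S.Vv ω).2)) (S.Oo ε u')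
    (fun x => (x.2.2 : ℝ) * (msh ε u' / msh ε u)) (B + 2) (by linarith)
    (fun ω hω => ig_coarse ε u u' _ _ _ B h0 h1 h (if_bdd S P B hB ω hω).2.1)
  have e : P.entC (S.Oo ε u) (S.Oo ε u') = P.entC (fun ω => (S.Ct ε u ω,
    tcell ε u ((S.Aa ω).1 + trep ε u (S.c ω) * (S.Vv ω).1),
    tcell ε u ((S.Aa ω).2 + trep ε u (S.c ω) * (S.Vv ω).2))) (S.Oo ε u') := rfl
  rw [e]; linarith

/-- `Ψ_t` from `(B, Ψ_{t'})`, `t ≤ t'` -/
theorem if_Zo_coarse (ε k a t t' B : ℝ) (f : ℤ × ℤ × ℤ → ℝ × ℝ) (h0 : 0 < ε) (h1 : ε < 1) (h : t ≤ t')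
    (hB : (S.withLaw P).Bdd B) :
    P.entC (S.Zo ε k a t f) (S.Zo ε k a t' f) ≤ Real.log (2 * (2 * B + 2) + 1) := by
  have hB0 := if_B_nonneg S P B hB
  have h1' := ie_entC_pair_le P (S.Bo ε k a f) (S.Psi ε k t f) (S.Zo ε k a t' f)
  have h2' := ie_entC_pair_le P (S.Ct ε t) (fun ω => tcell ε t (ip (S.Xa ε t ω) (tang (S.th ε k f ω))))
    (S.Zo ε k a t' f)
  have e0 : P.entC (S.Bo ε k a f) (S.Zo ε k a t' f) = 0 := ie_entC_det P _ _ Prod.fst (fun _ _ => rfl)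
  have e1 : P.entC (S.Ct ε t) (S.Zo ε k a t' f) = 0 :=
    ie_entC_det P _ _ (fun x => x.2.1 / (2 : ℤ) ^ (tlev ε t' - tlev ε t))
      (fun ω _ => if_Ct_nest S ε t t' h0 h1 h ω)
  have e2 := ie_entC_int_le P (fun ω => tcell ε t (ip (S.Xa ε t ω) (tang (S.th ε k f ω)))) (S.Zo ε k a t' f)
    (fun x => (x.2.2 : ℝ) * (msh ε t' / msh ε t)) (2 * B + 2) (by linarith)
    (fun ω hω => by
      have := ig_coarse ε t t' (ip (S.Aa ω) (tang (S.th ε k f ω))) (ip (S.Vv ω) (tang (S.th ε k f ω)))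
        (S.c ω) (2 * B) h0 h1 h (if_ip_V S P B hB _ (ig_tang_abs _).1 (ig_tang_abs _).2 ω hω)
      rw [← if_Xa_ip, ← if_Xa_ip] at this
      exact this)
  have e : P.entC (S.Psi ε k t f) (S.Zo ε k a t' f) = P.entC (FLaw.pair (S.Ct ε t)
    (fun ω => tcell ε t (ip (S.Xa ε t ω) (tang (S.th ε k f ω))))) (S.Zo ε k a t' f) := rfl
  have e' : P.entC (S.Zo ε k a t f) (S.Zo ε k a t' f)
    = P.entC (FLaw.pair (S.Bo ε k a f) (S.Psi ε k t f)) (S.Zo ε k a t' f) := rfl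
  rw [e'] ; rw [e] at h1'; linarith

/-- the corner of the position cell of `O_1` -/
noncomputable def ocorner (ε : ℝ) (o : ℤ × ℤ × ℤ) : ℝ × ℝ := ((o.2.1 : ℝ) * msh ε 1, (o.2.2 : ℝ) * msh ε 1)

/-- the anchored terminal position is within `2 msh 1` of the corner, in every direction -/
theorem if_corner (ε : ℝ) (e : ℝ × ℝ) (e1 : |e.1| ≤ 1) (e2 : |e.2| ≤ 1) (ω : S.Ω) :
    |ip (S.Xa ε 1 ω) e - ip (ocorner ε (S.Oo ε 1 ω)) e| ≤ 2 * msh ε 1 := by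
  have hm := ig_msh_pos ε 1
  have a1 := ig_cell_le ε 1 ((S.Aa ω).1 + trep ε 1 (S.c ω) * (S.Vv ω).1)
  have a2 := ig_lt_cell ε 1 ((S.Aa ω).1 + trep ε 1 (S.c ω) * (S.Vv ω).1)
  have b1 := ig_cell_le ε 1 ((S.Aa ω).2 + trep ε 1 (S.c ω) * (S.Vv ω).2)
  have b2 := ig_lt_cell ε 1 ((S.Aa ω).2 + trep ε 1 (S.c ω) * (S.Vv ω).2)
  have hx : ip (S.Xa ε 1 ω) e - ip (ocorner ε (S.Oo ε 1 ω)) e
      = ((S.Aa ω).1 + trep ε 1 (S.c ω) * (S.Vv ω).1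
          - (tcell ε 1 ((S.Aa ω).1 + trep ε 1 (S.c ω) * (S.Vv ω).1) : ℝ) * msh ε 1) * e.1
        + ((S.Aa ω).2 + trep ε 1 (S.c ω) * (S.Vv ω).2
          - (tcell ε 1 ((S.Aa ω).2 + trep ε 1 (S.c ω) * (S.Vv ω).2) : ℝ) * msh ε 1) * e.2 := by
    simp only [ip, CSys.Xa, ocorner, CSys.Oo, iObs, Prod.fst_add, Prod.snd_add, Prod.smul_fst,
      Prod.smul_snd, smul_eq_mul]
    ring
  rw [hx]
  refine (abs_add_le _ _).trans ?_
  rw [abs_mul, abs_mul]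
  have p1 : |(S.Aa ω).1 + trep ε 1 (S.c ω) * (S.Vv ω).1
      - (tcell ε 1 ((S.Aa ω).1 + trep ε 1 (S.c ω) * (S.Vv ω).1) : ℝ) * msh ε 1| ≤ msh ε 1 := by
    rw [abs_le]; constructor <;> linarith
  have p2 : |(S.Aa ω).2 + trep ε 1 (S.c ω) * (S.Vv ω).2
      - (tcell ε 1 ((S.Aa ω).2 + trep ε 1 (S.c ω) * (S.Vv ω).2) : ℝ) * msh ε 1| ≤ msh ε 1 := by
    rw [abs_le]; constructor <;> linarith
  have q1 := mul_le_mul p1 e1 (abs_nonneg _) hm.le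
  have q2 := mul_le_mul p2 e2 (abs_nonneg _) hm.le
  linarith

/-- `(B, Ψ_t)` from `(O_1, B)`, `t ≤ 1` -/
theorem if_Zo_of_O1 (ε k a t B : ℝ) (f : ℤ × ℤ × ℤ → ℝ × ℝ) (h0 : 0 < ε) (h1 : ε < 1) (h : t ≤ 1)
    (hB : (S.withLaw P).Bdd B) :
    P.entC (S.Zo ε k a t f) (FLaw.pair (S.Oo ε 1) (S.Bo ε k a f)) ≤ Real.log (2 * (2 * B + 3) + 1) := by
  have hB0 := if_B_nonneg S P B hB
  have h1' := ie_entC_pair_le P (S.Bo ε k a f) (S.Psi ε k t f) (FLaw.pair (S.Oo ε 1) (S.Bo ε k a f))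
  have h2' := ie_entC_pair_le P (S.Ct ε t) (fun ω => tcell ε t (ip (S.Xa ε t ω) (tang (S.th ε k f ω))))
    (FLaw.pair (S.Oo ε 1) (S.Bo ε k a f))
  have e0 : P.entC (S.Bo ε k a f) (FLaw.pair (S.Oo ε 1) (S.Bo ε k a f)) = 0 :=
    ie_entC_det P _ _ Prod.snd (fun _ _ => rfl)
  have e1 : P.entC (S.Ct ε t) (FLaw.pair (S.Oo ε 1) (S.Bo ε k a f)) = 0 :=
    ie_entC_det P _ _ (fun x => x.1.1 / (2 : ℤ) ^ (tlev ε 1 - tlev ε t))
      (fun ω _ => if_Ct_nest S ε t 1 h0 h1 h ω)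
  have e2 := ie_entC_int_le P (fun ω => tcell ε t (ip (S.Xa ε t ω) (tang (S.th ε k f ω))))
    (FLaw.pair (S.Oo ε 1) (S.Bo ε k a f))
    (fun x => ip (ocorner ε x.1) (tang (f x.2.1).1) / msh ε t) (2 * B + 3) (by linarith)
    (fun ω hω => by
      obtain ⟨e, he⟩ : ∃ e, e = tang (S.th ε k f ω) := ⟨_, rfl⟩
      have he1 : |e.1| ≤ 1 := by rw [he]; exact (ig_tang_abs _).1
      have he2 : |e.2| ≤ 1 := by rw [he]; exact (ig_tang_abs _).2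
      have hm := ig_msh_pos ε t
      have hmm := ig_msh_anti ε t 1 h0 h1 h
      have c1 := ig_cell_abs ε t (ip (S.Xa ε t ω) e)
      have c2 := if_corner S ε e he1 he2 ω
      have hd := ig_trep_diff_bd ε t 1 (S.c ω) h0 h1 h
      have hv := if_ip_V S P B hB e he1 he2 ω hω
      have c3 : |ip (S.Xa ε t ω) e - ip (S.Xa ε 1 ω) e| ≤ 2 * B * msh ε t := by
        rw [if_Xa_ip, if_Xa_ip]
        have : ip (S.Aa ω) e + trep ε t (S.c ω) * ip (S.Vv ω) e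
            - (ip (S.Aa ω) e + trep ε 1 (S.c ω) * ip (S.Vv ω) e)
            = - ((trep ε 1 (S.c ω) - trep ε t (S.c ω)) * ip (S.Vv ω) e) := by ring
        rw [this, abs_neg, abs_mul, abs_of_nonneg hd.1, mul_comm]
        exact mul_le_mul hv hd.2.le hd.1 (by linarith)
      have c4 : |ip (S.Xa ε t ω) e / msh ε t - ip (ocorner ε (S.Oo ε 1 ω)) e / msh ε t| ≤ 2 * B + 2 := by
        rw [← sub_div, abs_div, abs_of_pos hm, div_le_iff₀ hm]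
        rw [abs_le] at c2 c3 ⊢
        constructor <;> nlinarith [c2.1, c2.2, c3.1, c3.2]
      show |(tcell ε t (ip (S.Xa ε t ω) (tang (S.th ε k f ω))) : ℝ)
        - ip (ocorner ε (S.Oo ε 1 ω)) (tang (S.th ε k f ω)) / msh ε t| ≤ _
      rw [← he]
      rw [abs_le] at c1 c4 ⊢
      constructor <;> linarith [c1.1, c1.2, c4.1, c4.2])
  have e : P.entC (S.Psi ε k t f) (FLaw.pair (S.Oo ε 1) (S.Bo ε k a f)) = P.entC (FLaw.pair (S.Ct ε t)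
    (fun ω => tcell ε t (ip (S.Xa ε t ω) (tang (S.th ε k f ω))))) (FLaw.pair (S.Oo ε 1) (S.Bo ε k a f)) := rfl
  have e' : P.entC (S.Zo ε k a t f) (FLaw.pair (S.Oo ε 1) (S.Bo ε k a f))
    = P.entC (FLaw.pair (S.Bo ε k a f) (S.Psi ε k t f)) (FLaw.pair (S.Oo ε 1) (S.Bo ε k a f)) := rfl
  rw [e']; rw [e] at h1'; linarith

/-- `B` from `O_1` on the strip (5.normal-transport) -/
theorem if_Bo_of_O1 (ε k l B : ℝ) (f : ℤ × ℤ × ℤ → ℝ × ℝ) (h0 : 0 < ε) (h1 : ε < 1) (hk : k ≤ 1 - l)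
    (hl : 0 ≤ l) (hl1 : l ≤ 1) (hB : (S.withLaw P).Bdd B) (hS : ∀ ω, 0 < P.p ω → S.Strip ε k l f ω) :
    P.entC (S.Bo ε k (1 - l) f) (S.Oo ε 1) ≤ 4 * Real.log (2 * (B + 2) + 1) + Real.log 19 := by
  have a1 := if_Oo_coarse S P ε k 1 B h0 h1 (by linarith) hB
  have a2 := if_Oo_coarse S P ε (1 - l) 1 B h0 h1 (by linarith) hB
  obtain ⟨N1, hN1⟩ : ∃ N1 : S.Ω → ℤ,
    N1 = fun ω => tcell ε 1 (ip (S.Xa ε (1 - l) ω) (nrm (S.th ε k f ω))) := ⟨_, rfl⟩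
  have e : S.Bo ε k (1 - l) f = FLaw.pair (S.Oo ε k) (FLaw.pair (S.Oo ε (1 - l)) N1) := by rw [hN1]; rfl
  rw [e, ie_entC_chain, ie_entC_chain]
  have b1 : P.entC (S.Oo ε (1 - l)) (FLaw.pair (S.Oo ε k) (S.Oo ε 1)) ≤ P.entC (S.Oo ε (1 - l)) (S.Oo ε 1) :=
    ie_entC_anti P _ _ _ Prod.snd (fun _ _ => rfl)
  have b2 : P.entC N1 (FLaw.pair (S.Oo ε (1 - l)) (FLaw.pair (S.Oo ε k) (S.Oo ε 1))) ≤ Real.log (2 * 9 + 1) := by
    refine ie_entC_int_le P N1 _ (fun x => (ip (ocorner ε x.2.2) (nrm (f x.2.1).1)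
      - ((x.2.2.1 : ℝ) * msh ε 1 - (x.1.1 : ℝ) * msh ε (1 - l)) * (f x.2.1).2) / msh ε 1) 9 (by norm_num)
      (fun ω hω => ?_)
    obtain ⟨n, hn⟩ : ∃ n, n = nrm (S.th ε k f ω) := ⟨_, rfl⟩
    have hn1 : |n.1| ≤ 1 := by rw [hn]; exact (ig_nrm_abs _).1
    have hn2 : |n.2| ≤ 1 := by rw [hn]; exact (ig_nrm_abs _).2
    obtain ⟨w, hw⟩ : ∃ w, w = (f (S.Oo ε k ω)).2 := ⟨_, rfl⟩
    have hm := ig_msh_pos ε 1
    have c1 := ig_cell_abs ε 1 (ip (S.Xa ε (1 - l) ω) n)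
    have c2 := if_corner S ε n hn1 hn2 ω
    have hd := ig_trep_diff_bd ε (1 - l) 1 (S.c ω) h0 h1 (by linarith)
    have hs : |ip (S.Vv ω) n - w| ≤ 3 * ε ^ l := by rw [hn, hw]; exact hS ω hω
    have hma := ig_msh_le ε (1 - l) h0
    have hm1 := ig_le_msh ε 1 h0 h1 zero_le_one
    have hpow : ε ^ (1 - l) * ε ^ l = ε ^ (1 : ℝ) := by
      rw [← Real.rpow_add h0]; congr 1; ring
    have hpl : 0 < ε ^ l := Real.rpow_pos_of_pos h0 l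
    -- transport
    have c3 : |(trep ε 1 (S.c ω) - trep ε (1 - l) (S.c ω)) * (ip (S.Vv ω) n - w)| ≤ 6 * msh ε 1 := by
      rw [abs_mul, abs_of_nonneg hd.1]
      calc (trep ε 1 (S.c ω) - trep ε (1 - l) (S.c ω)) * |ip (S.Vv ω) n - w|
          ≤ ε ^ (1 - l) * (3 * ε ^ l) := mul_le_mul (hd.2.le.trans hma) hs (abs_nonneg _)
            (Real.rpow_pos_of_pos h0 _).le
        _ = 3 * ε ^ (1 : ℝ) := by rw [← hpow]; ring
        _ ≤ 6 * msh ε 1 := by linarith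
    have key : ip (S.Xa ε (1 - l) ω) n - (ip (ocorner ε (S.Oo ε 1 ω)) n
        - (trep ε 1 (S.c ω) - trep ε (1 - l) (S.c ω)) * w)
        = (ip (S.Xa ε 1 ω) n - ip (ocorner ε (S.Oo ε 1 ω)) n)
          - (trep ε 1 (S.c ω) - trep ε (1 - l) (S.c ω)) * (ip (S.Vv ω) n - w) := by
      rw [if_Xa_ip, if_Xa_ip]; ring
    have c4 : |ip (S.Xa ε (1 - l) ω) n / msh ε 1 - (ip (ocorner ε (S.Oo ε 1 ω)) n
        - (trep ε 1 (S.c ω) - trep ε (1 - l) (S.c ω)) * w) / msh ε 1| ≤ 8 := by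
      rw [← sub_div, abs_div, abs_of_pos hm, div_le_iff₀ hm, key]
      rw [abs_le] at c2 c3 ⊢
      constructor <;> linarith [c2.1, c2.2, c3.1, c3.2]
    have hgoal : |(tcell ε 1 (ip (S.Xa ε (1 - l) ω) n) : ℝ) - (ip (ocorner ε (S.Oo ε 1 ω)) n
        - (trep ε 1 (S.c ω) - trep ε (1 - l) (S.c ω)) * w) / msh ε 1| ≤ 9 := by
      rw [abs_le] at c1 c4 ⊢
      constructor <;> linarith [c1.1, c1.2, c4.1, c4.2]
    rw [ig_trep_eq, ig_trep_eq, hn, hw] at hgoal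
    rw [hN1]
    exact hgoal
  norm_num at b2
  linarith

end Claimed.Agent.R255
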