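import Claimed.Agent.R255.Iso.Facts2

/-!
# Row 255, Sec. 5: the two aperture labels      (architect helper220)

* `geoB` : read-out of `B = (O_k, O_a, [(A + C_a V)·n]_1)`, shape `(0, l)`, duration `a = 1 - l`, horizon `1`.
* `geoG` : read-out of `(O_1, (B, Ψ_t))`, shape `(d, d)`, duration `1 - d`, horizon `1`.
-/

set_option autoImplicit false

namespace Claimed.Agent.R255

open scoped BigOperators
open Classical

theorem il_ip_sub (x y e : ℝ × ℝ) : ip (x - y) e = ip x e - ip y e := by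
  simp only [ip, Prod.fst_sub, Prod.snd_sub]; ring

theorem il_ip_comb (α β : ℝ) (u v e : ℝ × ℝ) : ip (α • u + β • v) e = α * ip u e + β * ip v e := by
  simp only [ip, Prod.fst_add, Prod.snd_add, Prod.smul_fst, Prod.smul_snd, smul_eq_mul]; ring

theorem il_ip_smul (α : ℝ) (u e : ℝ × ℝ) : ip (α • u) e = α * ip u e := by
  simp only [ip, Prod.smul_fst, Prod.smul_snd, smul_eq_mul]; ring

/-- the corner of the position cell of `O_u` -/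
noncomputable def ocornerU (ε u : ℝ) (o : ℤ × ℤ × ℤ) : ℝ × ℝ := ((o.2.1 : ℝ) * msh ε u, (o.2.2 : ℝ) * msh ε u)

theorem il_corner (S : CSys) (ε u : ℝ) (e : ℝ × ℝ) (e1 : |e.1| ≤ 1) (e2 : |e.2| ≤ 1) (ω : S.Ω) :
    |ip (S.Xa ε u ω) e - ip (ocornerU ε u (S.Oo ε u ω)) e| ≤ 2 * msh ε u := by
  have hm := ig_msh_pos ε u
  have a1 := ig_cell_le ε u ((S.Aa ω).1 + trep ε u (S.c ω) * (S.Vv ω).1)
  have a2 := ig_lt_cell ε u ((S.Aa ω).1 + trep ε u (S.c ω) * (S.Vv ω).1)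
  have b1 := ig_cell_le ε u ((S.Aa ω).2 + trep ε u (S.c ω) * (S.Vv ω).2)
  have b2 := ig_lt_cell ε u ((S.Aa ω).2 + trep ε u (S.c ω) * (S.Vv ω).2)
  have hx : ip (S.Xa ε u ω) e - ip (ocornerU ε u (S.Oo ε u ω)) e
      = ((S.Aa ω).1 + trep ε u (S.c ω) * (S.Vv ω).1
          - (tcell ε u ((S.Aa ω).1 + trep ε u (S.c ω) * (S.Vv ω).1) : ℝ) * msh ε u) * e.1
        + ((S.Aa ω).2 + trep ε u (S.c ω) * (S.Vv ω).2
          - (tcell ε u ((S.Aa ω).2 + trep ε u (S.c ω) * (S.Vv ω).2) : ℝ) * msh ε u) * e.2 := by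
    simp only [ip, CSys.Xa, ocornerU, CSys.Oo, iObs, Prod.fst_add, Prod.snd_add, Prod.smul_fst,
      Prod.smul_snd, smul_eq_mul]
    ring
  rw [hx]
  refine (abs_add_le _ _).trans ?_
  rw [abs_mul, abs_mul]
  have p1 : |(S.Aa ω).1 + trep ε u (S.c ω) * (S.Vv ω).1
      - (tcell ε u ((S.Aa ω).1 + trep ε u (S.c ω) * (S.Vv ω).1) : ℝ) * msh ε u| ≤ msh ε u := by
    rw [abs_le]; constructor <;> linarith
  have p2 : |(S.Aa ω).2 + trep ε u (S.c ω) * (S.Vv ω).2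
      - (tcell ε u ((S.Aa ω).2 + trep ε u (S.c ω) * (S.Vv ω).2) : ℝ) * msh ε u| ≤ msh ε u := by
    rw [abs_le]; constructor <;> linarith
  have q1 := mul_le_mul p1 e1 (abs_nonneg _) hm.le
  have q2 := mul_le_mul p2 e2 (abs_nonneg _) hm.le
  linarith

/-- read-out of `B` -/
noncomputable def geoB (ε l : ℝ) (f : ℤ × ℤ × ℤ → ℝ × ℝ) (x : (ℤ × ℤ × ℤ) × (ℤ × ℤ × ℤ) × ℤ) : Geo where
  b := 0
  a := l
  tc := (x.2.1.1 : ℝ) * msh ε (1 - l)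
  th := (f x.1).1
  vc := (f x.1).2 • nrm (f x.1).1
  xc := ip (ocornerU ε (1 - l) x.2.1) (tang (f x.1).1) • tang (f x.1).1
    + ((x.2.2 : ℝ) * msh ε 1) • nrm (f x.1).1

theorem il_wt_geoB (γ ε l : ℝ) (f : ℤ × ℤ × ℤ → ℝ × ℝ) (x : (ℤ × ℤ × ℤ) × (ℤ × ℤ × ℤ) × ℤ) :
    wt γ (geoB ε l f x) = (1 - γ) * l := by
  simp [wt, geoB]

/-- `B` is an aperture label of shape `(0, l)` at duration `1 - l`, horizon `1` -/
theorem iso_label_B (S : CSys) (P' : FLaw S.Ω) (ε k l B : ℝ) (f : ℤ × ℤ × ℤ → ℝ × ℝ) (h0 : 0 < ε) (h1 : ε < 1)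
    (hl : 0 ≤ l) (hB : (S.withLaw P').Bdd B) (hS : ∀ ω, 0 < P'.p ω → S.Strip ε k l f ω) :
    (S.withLaw P').IsLabel (3 + 2 * B) ε (1 - l) 1 (S.Bo ε k (1 - l) f) (geoB ε l f) := by
  have hB0 := if_B_nonneg S P' B hB
  intro ω hω
  have hω' : 0 < P'.p ω := hω
  obtain ⟨th, hth⟩ : ∃ th, th = S.th ε k f ω := ⟨_, rfl⟩
  have hK1 : (1 : ℝ) ≤ 3 + 2 * B := by linarith
  have hpa : 0 < ε ^ (1 - l) := Real.rpow_pos_of_pos h0 _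
  have hpl : 0 < ε ^ l := Real.rpow_pos_of_pos h0 _
  have htc : (geoB ε l f (S.Bo ε k (1 - l) f ω)).tc = trep ε (1 - l) (S.c ω) := by
    rw [ig_trep_eq]; rfl
  refine ⟨le_rfl, hl, ?_, ?_, ⟨?_, ?_⟩, ⟨?_, ?_⟩⟩
  · show l + (1 - l) ≤ 1
    linarith
  · show |S.c ω - (geoB ε l f (S.Bo ε k (1 - l) f ω)).tc| ≤ _
    rw [htc]
    have a1 := ig_trep_le ε (1 - l) (S.c ω)
    have a2 := ig_lt_trep ε (1 - l) (S.c ω)
    have a3 := ig_msh_le ε (1 - l) h0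
    rw [abs_of_nonneg (by linarith)]
    nlinarith
  · show |ip (S.Vv ω - (f (S.Oo ε k ω)).2 • nrm (S.th ε k f ω)) (tang (S.th ε k f ω))| ≤ (3 + 2 * B) * ε ^ (0 : ℝ)
    rw [il_ip_sub, il_ip_smul, ig_ip_nrm_tang, mul_zero, sub_zero, Real.rpow_zero, mul_one]
    have := if_ip_V S P' B hB _ (ig_tang_abs (S.th ε k f ω)).1 (ig_tang_abs _).2 ω hω'
    linarith
  · show |ip (S.Vv ω - (f (S.Oo ε k ω)).2 • nrm (S.th ε k f ω)) (nrm (S.th ε k f ω))| ≤ (3 + 2 * B) * ε ^ l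
    rw [il_ip_sub, il_ip_smul, ig_ip_nrm_nrm, mul_one]
    have := hS ω hω'
    unfold CSys.Strip at this
    nlinarith
  · show |ip (S.Aa ω + (geoB ε l f (S.Bo ε k (1 - l) f ω)).tc • S.Vv ω
      - (ip (ocornerU ε (1 - l) (S.Oo ε (1 - l) ω)) (tang (S.th ε k f ω)) • tang (S.th ε k f ω)
        + ((tcell ε 1 (ip (S.Xa ε (1 - l) ω) (nrm (S.th ε k f ω))) : ℝ) * msh ε 1) • nrm (S.th ε k f ω)))
      (tang (S.th ε k f ω))| ≤ (3 + 2 * B) * ε ^ (0 + (1 - l))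
    rw [htc, il_ip_sub, il_ip_comb, ig_ip_tang_tang, ig_ip_nrm_tang, mul_one, mul_zero, add_zero, zero_add]
    have := il_corner S ε (1 - l) (tang (S.th ε k f ω)) (ig_tang_abs _).1 (ig_tang_abs _).2 ω
    have a3 := ig_msh_le ε (1 - l) h0
    have e : S.Aa ω + trep ε (1 - l) (S.c ω) • S.Vv ω = S.Xa ε (1 - l) ω := rfl
    rw [e]
    nlinarith
  · show |ip (S.Aa ω + (geoB ε l f (S.Bo ε k (1 - l) f ω)).tc • S.Vv ω
      - (ip (ocornerU ε (1 - l) (S.Oo ε (1 - l) ω)) (tang (S.th ε k f ω)) • tang (S.th ε k f ω)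
        + ((tcell ε 1 (ip (S.Xa ε (1 - l) ω) (nrm (S.th ε k f ω))) : ℝ) * msh ε 1) • nrm (S.th ε k f ω)))
      (nrm (S.th ε k f ω))| ≤ (3 + 2 * B) * ε ^ (l + (1 - l))
    rw [htc, il_ip_sub, il_ip_comb, ig_ip_tang_nrm, ig_ip_nrm_nrm, mul_one, mul_zero, zero_add]
    have e : S.Aa ω + trep ε (1 - l) (S.c ω) • S.Vv ω = S.Xa ε (1 - l) ω := rfl
    have e2 : l + (1 - l) = 1 := by ring
    rw [e, e2, Real.rpow_one]
    have a1 := ig_cell_le ε 1 (ip (S.Xa ε (1 - l) ω) (nrm (S.th ε k f ω)))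
    have a2 := ig_lt_cell ε 1 (ip (S.Xa ε (1 - l) ω) (nrm (S.th ε k f ω)))
    have a3 := ig_msh_le ε 1 h0
    rw [Real.rpow_one] at a3
    rw [abs_of_nonneg (by linarith)]
    nlinarith

/-- read-out of `(O_1, (B, Ψ_t))` -/
noncomputable def geoG (ε d : ℝ) (f : ℤ × ℤ × ℤ → ℝ × ℝ)
    (f₂ : ((ℤ × ℤ × ℤ) × (ℤ × ℤ × ℤ) × ℤ) × (ℤ × ℤ) → ℝ)
    (x : (ℤ × ℤ × ℤ) × (((ℤ × ℤ × ℤ) × (ℤ × ℤ × ℤ) × ℤ) × (ℤ × ℤ))) : Geo where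
  b := d
  a := d
  tc := (x.1.1 : ℝ) * msh ε 1
  th := (f x.2.1.1).1
  vc := f₂ x.2 • tang (f x.2.1.1).1 + (f x.2.1.1).2 • nrm (f x.2.1.1).1
  xc := ocornerU ε 1 x.1

theorem il_wt_geoG (γ ε d : ℝ) (f : ℤ × ℤ × ℤ → ℝ × ℝ)
    (f₂ : ((ℤ × ℤ × ℤ) × (ℤ × ℤ × ℤ) × ℤ) × (ℤ × ℤ) → ℝ)
    (x : (ℤ × ℤ × ℤ) × (((ℤ × ℤ × ℤ) × (ℤ × ℤ × ℤ) × ℤ) × (ℤ × ℤ))) :
    wt γ (geoG ε d f f₂ x) = 2 * d := by
  simp only [wt, geoG]; ring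

/-- `(O_1, B, Ψ_t)` is an aperture label of shape `(d, d)` at duration `1 - d`, horizon `1` -/
theorem iso_label_G (S : CSys) (P'' : FLaw S.Ω) (ε k a t l d : ℝ) (f : ℤ × ℤ × ℤ → ℝ × ℝ)
    (f₂ : ((ℤ × ℤ × ℤ) × (ℤ × ℤ × ℤ) × ℤ) × (ℤ × ℤ) → ℝ) (h0 : 0 < ε) (h1 : ε < 1) (hd : 0 ≤ d) (hdl : d ≤ l)
    (hS : ∀ ω, 0 < P''.p ω → S.Strip ε k l f ω ∧ S.Conf ε k a t d f f₂ ω) :
    (S.withLaw P'').IsLabel 3 ε (1 - d) 1 (FLaw.pair (S.Oo ε 1) (S.Zo ε k a t f)) (geoG ε d f f₂) := by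
  intro ω hω
  have hω' : 0 < P''.p ω := hω
  have hpd : 0 < ε ^ d := Real.rpow_pos_of_pos h0 _
  have htc : (geoG ε d f f₂ (FLaw.pair (S.Oo ε 1) (S.Zo ε k a t f) ω)).tc = trep ε 1 (S.c ω) := by
    rw [ig_trep_eq]; rfl
  have e2 : d + (1 - d) = 1 := by ring
  have e : S.Aa ω + trep ε 1 (S.c ω) • S.Vv ω = S.Xa ε 1 ω := rfl
  have a3 := ig_msh_le ε 1 h0
  rw [Real.rpow_one] at a3
  refine ⟨hd, le_rfl, ?_, ?_, ⟨?_, ?_⟩, ⟨?_, ?_⟩⟩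
  · show d + (1 - d) ≤ 1
    linarith
  · show |S.c ω - (geoG ε d f f₂ (FLaw.pair (S.Oo ε 1) (S.Zo ε k a t f) ω)).tc| ≤ _
    rw [htc]
    have a1 := ig_trep_le ε 1 (S.c ω)
    have a2 := ig_lt_trep ε 1 (S.c ω)
    have a4 : ε ^ (1 : ℝ) ≤ ε ^ (1 - d) := Real.rpow_le_rpow_of_exponent_ge h0 h1.le (by linarith)
    rw [Real.rpow_one] at a4
    rw [abs_of_nonneg (by linarith)]
    linarith
  · show |ip (S.Vv ω - (f₂ (S.Zo ε k a t f ω) • tang (S.th ε k f ω)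
      + (f (S.Oo ε k ω)).2 • nrm (S.th ε k f ω))) (tang (S.th ε k f ω))| ≤ 3 * ε ^ d
    rw [il_ip_sub, il_ip_comb, ig_ip_tang_tang, ig_ip_nrm_tang, mul_one, mul_zero, add_zero]
    have := (hS ω hω').2
    unfold CSys.Conf at this
    linarith
  · show |ip (S.Vv ω - (f₂ (S.Zo ε k a t f ω) • tang (S.th ε k f ω)
      + (f (S.Oo ε k ω)).2 • nrm (S.th ε k f ω))) (nrm (S.th ε k f ω))| ≤ 3 * ε ^ d
    rw [il_ip_sub, il_ip_comb, ig_ip_tang_nrm, ig_ip_nrm_nrm, mul_one, mul_zero, zero_add]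
    have := (hS ω hω').1
    unfold CSys.Strip at this
    have a4 : ε ^ l ≤ ε ^ d := Real.rpow_le_rpow_of_exponent_ge h0 h1.le hdl
    linarith
  · show |ip (S.Aa ω + (geoG ε d f f₂ (FLaw.pair (S.Oo ε 1) (S.Zo ε k a t f) ω)).tc • S.Vv ω
      - ocornerU ε 1 (S.Oo ε 1 ω)) (tang (S.th ε k f ω))| ≤ 3 * ε ^ (d + (1 - d))
    rw [htc, e, e2, il_ip_sub, Real.rpow_one]
    have := il_corner S ε 1 (tang (S.th ε k f ω)) (ig_tang_abs _).1 (ig_tang_abs _).2 ω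
    linarith
  · show |ip (S.Aa ω + (geoG ε d f f₂ (FLaw.pair (S.Oo ε 1) (S.Zo ε k a t f) ω)).tc • S.Vv ω
      - ocornerU ε 1 (S.Oo ε 1 ω)) (nrm (S.th ε k f ω))| ≤ 3 * ε ^ (d + (1 - d))
    rw [htc, e, e2, il_ip_sub, Real.rpow_one]
    have := il_corner S ε 1 (nrm (S.th ε k f ω)) (ig_nrm_abs _).1 (ig_nrm_abs _).2 ω
    linarith

end Claimed.Agent.R255
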