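import Claimed.Agent.R255.Iso.Defs
import Claimed.Agent.R255.Cl.Tools.Cap
import Claimed.Agent.R255.Cl.Tools.Tau

/-!
# Row 255, Sec. 5, block ISO-RSAT: robust saturation of a trimmed member of an isotropic extremiser      (architect helper220, proved by helper26; prefix `irs_`)

One member `S = Q.S n` of the sequence, `G` = {surprise of `O_1` at most `(x̄ + e) ℓ`} ∩ {conditional surprise of `C_1` given `T` at least `(s - e) ℓ`}, `S₀ = S.condOn G`.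
For `P' ≤ K' P` supported in `G`:  (R1) `H'(O) ≤ (x̄ + e) ℓ` (Gibbs),  (R2) `H'(C_1 | T) ≥ (s - e) ℓ - log K'` (Gibbs for `T`),  (R3) `τ' ≤ τ + e + log K' / ℓ` (caps).
-/

set_option autoImplicit false

namespace Claimed.Agent.R255

open Filter Topology
open scoped BigOperators
open Classical

/-- (R1) -/
theorem irs_ent_le {Ω α : Type} [Fintype Ω] (P P' : FLaw Ω) (O : Ω → α) (M : ℝ)
    (hpos : ∀ ω, P'.p ω ≠ 0 → P.p ω ≠ 0)
    (h : ∀ ω, P'.p ω ≠ 0 → - Real.log (P.fib O ω) ≤ M) : P'.ent O ≤ M := by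
  have h1 := ent_gibbs P' O (fun x => P.pr (fun ω => O ω = x)) (fun x => ent_pr_nonneg P _)
    (fun U => ent_aux_sum_pr_le P O U) (fun ω hω => ent_fib_pos P O (hpos ω hω))
  refine h1.trans ?_
  rw [← ent_ev_const P' M]
  exact ent_ev_mono P' fun ω hω => h ω hω

/-- (R2) -/
theorem irs_entC_ge {Ω α β : Type} [Fintype Ω] (P P' : FLaw Ω) (K' : ℝ) (hD : P'.Dom K' P)
    (C : Ω → α) (T : Ω → β) (m : ℝ) (h : ∀ ω, P'.p ω ≠ 0 → m ≤ P.surC C T ω) :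
    m - Real.log K' ≤ P'.entC C T := by
  have hK : 0 < K' := lt_of_lt_of_le one_pos (ent_dom_one_le hD)
  have h1 := (ent_kl_obs P' P hD T).1
  rw [ent_entC_eq_ev]
  have h2 : P'.ev (fun ω => m - Real.log K' + Real.log (P'.fib T ω / P.fib T ω)) ≤
      P'.ev (P'.surC C T) := by
    refine ent_ev_mono P' fun ω hω => ?_
    have hω' := ent_dom_supp hD hω
    rw [ent_surC_eq_sub P' C T hω]
    have e1 := h ω hω
    rw [ent_surC_eq_sub P C T hω'] at e1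
    have p1 := ent_fib_pos P' (FLaw.pair C T) hω
    have p2 := ent_fib_pos P (FLaw.pair C T) hω'
    have p3 := ent_fib_pos P' T hω
    have p4 := ent_fib_pos P T hω'
    have e2 : Real.log (P'.fib (FLaw.pair C T) ω) ≤ Real.log K' + Real.log (P.fib (FLaw.pair C T) ω) := by
      rw [← Real.log_mul hK.ne' p2.ne']
      exact Real.log_le_log p1 (ent_dom_fib hD _ ω)
    rw [Real.log_div p3.ne' p4.ne']
    linarith
  rw [ent_ev_add, ent_ev_const] at h2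
  linarith

/-- `K' ε^x = ε^(x - log K' / ℓ)` -/
theorem irs_rpow_shift (ε K' x : ℝ) (h0 : 0 < ε) (h1 : ε < 1) (hK : 0 < K') :
    K' * ε ^ x = ε ^ (x - Real.log K' / lg ε) := by
  have hl := tl_lg_pos h0 h1
  have e : Real.log ε = - lg ε := by
    unfold lg
    rw [one_div, Real.log_inv, neg_neg]
  rw [Real.rpow_sub h0, Real.rpow_def_of_pos h0 (Real.log K' / lg ε), e]
  have : -lg ε * (Real.log K' / lg ε) = - Real.log K' := by
    field_simp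
  rw [this, Real.exp_neg, Real.exp_log hK]
  field_simp

/-- (R3) -/
theorem irs_tau_le (S : CSys) (B γ ε e K' : ℝ) (P' : FLaw S.Ω) (hB : S.Bdd B) (hγ0 : 0 < γ) (hγ1 : γ < 1)
    (h0 : 0 < ε) (h1 : ε < 1) (hD : P'.Dom K' S.P)
    (hcap : ∀ g : Geo, 0 ≤ g.b → g.b ≤ g.a → g.a ≤ 1 →
      S.capPr 1 ε g ≤ ε ^ (wt γ g - S.tau γ ε 1 - e)) :
    (S.withLaw P').tau γ ε 1 ≤ S.tau γ ε 1 + e + Real.log K' / lg ε := by
  have hK : 0 < K' := lt_of_lt_of_le one_pos (ent_dom_one_le hD)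
  have hB' : (S.withLaw P').Bdd B := fun ω hω =>
    hB ω (lt_of_le_of_ne (S.P.nonneg ω) (Ne.symm (ent_dom_supp hD (ne_of_gt hω))))
  refine tl_tau_le_of_cap (S.withLaw P') B γ ε 1 _ hB' hγ0 hγ1 h0 h1 zero_le_one fun g g1 g2 g3 => ?_
  refine (tl_cap_dom S P' K' 1 ε hD g).trans ?_
  refine (mul_le_mul_of_nonneg_left (hcap g g1 g2 g3) hK.le).trans (le_of_eq ?_)
  rw [irs_rpow_shift ε K' _ h0 h1 hK]
  congr 1
  ring

/-- given `T`, the anchored observation and the time cell determine each other -/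
theorem irs_entC_Oo_T (S : CSys) (P : FLaw S.Ω) (ε u : ℝ) :
    P.entC (S.Oo ε u) S.T = P.entC (S.Ct ε u) S.T := by
  unfold FLaw.entC
  congr 1
  refine ie_ent_congr P _ _ (fun x => (x.1.1, x.2))
    (fun x => ((x.1, tcell ε u ((S.A x.2).1 + (x.1 : ℝ) / 2 ^ (tlev ε u) * (S.V x.2).1),
      tcell ε u ((S.A x.2).2 + (x.1 : ℝ) / 2 ^ (tlev ε u) * (S.V x.2).2)), x.2)) ?_ ?_
  · intro ω _
    rfl
  · intro ω _
    rfl

/-- `tsc = - H(O)/ℓ + 3 H(C_1|T)/ℓ - τ` -/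
theorem irs_tsc_eq (S : CSys) (γ ε : ℝ) (P' : FLaw S.Ω) :
    S.tsc γ ε P' = - (P'.ent (S.Oo ε 1) / lg ε) + 3 * (P'.entC (S.Ct ε 1) S.T / lg ε)
      - (S.withLaw P').tau γ ε 1 := by
  unfold CSys.tsc
  rw [ie_mi_eq, irs_entC_Oo_T]
  ring

/-- the good event -/
def irsG (S : CSys) (ε s e : ℝ) : S.Ω → Prop := fun ω =>
  - Real.log (S.P.fib (S.Oo ε 1) ω) ≤ S.P.ent (S.Oo ε 1) + e * lg ε ∧
    (s - e) * lg ε ≤ S.P.surC (S.Ct ε 1) S.T ω

/-- the trimmed system is robustly saturated -/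
theorem irs_core (S : CSys) (B γ ε e s c : ℝ) (hB : S.Bdd B) (hγ0 : 0 < γ) (hγ1 : γ < 1)
    (h0 : 0 < ε) (h1 : ε < 1) (hc : 0 < c)
    (hsat : beta γ - e ≤ S.tsc γ ε S.P)
    (hH : S.P.entC (S.Ct ε 1) S.T / lg ε ≤ s + e)
    (hG : c / 2 ≤ S.P.pr (irsG S ε s e))
    (hcap : ∀ g : Geo, 0 ≤ g.b → g.b ≤ g.a → g.a ≤ 1 →
      S.capPr 1 ε g ≤ ε ^ (wt γ g - S.tau γ ε 1 - e))
    (hsmall : 4 * Real.log (2 / c) / lg ε ≤ e)
    (P' : FLaw S.Ω) (K : ℝ) (hK : 1 ≤ K) (hD : P'.Dom K (S.P.cnd (irsG S ε s e))) :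
    beta γ - 4 * Real.log K / lg ε - 10 * e ≤ S.tsc γ ε P' := by
  have hl := tl_lg_pos h0 h1
  have hpos : 0 < S.P.pr (irsG S ε s e) := lt_of_lt_of_le (by positivity) hG
  have hD' : P'.Dom (K * (1 / S.P.pr (irsG S ε s e))) S.P :=
    ent_dom_trans (by linarith) hD (ent_cnd_dom S.P _ hpos)
  have hsupp : ∀ ω, P'.p ω ≠ 0 → irsG S ε s e ω ∧ S.P.p ω ≠ 0 := fun ω hω =>
    (ent_cnd_supp S.P _ hpos).1 (ent_dom_supp hD hω)
  obtain ⟨K', hK'⟩ : ∃ K', K' = K * (1 / S.P.pr (irsG S ε s e)) := ⟨_, rfl⟩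
  rw [← hK'] at hD'
  have hlogK : Real.log K' ≤ Real.log K + Real.log (2 / c) := by
    rw [hK', Real.log_mul (by linarith) (by positivity)]
    have : 1 / S.P.pr (irsG S ε s e) ≤ 2 / c := by
      rw [div_le_div_iff₀ hpos hc]
      linarith
    have := Real.log_le_log (by positivity) this
    linarith
  have R1 : P'.ent (S.Oo ε 1) ≤ S.P.ent (S.Oo ε 1) + e * lg ε :=
    irs_ent_le S.P P' _ _ (fun ω hω => (hsupp ω hω).2) (fun ω hω => (hsupp ω hω).1.1)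
  have R2 : (s - e) * lg ε - Real.log K' ≤ P'.entC (S.Ct ε 1) S.T :=
    irs_entC_ge S.P P' K' hD' _ _ _ (fun ω hω => (hsupp ω hω).1.2)
  have R3 := irs_tau_le S B γ ε e K' P' hB hγ0 hγ1 h0 h1 hD' hcap
  rw [irs_tsc_eq]
  rw [irs_tsc_eq] at hsat
  have e2 : (S.withLaw S.P).tau γ ε 1 = S.tau γ ε 1 := rfl
  rw [e2] at hsat
  have R1' : P'.ent (S.Oo ε 1) / lg ε ≤ S.P.ent (S.Oo ε 1) / lg ε + e := by
    rw [div_le_iff₀ hl, add_mul, div_mul_cancel₀ _ hl.ne']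
    exact R1
  have R2' : (s - e) - Real.log K' / lg ε ≤ P'.entC (S.Ct ε 1) S.T / lg ε := by
    rw [le_div_iff₀ hl, sub_mul, div_mul_cancel₀ _ hl.ne']
    exact R2
  have L1 : Real.log K' / lg ε ≤ Real.log K / lg ε + Real.log (2 / c) / lg ε := by
    rw [← add_div]
    exact div_le_div_of_nonneg_right hlogK hl.le
  have L2 : 4 * Real.log (2 / c) / lg ε = 4 * (Real.log (2 / c) / lg ε) := by ring
  have L3 : 4 * Real.log K / lg ε = 4 * (Real.log K / lg ε) := by ring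
  rw [L2] at hsmall
  rw [L3]
  linarith

/-- the mass of the good event -/
theorem irs_mass (S : CSys) (ε e s Xm : ℝ) (h0 : 0 < ε) (h1 : ε < 1) (he : 0 < e)
    (hX : S.P.ent (S.Oo ε 1) / lg ε ≤ Xm)
    (hp : S.P.pr (fun ω => e < |S.P.surC (S.Ct ε 1) S.T ω / lg ε - s|) ≤ e / (Xm + e) / 2) :
    e / (Xm + e) / 2 ≤ S.P.pr (irsG S ε s e) := by
  have hl := tl_lg_pos h0 h1
  have hH0 := ent_nonneg S.P (S.Oo ε 1)
  have hX0 : 0 ≤ Xm := le_trans (div_nonneg hH0 hl.le) hX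
  have ht : 0 < S.P.ent (S.Oo ε 1) + e * lg ε := by positivity
  have hM := ent_markov S.P (f := fun ω => - Real.log (S.P.fib (S.Oo ε 1) ω))
    (fun ω hω => by
      have := Real.log_nonpos (ent_fib_nonneg S.P (S.Oo ε 1) ω) (ent_fib_le_one S.P (S.Oo ε 1) ω)
      linarith) ht
  have hev : S.P.ev (fun ω => - Real.log (S.P.fib (S.Oo ε 1) ω)) = S.P.ent (S.Oo ε 1) := rfl
  rw [hev] at hM
  have hfirst : e / (Xm + e) ≤
      S.P.pr (fun ω => - Real.log (S.P.fib (S.Oo ε 1) ω) ≤ S.P.ent (S.Oo ε 1) + e * lg ε) := by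
    have a1 : 1 - S.P.pr (fun ω => S.P.ent (S.Oo ε 1) + e * lg ε ≤ - Real.log (S.P.fib (S.Oo ε 1) ω)) ≤
        S.P.pr (fun ω => - Real.log (S.P.fib (S.Oo ε 1) ω) ≤ S.P.ent (S.Oo ε 1) + e * lg ε) := by
      rw [← ent_pr_not]
      exact ent_pr_mono S.P fun ω _ h => (not_le.1 h).le
    have a2 : e / (Xm + e) ≤ 1 - S.P.ent (S.Oo ε 1) / (S.P.ent (S.Oo ε 1) + e * lg ε) := by
      have : 1 - S.P.ent (S.Oo ε 1) / (S.P.ent (S.Oo ε 1) + e * lg ε) =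
          e * lg ε / (S.P.ent (S.Oo ε 1) + e * lg ε) := by
        field_simp
        ring
      rw [this, div_le_div_iff₀ (by positivity) ht]
      rw [div_le_iff₀ hl] at hX
      nlinarith [mul_nonneg he.le hl.le]
    linarith
  have hsecond : 1 - e / (Xm + e) / 2 ≤ S.P.pr (fun ω => (s - e) * lg ε ≤ S.P.surC (S.Ct ε 1) S.T ω) := by
    have a1 : S.P.pr (fun ω => ¬ (s - e) * lg ε ≤ S.P.surC (S.Ct ε 1) S.T ω) ≤
        S.P.pr (fun ω => e < |S.P.surC (S.Ct ε 1) S.T ω / lg ε - s|) := by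
      refine ent_pr_mono S.P fun ω _ h => ?_
      rw [not_le, ← div_lt_iff₀ hl] at h
      rw [lt_abs]
      right
      linarith
    rw [ent_pr_not] at a1
    linarith
  have := ent_pr_and_ge S.P
    (fun ω => - Real.log (S.P.fib (S.Oo ε 1) ω) ≤ S.P.ent (S.Oo ε 1) + e * lg ε)
    (fun ω => (s - e) * lg ε ≤ S.P.surC (S.Ct ε 1) S.T ω)
  have e3 : S.P.pr (irsG S ε s e) = S.P.pr (fun ω =>
      - Real.log (S.P.fib (S.Oo ε 1) ω) ≤ S.P.ent (S.Oo ε 1) + e * lg ε ∧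
        (s - e) * lg ε ≤ S.P.surC (S.Ct ε 1) S.T ω) := rfl
  rw [e3]
  linarith

/-- errors `C / ℓ` are small for small `ε` -/
theorem irs_small (C ν : ℝ) (hν : 0 < ν) :
    ∃ ε₀ : ℝ, 0 < ε₀ ∧ ε₀ < 1 ∧ ∀ ε : ℝ, 0 < ε → ε < ε₀ → C / lg ε ≤ ν := by
  refine ⟨Real.exp (-(|C| / ν + 1)), Real.exp_pos _, ?_, fun ε h0 h1 => ?_⟩
  · rw [Real.exp_lt_one_iff]
    have : 0 ≤ |C| / ν := by positivity
    linarith
  · have h2 : |C| / ν + 1 < lg ε := by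
      unfold lg
      rw [one_div, Real.log_inv]
      have := (Real.log_lt_iff_lt_exp h0).mpr h1
      linarith
    have h3 : 0 ≤ |C| / ν := by positivity
    have hl : 0 < lg ε := by linarith
    rw [div_le_iff₀ hl]
    have h4 : |C| < ν * lg ε := by
      have : |C| / ν < lg ε := by linarith
      rw [div_lt_iff₀ hν] at this
      linarith
    exact le_trans (le_abs_self C) h4.le

/-- **Robust saturation** of a trimmed member of an isotropic extremiser. -/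
theorem irs_rsat_exists (γ s : ℝ) (h0 : 0 < γ) (h1 : γ < 1) (J : Iso γ s) (η ε₀ : ℝ) (hη : 0 < η)
    (hε₀ : 0 < ε₀) :
    ∃ (S : CSys) (ε : ℝ), 0 < ε ∧ ε < ε₀ ∧ ε < 1 ∧ S.Bdd J.Q.B ∧ S.RSat γ ε η := by
  obtain ⟨e, he⟩ : ∃ e : ℝ, e = η / 10 := ⟨_, rfl⟩
  have he0 : 0 < e := by rw [he]; positivity
  obtain ⟨Xm, hXm⟩ : ∃ Xm : ℝ, Xm = |3 * (s + e) + 1 - beta γ + e| := ⟨_, rfl⟩
  have hXm0 : 0 ≤ Xm := by rw [hXm]; exact abs_nonneg _
  obtain ⟨c, hc⟩ : ∃ c : ℝ, c = e / (Xm + e) := ⟨_, rfl⟩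
  have hc0 : 0 < c := by rw [hc]; positivity
  obtain ⟨Cτ, hCτ⟩ := tl_tau_ge J.Q.B
  obtain ⟨ε₁, a1, -, Hs1⟩ := irs_small Cτ 1 one_pos
  obtain ⟨ε₂, a2, -, Hs2⟩ := irs_small (4 * Real.log (2 / c)) e he0
  have E1 : ∀ᶠ n in uf, beta γ - e <
      - J.Q.seqI J.Q.T (J.Q.O 1) n + 2 * J.Q.seqHC (J.Q.C 1) J.Q.T n - J.Q.seqTau γ 1 n :=
    J.sat.eventually_const_lt (by linarith)
  have E2 : ∀ᶠ n in uf, J.Q.seqHC (J.Q.C 1) J.Q.T n < s + e :=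
    J.time.1.eventually_lt_const (by linarith)
  have E3 : ∀ᶠ n in uf, (J.Q.S n).P.pr
      (fun ω => e < |(J.Q.S n).P.surC (J.Q.C 1 n) (J.Q.T n) ω / lg (J.Q.ε n) - s|) < c / 2 :=
    (J.time.2 e he0).eventually_lt_const (by positivity)
  have E4 := J.cap 1 e he0
  have E5 : ∀ᶠ n in uf, J.Q.ε n < min ε₀ (min ε₁ ε₂) :=
    J.Q.lim.eventually_lt_const (lt_min hε₀ (lt_min a1 a2))
  have := uf_neBot
  obtain ⟨n, n1, n2, n3, n4, n5, n6⟩ := (E1.and (E2.and (E3.and (E4.and (E5.and J.Q.bdd))))).exists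
  obtain ⟨p0, p1⟩ := J.Q.pos n
  simp only [lt_min_iff] at n5
  obtain ⟨q0, q1, q2⟩ := n5
  have hl : 0 < lg (J.Q.ε n) := tl_lg_pos p0 p1
  have hsat : beta γ - e ≤ (J.Q.S n).tsc γ (J.Q.ε n) (J.Q.S n).P := n1.le
  have hH : (J.Q.S n).P.entC ((J.Q.S n).Ct (J.Q.ε n) 1) (J.Q.S n).T / lg (J.Q.ε n) ≤ s + e := n2.le
  have hτ := hCτ (J.Q.S n) γ (J.Q.ε n) 1 n6 h0 h1 p0 p1 zero_le_one
  have hτ' := Hs1 (J.Q.ε n) p0 q1
  have hX : (J.Q.S n).P.ent ((J.Q.S n).Oo (J.Q.ε n) 1) / lg (J.Q.ε n) ≤ Xm := by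
    have := hsat
    rw [irs_tsc_eq] at this
    have e2 : ((J.Q.S n).withLaw (J.Q.S n).P).tau γ (J.Q.ε n) 1 = (J.Q.S n).tau γ (J.Q.ε n) 1 := rfl
    rw [e2] at this
    rw [neg_div] at hτ
    rw [hXm]
    refine le_trans ?_ (le_abs_self _)
    linarith
  have hG := irs_mass (J.Q.S n) (J.Q.ε n) e s Xm p0 p1 he0 hX (by rw [← hc]; exact n3.le)
  rw [← hc] at hG
  have hR := irs_core (J.Q.S n) J.Q.B γ (J.Q.ε n) e s c n6 h0 h1 p0 p1 hc0 hsat hH hG n4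
    (Hs2 (J.Q.ε n) p0 q2)
  have e10 : 10 * e = η := by rw [he]; ring
  rw [e10] at hR
  exact ⟨(J.Q.S n).condOn (irsG (J.Q.S n) (J.Q.ε n) s e), J.Q.ε n, p0, q0, p1,
    tl_condOn_bdd _ _ n6 _, fun P' K hK hD => hR P' K hK hD⟩

end Claimed.Agent.R255
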