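import Claimed.Agent.R255.Iso.Grid

/-!
# Row 255, Sec. 5: LEAF ISO-SHEARER (entropy form of Lemma 5.3 (1): Loomis-Whitney for three slopes)      (architect helper220)

PAPER-FREE.  `Q` any finite law; `(n, X₁, X₂)` an integer point (time, position), `s i ∈ ℝ²` three FIXED slopes, `I i` integer observations within `R` of the intercepts `X - n s_i`.
PROOF.  `D = det3 (s 0) (s 1) (s 2) = s0×s1 + s1×s2 + s2×s0`.  Barycentric coordinates (real linear forms of `(n, X)`):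
  `y₂ = ((s1 - s0) × X - n (s1 × s0)) / D`, `y₀ = ((s2 - s1) × X - n (s2 × s1)) / D`, `y₁ = ((s0 - s2) × X - n (s0 × s2)) / D`   (`a × b = a.1 b.2 - a.2 b.1`),
so that `n = y₀ + y₁ + y₂`, `X = ∑ y_i s_i`, and `y_j = ((s_k - s_i) × (X - n s_i)) / D`-type formulas: `y_j, y_k` are linear in the intercept `X - n s_i` with coefficients `≤ 2B'/|D|`.
Put `Y_i = ⌊y_i⌋`.  (1) `(n, X)` is within `3`, `3B'` of linear functions of `Y` : `H(n,X) ≤ H(Y) + C` (`ie_entC_int_le`).  (2) `(Y_j, Y_k)` is within `1 + 4 B' R / |D|` of functions of `I i`: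
`H(Y_j,Y_k) ≤ H(I i) + 2 log (C'/|D|)`.  (3) Shearer: `2 H(Y₀,Y₁,Y₂) ≤ H(Y₀,Y₁) + H(Y₀,Y₂) + H(Y₁,Y₂)` (two applications of `ie_submod`).
-/

set_option autoImplicit false

namespace Claimed.Agent.R255

open scoped BigOperators
open Classical

/-- Shearer's inequality for three observations -/
theorem iso_shearer {Ω : Type} [Fintype Ω] (Q : FLaw Ω) {α β γ : Type} (X : Ω → α) (Y : Ω → β) (Z : Ω → γ) :
    2 * Q.ent (FLaw.pair X (FLaw.pair Y Z))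
      ≤ Q.ent (FLaw.pair X Y) + Q.ent (FLaw.pair X Z) + Q.ent (FLaw.pair Y Z) := by
  have h1 := ie_submod Q X Y Z
  have h2 := ie_ent_pair_le Q (FLaw.pair X Y) Z
  rw [ie_ent_pair_assoc] at h1 h2
  linarith

/-- `H(A) ≤ H(Y) + H(A | Y)` -/
theorem iso_sh_le_add {Ω : Type} [Fintype Ω] (Q : FLaw Ω) {α β : Type} (A : Ω → α) (Y : Ω → β) :
    Q.ent A ≤ Q.ent Y + Q.entC A Y := by
  have := ie_ent_le_pair Q A Y
  unfold FLaw.entC
  linarith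

/-- floors of two real observations which are within `ρ` of functions of `I` -/
theorem iso_sh_pair {Ω : Type} [Fintype Ω] (Q : FLaw Ω) {ι : Type} (I : Ω → ι) (u v : Ω → ℝ)
    (fu fv : ι → ℝ) (ρ : ℝ) (hρ : 0 ≤ ρ) (hu : ∀ x, 0 < Q.p x → |u x - fu (I x)| ≤ ρ)
    (hv : ∀ x, 0 < Q.p x → |v x - fv (I x)| ≤ ρ) :
    Q.ent (FLaw.pair (fun x => ⌊u x⌋) (fun x => ⌊v x⌋)) ≤ Q.ent I + 2 * Real.log (3 + 2 * ρ) := by
  have key : ∀ (w : Ω → ℝ) (fw : ι → ℝ), (∀ x, 0 < Q.p x → |w x - fw (I x)| ≤ ρ) →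
      Q.entC (fun x => ⌊w x⌋) I ≤ Real.log (3 + 2 * ρ) := by
    intro w fw hw
    have := ie_entC_int_le Q (fun x => ⌊w x⌋) I fw (1 + ρ) (by linarith) (fun x hx => by
      have h1 := abs_le.1 (hw x hx)
      have h2 := Int.floor_le (w x)
      have h3 := Int.lt_floor_add_one (w x)
      rw [abs_le]
      constructor <;> linarith [h1.1, h1.2])
    have e : 2 * (1 + ρ) + 1 = 3 + 2 * ρ := by ring
    rwa [e] at this
  have h1 := iso_sh_le_add Q (FLaw.pair (fun x => ⌊u x⌋) (fun x => ⌊v x⌋)) I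
  have h2 := ie_entC_pair_le Q (fun x => ⌊u x⌋) (fun x => ⌊v x⌋) I
  have h3 := key u fu hu
  have h4 := key v fv hv
  linarith

/-- the cross product with a bounded vector is stable -/
theorem iso_sh_cross {p1 p2 j1 j2 e1 e2 D R B : ℝ} (h1 : |j1 - p1| ≤ R) (h2 : |j2 - p2| ≤ R)
    (he1 : |e1| ≤ 2 * B) (he2 : |e2| ≤ 2 * B) :
    |(p1 * e2 - p2 * e1) / D - (j1 * e2 - j2 * e1) / D| ≤ 4 * B * R / |D| := by
  have hR : 0 ≤ R := (abs_nonneg _).trans h1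
  have hB : 0 ≤ 2 * B := (abs_nonneg _).trans he1
  rw [← sub_div, abs_div]
  refine div_le_div_of_nonneg_right ?_ (abs_nonneg D)
  have e : p1 * e2 - p2 * e1 - (j1 * e2 - j2 * e1) = -((j1 - p1) * e2) + (j2 - p2) * e1 := by ring
  rw [e]
  refine (abs_add_le _ _).trans ?_
  rw [abs_neg, abs_mul, abs_mul]
  have a1 : |j1 - p1| * |e2| ≤ R * (2 * B) := mul_le_mul h1 he2 (abs_nonneg _) hR
  have a2 : |j2 - p2| * |e1| ≤ R * (2 * B) := mul_le_mul h2 he1 (abs_nonneg _) hR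
  linarith

theorem iso_sh_abs_sub {a b B : ℝ} (ha : |a| ≤ B) (hb : |b| ≤ B) : |a - b| ≤ 2 * B := by
  have := abs_sub a b
  linarith

theorem iso_shearer3 (B' R : ℝ) (hB' : 0 ≤ B') (hR : 0 ≤ R) : ∃ C : ℝ, 0 ≤ C ∧
    ∀ {Ω' : Type} [Fintype Ω'] (Q : FLaw Ω') (n X₁ X₂ : Ω' → ℤ) (I : Fin 3 → Ω' → ℤ × ℤ) (s : Fin 3 → ℝ × ℝ),
      (∀ i, |(s i).1| ≤ B' ∧ |(s i).2| ≤ B') → det3 (s 0) (s 1) (s 2) ≠ 0 →
      (∀ x, 0 < Q.p x → ∀ i, |((I i x).1 : ℝ) - ((X₁ x : ℝ) - (n x : ℝ) * (s i).1)| ≤ R ∧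
        |((I i x).2 : ℝ) - ((X₂ x : ℝ) - (n x : ℝ) * (s i).2)| ≤ R) →
      2 * Q.ent (fun x => (n x, X₁ x, X₂ x))
        ≤ ∑ i, Q.ent (I i) + 6 * Real.log (1 / |det3 (s 0) (s 1) (s 2)|) + C := by
  refine ⟨6 * Real.log (24 * B' ^ 2 + 8 * B' * R + 1) +
    2 * (Real.log 7 + 2 * Real.log (6 * B' + 1)), ?_, ?_⟩
  · have h1 : 0 ≤ Real.log (24 * B' ^ 2 + 8 * B' * R + 1) :=
      Real.log_nonneg (by nlinarith [mul_nonneg hB' hR, sq_nonneg B'])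
    have h2 : 0 ≤ Real.log 7 := Real.log_nonneg (by norm_num)
    have h3 : 0 ≤ Real.log (6 * B' + 1) := Real.log_nonneg (by linarith)
    linarith
  intro Ω' _ Q n X₁ X₂ I s hs hD hI
  obtain ⟨D, hDdef⟩ : ∃ D, D = det3 (s 0) (s 1) (s 2) := ⟨_, rfl⟩
  rw [← hDdef] at hD ⊢
  -- the barycentric coordinates
  let y0 : Ω' → ℝ := fun x => (((X₁ x : ℝ) - n x * (s 1).1) * ((s 1).2 - (s 2).2) -
    ((X₂ x : ℝ) - n x * (s 1).2) * ((s 1).1 - (s 2).1)) / D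
  let y1 : Ω' → ℝ := fun x => (((X₁ x : ℝ) - n x * (s 2).1) * ((s 2).2 - (s 0).2) -
    ((X₂ x : ℝ) - n x * (s 2).2) * ((s 2).1 - (s 0).1)) / D
  let y2 : Ω' → ℝ := fun x => (((X₁ x : ℝ) - n x * (s 0).1) * ((s 0).2 - (s 1).2) -
    ((X₂ x : ℝ) - n x * (s 0).2) * ((s 0).1 - (s 1).1)) / D
  have y0' : ∀ x, y0 x = (((X₁ x : ℝ) - n x * (s 2).1) * ((s 1).2 - (s 2).2) -
    ((X₂ x : ℝ) - n x * (s 2).2) * ((s 1).1 - (s 2).1)) / D := fun x => by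
    simp only [y0]; congr 1; ring
  have y1' : ∀ x, y1 x = (((X₁ x : ℝ) - n x * (s 0).1) * ((s 2).2 - (s 0).2) -
    ((X₂ x : ℝ) - n x * (s 0).2) * ((s 2).1 - (s 0).1)) / D := fun x => by
    simp only [y1]; congr 1; ring
  have y2' : ∀ x, y2 x = (((X₁ x : ℝ) - n x * (s 1).1) * ((s 0).2 - (s 1).2) -
    ((X₂ x : ℝ) - n x * (s 1).2) * ((s 0).1 - (s 1).1)) / D := fun x => by
    simp only [y2]; congr 1; ring
  have hsum : ∀ x, y0 x + y1 x + y2 x = n x := fun x => by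
    simp only [y0, y1, y2]
    field_simp
    rw [hDdef, det3]
    ring
  have hX1 : ∀ x, y0 x * (s 0).1 + y1 x * (s 1).1 + y2 x * (s 2).1 = X₁ x := fun x => by
    simp only [y0, y1, y2]
    field_simp
    rw [hDdef, det3]
    ring
  have hX2 : ∀ x, y0 x * (s 0).2 + y1 x * (s 1).2 + y2 x * (s 2).2 = X₂ x := fun x => by
    simp only [y0, y1, y2]
    field_simp
    rw [hDdef, det3]
    ring
  have hDpos : 0 < |D| := abs_pos.2 hD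
  obtain ⟨ρ, hρdef⟩ : ∃ ρ, ρ = 4 * B' * R / |D| := ⟨_, rfl⟩
  have hρ : 0 ≤ ρ := by rw [hρdef]; positivity
  have hd1 : ∀ i j, |(s i).1 - (s j).1| ≤ 2 * B' := fun i j => iso_sh_abs_sub (hs i).1 (hs j).1
  have hd2 : ∀ i j, |(s i).2 - (s j).2| ≤ 2 * B' := fun i j => iso_sh_abs_sub (hs i).2 (hs j).2
  -- pairs of floors from one intercept
  have p12 := iso_sh_pair Q (I 0) y1 y2
    (fun J => ((J.1 : ℝ) * ((s 2).2 - (s 0).2) - (J.2 : ℝ) * ((s 2).1 - (s 0).1)) / D)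
    (fun J => ((J.1 : ℝ) * ((s 0).2 - (s 1).2) - (J.2 : ℝ) * ((s 0).1 - (s 1).1)) / D) ρ hρ
    (fun x hx => by
      rw [y1', hρdef]
      exact iso_sh_cross (hI x hx 0).1 (hI x hx 0).2 (hd1 2 0) (hd2 2 0))
    (fun x hx => by
      rw [hρdef]
      exact iso_sh_cross (hI x hx 0).1 (hI x hx 0).2 (hd1 0 1) (hd2 0 1))
  have p02 := iso_sh_pair Q (I 1) y0 y2
    (fun J => ((J.1 : ℝ) * ((s 1).2 - (s 2).2) - (J.2 : ℝ) * ((s 1).1 - (s 2).1)) / D)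
    (fun J => ((J.1 : ℝ) * ((s 0).2 - (s 1).2) - (J.2 : ℝ) * ((s 0).1 - (s 1).1)) / D) ρ hρ
    (fun x hx => by
      rw [hρdef]
      exact iso_sh_cross (hI x hx 1).1 (hI x hx 1).2 (hd1 1 2) (hd2 1 2))
    (fun x hx => by
      rw [y2', hρdef]
      exact iso_sh_cross (hI x hx 1).1 (hI x hx 1).2 (hd1 0 1) (hd2 0 1))
  have p01 := iso_sh_pair Q (I 2) y0 y1
    (fun J => ((J.1 : ℝ) * ((s 1).2 - (s 2).2) - (J.2 : ℝ) * ((s 1).1 - (s 2).1)) / D)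
    (fun J => ((J.1 : ℝ) * ((s 2).2 - (s 0).2) - (J.2 : ℝ) * ((s 2).1 - (s 0).1)) / D) ρ hρ
    (fun x hx => by
      rw [y0', hρdef]
      exact iso_sh_cross (hI x hx 2).1 (hI x hx 2).2 (hd1 1 2) (hd2 1 2))
    (fun x hx => by
      rw [hρdef]
      exact iso_sh_cross (hI x hx 2).1 (hI x hx 2).2 (hd1 2 0) (hd2 2 0))
  have hsh := iso_shearer Q (fun x => ⌊y0 x⌋) (fun x => ⌊y1 x⌋) (fun x => ⌊y2 x⌋)
  -- the point from the floors
  obtain ⟨Y, hY⟩ : ∃ Y : Ω' → ℤ × ℤ × ℤ,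
      Y = FLaw.pair (fun x => ⌊y0 x⌋) (FLaw.pair (fun x => ⌊y1 x⌋) (fun x => ⌊y2 x⌋)) := ⟨_, rfl⟩
  have hfl : ∀ t : ℝ, 0 ≤ t - ⌊t⌋ ∧ t - ⌊t⌋ ≤ 1 := fun t =>
    ⟨by linarith [Int.floor_le t], by linarith [Int.lt_floor_add_one t]⟩
  have hlin : ∀ (c0 c1 c2 d0 d1 d2 : ℝ), |c0| ≤ B' → |c1| ≤ B' → |c2| ≤ B' → (0 ≤ d0 ∧ d0 ≤ 1) →
      (0 ≤ d1 ∧ d1 ≤ 1) → (0 ≤ d2 ∧ d2 ≤ 1) → |d0 * c0 + d1 * c1 + d2 * c2| ≤ 3 * B' := by
    intro c0 c1 c2 d0 d1 d2 h0 h1 h2 e0 e1 e2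
    have k : ∀ d c : ℝ, |c| ≤ B' → (0 ≤ d ∧ d ≤ 1) → |d * c| ≤ B' := fun d c hc hd => by
      rw [abs_mul, abs_of_nonneg hd.1]
      calc d * |c| ≤ 1 * B' := mul_le_mul hd.2 hc (abs_nonneg _) zero_le_one
        _ = B' := one_mul _
    have := abs_add_three (d0 * c0) (d1 * c1) (d2 * c2)
    linarith [k d0 c0 h0 e0, k d1 c1 h1 e1, k d2 c2 h2 e2]
  have q0 : Q.entC n Y ≤ Real.log 7 := by
    have := ie_entC_int_le Q n Y (fun t => (t.1 : ℝ) + t.2.1 + t.2.2) 3 (by norm_num) (fun x _ => by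
      rw [hY]
      simp only [FLaw.pair]
      rw [← hsum x, abs_le]
      have := hfl (y0 x); have := hfl (y1 x); have := hfl (y2 x)
      constructor <;> linarith [(hfl (y0 x)).1, (hfl (y0 x)).2, (hfl (y1 x)).1, (hfl (y1 x)).2,
        (hfl (y2 x)).1, (hfl (y2 x)).2])
    have e : (2 : ℝ) * 3 + 1 = 7 := by norm_num
    rwa [e] at this
  have q1 : Q.entC X₁ Y ≤ Real.log (6 * B' + 1) := by
    have := ie_entC_int_le Q X₁ Y
      (fun t => (t.1 : ℝ) * (s 0).1 + t.2.1 * (s 1).1 + t.2.2 * (s 2).1) (3 * B') (by linarith)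
      (fun x _ => by
        rw [hY]
        simp only [FLaw.pair]
        rw [← hX1 x]
        have e : y0 x * (s 0).1 + y1 x * (s 1).1 + y2 x * (s 2).1 -
            ((⌊y0 x⌋ : ℝ) * (s 0).1 + (⌊y1 x⌋ : ℝ) * (s 1).1 + (⌊y2 x⌋ : ℝ) * (s 2).1) =
            (y0 x - ⌊y0 x⌋) * (s 0).1 + (y1 x - ⌊y1 x⌋) * (s 1).1 + (y2 x - ⌊y2 x⌋) * (s 2).1 := by
          ring
        rw [e]
        exact hlin _ _ _ _ _ _ (hs 0).1 (hs 1).1 (hs 2).1 (hfl _) (hfl _) (hfl _))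
    have e : 2 * (3 * B') + 1 = 6 * B' + 1 := by ring
    rwa [e] at this
  have q2 : Q.entC X₂ Y ≤ Real.log (6 * B' + 1) := by
    have := ie_entC_int_le Q X₂ Y
      (fun t => (t.1 : ℝ) * (s 0).2 + t.2.1 * (s 1).2 + t.2.2 * (s 2).2) (3 * B') (by linarith)
      (fun x _ => by
        rw [hY]
        simp only [FLaw.pair]
        rw [← hX2 x]
        have e : y0 x * (s 0).2 + y1 x * (s 1).2 + y2 x * (s 2).2 -
            ((⌊y0 x⌋ : ℝ) * (s 0).2 + (⌊y1 x⌋ : ℝ) * (s 1).2 + (⌊y2 x⌋ : ℝ) * (s 2).2) =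
            (y0 x - ⌊y0 x⌋) * (s 0).2 + (y1 x - ⌊y1 x⌋) * (s 1).2 + (y2 x - ⌊y2 x⌋) * (s 2).2 := by
          ring
        rw [e]
        exact hlin _ _ _ _ _ _ (hs 0).2 (hs 1).2 (hs 2).2 (hfl _) (hfl _) (hfl _))
    have e : 2 * (3 * B') + 1 = 6 * B' + 1 := by ring
    rwa [e] at this
  have r1 := iso_sh_le_add Q (FLaw.pair n (FLaw.pair X₁ X₂)) Y
  have r2 := ie_entC_pair_le Q n (FLaw.pair X₁ X₂) Y
  have r3 := ie_entC_pair_le Q X₁ X₂ Y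
  have r0 : Q.ent (fun x => (n x, X₁ x, X₂ x)) = Q.ent (FLaw.pair n (FLaw.pair X₁ X₂)) := rfl
  -- the logarithm
  have hDle : |D| ≤ 8 * B' ^ 2 := by
    rw [hDdef, det3]
    refine (abs_sub _ _).trans ?_
    rw [abs_mul, abs_mul]
    have a1 : |(s 1).1 - (s 0).1| * |(s 2).2 - (s 0).2| ≤ 2 * B' * (2 * B') :=
      mul_le_mul (hd1 1 0) (hd2 2 0) (abs_nonneg _) (by linarith)
    have a2 : |(s 1).2 - (s 0).2| * |(s 2).1 - (s 0).1| ≤ 2 * B' * (2 * B') :=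
      mul_le_mul (hd2 1 0) (hd1 2 0) (abs_nonneg _) (by linarith)
    nlinarith
  have hlog : Real.log (3 + 2 * ρ) ≤ Real.log (1 / |D|) + Real.log (24 * B' ^ 2 + 8 * B' * R + 1) := by
    have hM : 0 < 3 * |D| + 8 * B' * R := by positivity
    have e : 3 + 2 * ρ = 1 / |D| * (3 * |D| + 8 * B' * R) := by
      rw [hρdef]
      field_simp
      ring
    rw [e, Real.log_mul (by positivity) hM.ne']
    have := Real.log_le_log hM (show 3 * |D| + 8 * B' * R ≤ 24 * B' ^ 2 + 8 * B' * R + 1 by linarith)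
    linarith
  rw [Fin.sum_univ_three, r0]
  rw [← hY] at hsh
  linarith

end Claimed.Agent.R255
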