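import Claimed.Agent.R255.Iso.Grid

/-!
# Row 255, Sec. 5: LEAF ISO-SLOPE2 (entropy form of Lemma 5.3 (2): two slopes in the plane) and LEAF ISO-DET (small determinant => strip)      (architect helper220)

PAPER-FREE.
`iso_slope2`: `I 0 - I 1 = n (s 1 - s 0) + O(2R)`, so `n` is within `2R/D` of `(I 0 - I 1)/(s 1 - s 0)`; then `Y` is within `R` of `I 0 + n s 0`.  `ie_entC_int_le` twice + chain rule.
`iso_det_strip`: `det3 r₀ r₁ r₂ = ip (r₂ - r₀) (-(r₁-r₀).2, (r₁-r₀).1)`.  If `‖r₁ - r₀‖ ≤ ρ` the first alternative holds; otherwise take `th` with `nrm th = (-(r₁-r₀).2, (r₁-r₀).1) / ‖r₁ - r₀‖`.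
-/

set_option autoImplicit false

namespace Claimed.Agent.R255

open scoped BigOperators
open Classical

theorem iso_slope2 (R : ℝ) (hR : 0 ≤ R) : ∃ C : ℝ, 0 ≤ C ∧
    ∀ {Ω' : Type} [Fintype Ω'] (Q : FLaw Ω') (n Y : Ω' → ℤ) (I : Fin 2 → Ω' → ℤ) (s : Fin 2 → ℝ) (D : ℝ),
      0 < D → D ≤ 1 → D ≤ |s 0 - s 1| →
      (∀ x, 0 < Q.p x → ∀ i, |((I i x : ℤ) : ℝ) - ((Y x : ℝ) - (n x : ℝ) * s i)| ≤ R) →
      Q.ent (fun x => (n x, Y x)) ≤ ∑ i, Q.ent (I i) + Real.log (1 / D) + C := by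
  refine ⟨Real.log (4 * R + 1) + Real.log (2 * R + 1),
    add_nonneg (Real.log_nonneg (by linarith)) (Real.log_nonneg (by linarith)), ?_⟩
  intro Ω' _ Q n Y I s D hD hD1 hDs hI
  have hs : s 1 - s 0 ≠ 0 := by
    intro h0
    have : s 0 - s 1 = 0 := by linarith
    rw [this, abs_zero] at hDs
    linarith
  have hsabs : D ≤ |s 1 - s 0| := by rwa [abs_sub_comm]
  have hspos : 0 < |s 1 - s 0| := lt_of_lt_of_le hD hsabs
  -- `n` from `(I 0, I 1)`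
  have h1 : Q.entC n (FLaw.pair (I 0) (I 1)) ≤ Real.log (2 * (2 * R / D) + 1) := by
    refine ie_entC_int_le Q n (FLaw.pair (I 0) (I 1))
      (fun w => (((w.1 : ℤ) : ℝ) - ((w.2 : ℤ) : ℝ)) / (s 1 - s 0)) (2 * R / D) (by positivity) ?_
    intro x hx
    have a0 := abs_le.1 (hI x hx 0)
    have a1 := abs_le.1 (hI x hx 1)
    have e : (n x : ℝ) - (((I 0 x : ℤ) : ℝ) - ((I 1 x : ℤ) : ℝ)) / (s 1 - s 0)
        = ((n x : ℝ) * (s 1 - s 0) - (((I 0 x : ℤ) : ℝ) - ((I 1 x : ℤ) : ℝ))) / (s 1 - s 0) := by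
      field_simp
    show |(n x : ℝ) - (((I 0 x : ℤ) : ℝ) - ((I 1 x : ℤ) : ℝ)) / (s 1 - s 0)| ≤ 2 * R / D
    rw [e, abs_div]
    have hnum : |(n x : ℝ) * (s 1 - s 0) - (((I 0 x : ℤ) : ℝ) - ((I 1 x : ℤ) : ℝ))| ≤ 2 * R := by
      rw [abs_le]
      constructor <;> linarith [a0.1, a0.2, a1.1, a1.2]
    exact div_le_div₀ (by linarith) hnum hD hsabs
  have h2 : Q.entC Y (FLaw.pair n (FLaw.pair (I 0) (I 1))) ≤ Real.log (2 * R + 1) := by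
    refine ie_entC_int_le Q Y (FLaw.pair n (FLaw.pair (I 0) (I 1)))
      (fun w => ((w.2.1 : ℤ) : ℝ) + ((w.1 : ℤ) : ℝ) * s 0) R hR ?_
    intro x hx
    have a0 := hI x hx 0
    show |(Y x : ℝ) - (((I 0 x : ℤ) : ℝ) + (n x : ℝ) * s 0)| ≤ R
    rw [abs_sub_comm]
    have e : ((I 0 x : ℤ) : ℝ) + (n x : ℝ) * s 0 - (Y x : ℝ) = ((I 0 x : ℤ) : ℝ) - ((Y x : ℝ) - (n x : ℝ) * s 0) := by
      ring
    rw [e]
    exact a0
  have h3 := ie_ent_le_pair Q (FLaw.pair n Y) (FLaw.pair (I 0) (I 1))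
  have h4 := ie_entC_chain Q n Y (FLaw.pair (I 0) (I 1))
  have h5 := ie_ent_pair_le Q (I 0) (I 1)
  have h6 : Q.entC (FLaw.pair n Y) (FLaw.pair (I 0) (I 1))
      = Q.ent (FLaw.pair (FLaw.pair n Y) (FLaw.pair (I 0) (I 1))) - Q.ent (FLaw.pair (I 0) (I 1)) := rfl
  have h7 : Real.log (2 * (2 * R / D) + 1) ≤ Real.log (4 * R + 1) + Real.log (1 / D) := by
    rw [← Real.log_mul (by positivity) (by positivity)]
    refine Real.log_le_log (by positivity) ?_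
    have e : 2 * (2 * R / D) + 1 = (4 * R + D) * (1 / D) := by
      field_simp
      ring
    rw [e]
    exact mul_le_mul_of_nonneg_right (by linarith) (by positivity)
  have h8 : Q.ent (fun x => (n x, Y x)) = Q.ent (FLaw.pair n Y) := rfl
  rw [h8, Fin.sum_univ_two]
  linarith

/-- every unit vector is a normal vector `nrm th` -/
theorem iso_exists_nrm (x y : ℝ) (h : x ^ 2 + y ^ 2 = 1) : ∃ th : ℝ, nrm th = (x, y) := by
  obtain ⟨z, hz⟩ : ∃ z : ℂ, z = ⟨y, -x⟩ := ⟨_, rfl⟩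
  have hn : ‖z‖ = 1 := by
    have h1 : ‖z‖ ^ 2 = 1 := by
      rw [← Complex.normSq_eq_norm_sq, Complex.normSq_apply, hz]
      simp only
      nlinarith
    have h2 : 0 ≤ ‖z‖ := norm_nonneg _
    nlinarith
  have hz0 : z ≠ 0 := by
    intro h0
    rw [h0, norm_zero] at hn
    norm_num at hn
  refine ⟨Complex.arg z, ?_⟩
  unfold nrm
  rw [Complex.sin_arg, Complex.cos_arg hz0, hn, hz]
  simp

theorem iso_det_strip : ∃ thOf : ℝ × ℝ → ℝ × ℝ → ℝ, ∀ (r₀ r₁ r₂ : ℝ × ℝ) (ρ : ℝ), 0 < ρ →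
    |det3 r₀ r₁ r₂| < ρ ^ 2 →
    |ip r₁ (nrm 0) - ip r₀ (nrm 0)| ≤ ρ ∨ |ip r₂ (nrm (thOf r₀ r₁)) - ip r₀ (nrm (thOf r₀ r₁))| ≤ ρ := by
  have hex : ∀ r₀ r₁ : ℝ × ℝ, ∃ th : ℝ, 0 < (r₁.1 - r₀.1) ^ 2 + (r₁.2 - r₀.2) ^ 2 →
      nrm th = (-(r₁.2 - r₀.2) / Real.sqrt ((r₁.1 - r₀.1) ^ 2 + (r₁.2 - r₀.2) ^ 2),
        (r₁.1 - r₀.1) / Real.sqrt ((r₁.1 - r₀.1) ^ 2 + (r₁.2 - r₀.2) ^ 2)) := by
    intro r₀ r₁
    by_cases hp : 0 < (r₁.1 - r₀.1) ^ 2 + (r₁.2 - r₀.2) ^ 2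
    · have hs : 0 < Real.sqrt ((r₁.1 - r₀.1) ^ 2 + (r₁.2 - r₀.2) ^ 2) := Real.sqrt_pos.2 hp
      have hsq := Real.sq_sqrt hp.le
      obtain ⟨th, hth⟩ := iso_exists_nrm (-(r₁.2 - r₀.2) / Real.sqrt ((r₁.1 - r₀.1) ^ 2 + (r₁.2 - r₀.2) ^ 2))
        ((r₁.1 - r₀.1) / Real.sqrt ((r₁.1 - r₀.1) ^ 2 + (r₁.2 - r₀.2) ^ 2)) (by
          rw [div_pow, div_pow, hsq, ← add_div, div_eq_one_iff_eq hp.ne']
          ring)
      exact ⟨th, fun _ => hth⟩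
    · exact ⟨0, fun h => absurd h hp⟩
  choose thOf hth using hex
  refine ⟨thOf, fun r₀ r₁ r₂ ρ hρ hdet => ?_⟩
  obtain ⟨N, hN⟩ : ∃ N : ℝ, N = Real.sqrt ((r₁.1 - r₀.1) ^ 2 + (r₁.2 - r₀.2) ^ 2) := ⟨_, rfl⟩
  have hN0 : 0 ≤ N := by rw [hN]; exact Real.sqrt_nonneg _
  have hNsq : N ^ 2 = (r₁.1 - r₀.1) ^ 2 + (r₁.2 - r₀.2) ^ 2 := by
    rw [hN]
    exact Real.sq_sqrt (by positivity)
  rcases le_or_gt N ρ with hle | hgt
  · left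
    have e : ip r₁ (nrm 0) - ip r₀ (nrm 0) = r₁.2 - r₀.2 := by
      unfold ip nrm
      simp
    rw [e]
    refine le_trans ?_ hle
    apply abs_le_of_sq_le_sq _ hN0
    rw [hNsq]
    nlinarith [sq_nonneg (r₁.1 - r₀.1)]
  · right
    have hNpos : 0 < N := lt_trans hρ hgt
    have hp : 0 < (r₁.1 - r₀.1) ^ 2 + (r₁.2 - r₀.2) ^ 2 := by
      rw [← hNsq]
      positivity
    have h1 := hth r₀ r₁ hp
    rw [← hN] at h1
    have e : ip r₂ (nrm (thOf r₀ r₁)) - ip r₀ (nrm (thOf r₀ r₁)) = det3 r₀ r₁ r₂ / N := by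
      rw [h1]
      unfold ip det3
      simp only
      field_simp
      ring
    rw [e, abs_div, abs_of_pos hNpos, div_le_iff₀ hNpos]
    have : ρ ^ 2 ≤ ρ * N := by nlinarith
    linarith

end Claimed.Agent.R255
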