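import Claimed.Agent.R255.Iso.StarDefs

/-!
# Row 255, Sec. 5: LEAF ISO-SPLIT (good/bad splitting of a conditional entropy)      (architect helper220)
Pure finite probability.  Tools: `Iso/Ent.lean` (`ie_*`), `RW/Ent.lean` (`en_*`, `Pm.copies`, `Pm.pi`, `Pm.cond`; sorry-free).
-/

set_option autoImplicit false

namespace Claimed.Agent.R255

open Claimed.Agent.RW
open scoped BigOperators
open Classical

variable {Ω : Type} [Fintype Ω]

/-- LEAF.  Splitting of a conditional entropy into good and bad values of the conditioning variable (for an ARBITRARY law `Q₀`; apply `ie_entC_eq_sum`, `Pm.cond`). -/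
theorem iso_split {Ω' : Type} [Fintype Ω'] (Q₀ : FLaw Ω') (r : ℕ) (m cg cb : ℝ) {υ ι η : Type}
    (X : Ω' → υ) (I : Fin r → Ω' → ι) (Y : Ω' → η) (Bad : η → Prop)
    (hm : 0 ≤ m) (hcg : 0 ≤ cg) (hcb : 0 ≤ cb)
    (H2 : ∀ y, ¬ Bad y → ∀ Q : FLaw Ω', (∀ x, 0 < Q.p x → 0 < Q₀.p x ∧ Y x = y) →
      m * Q.ent X ≤ ∑ i, Q.ent (I i) + cg)
    (H3 : ∀ y, ∀ Q : FLaw Ω', (∀ x, 0 < Q.p x → 0 < Q₀.p x ∧ Y x = y) → Q.ent X ≤ cb) :
    m * Q₀.entC X Y ≤ ∑ i, Q₀.entC (I i) Y + cg + m * cb * Q₀.pr (fun x => Bad (Y x)) := by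
  -- the conditional laws
  have hsupp : ∀ y, Q₀.isoPm.pr Y y ≠ 0 → ∀ x, 0 < (iso_ofPm (Q₀.isoPm.cond Y y)).p x →
      0 < Q₀.p x ∧ Y x = y := by
    intro y hy x hx
    rw [ie_ofPm_p, en_cond_w _ _ _ hy] at hx
    by_cases hY : Y x = y
    · rw [if_pos hY] at hx
      refine ⟨?_, hY⟩
      by_contra h0
      have h1 : Q₀.p x = 0 := le_antisymm (not_lt.1 h0) (Q₀.nonneg x)
      simp [h1] at hx
    · rw [if_neg hY] at hx; exact absurd hx (lt_irrefl _)
  have hent : ∀ {δ : Type} (y : η) (Z : Ω' → δ),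
      (iso_ofPm (Q₀.isoPm.cond Y y)).ent Z = (Q₀.isoPm.cond Y y).ent Z := fun y Z => by
    rw [ie_ent, ie_ofPm_isoPm]
  have hfib : ∀ y, Q₀.isoPm.pr Y y ≠ 0 → m * (Q₀.isoPm.cond Y y).ent X ≤
      ∑ i, (Q₀.isoPm.cond Y y).ent (I i) + cg + m * cb * (if Bad y then 1 else 0) := by
    intro y hy
    by_cases hb : Bad y
    · have h3 := H3 y _ (hsupp y hy)
      rw [hent] at h3
      have h4 : 0 ≤ ∑ i, (Q₀.isoPm.cond Y y).ent (I i) := Finset.sum_nonneg fun i _ => en_nonneg _ _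
      have h5 := mul_le_mul_of_nonneg_left h3 hm
      rw [if_pos hb]
      linarith
    · have h2 := H2 y hb _ (hsupp y hy)
      simp only [hent] at h2
      rw [if_neg hb]
      linarith
  have hbad : ∑ y ∈ Finset.univ.image Y, Q₀.isoPm.pr Y y * (if Bad y then (1 : ℝ) else 0) =
      Q₀.pr (fun x => Bad (Y x)) := by
    have h := en_sum_comp Q₀.isoPm Y (fun y => if Bad y then (1 : ℝ) else 0)
    rw [← h]
    unfold FLaw.pr
    refine Finset.sum_congr rfl fun x _ => ?_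
    by_cases hb : Bad (Y x) <;> simp [hb]
  rw [ie_entC_eq_sum, Finset.mul_sum]
  simp only [ie_entC_eq_sum]
  rw [← Finset.sum_comm' (s := Finset.univ.image Y) (t := fun _ => Finset.univ)
    (s' := fun _ => Finset.univ.image Y) (t' := Finset.univ) (by simp)]
  calc ∑ y ∈ Finset.univ.image Y, m * (Q₀.isoPm.pr Y y * (Q₀.isoPm.cond Y y).ent X)
      ≤ ∑ y ∈ Finset.univ.image Y, Q₀.isoPm.pr Y y * (∑ i, (Q₀.isoPm.cond Y y).ent (I i) + cg +
          m * cb * (if Bad y then 1 else 0)) := by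
        refine Finset.sum_le_sum fun y _ => ?_
        by_cases h0 : Q₀.isoPm.pr Y y = 0
        · simp [h0]
        · have := mul_le_mul_of_nonneg_left (hfib y h0) (en_pr_nonneg Q₀.isoPm Y y)
          linarith
    _ = ∑ y ∈ Finset.univ.image Y, ∑ i, Q₀.isoPm.pr Y y * (Q₀.isoPm.cond Y y).ent (I i) + cg +
          m * cb * Q₀.pr (fun x => Bad (Y x)) := by
        have hcgs : ∑ y ∈ Finset.univ.image Y, Q₀.isoPm.pr Y y * cg = cg := by
          rw [← Finset.sum_mul, en_pr_sum, one_mul]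
        have hbs : ∑ y ∈ Finset.univ.image Y, Q₀.isoPm.pr Y y * (m * cb * (if Bad y then 1 else 0)) =
            m * cb * Q₀.pr (fun x => Bad (Y x)) := by
          rw [← hbad, Finset.mul_sum]
          refine Finset.sum_congr rfl fun y _ => ?_
          ring
        simp only [mul_add, Finset.sum_add_distrib, Finset.mul_sum]
        simp only [← Finset.mul_sum]
        rw [hcgs, hbs]

end Claimed.Agent.R255
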