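import Claimed.Agent.R255.Iso.RSat

/-!
# Row 255, Sec. 5, file: the last contract (block ISO-RSAT), PROVED in `Iso/RSat.lean` (helper26)      (architect helper220)
-/

set_option autoImplicit false

namespace Claimed.Agent.R255

open scoped BigOperators
open Classical

/-- **Robust saturation** of a trimmed member of an isotropic extremiser. -/
theorem iso_rsat_exists (γ s : ℝ) (h0 : 0 < γ) (h1 : γ < 1) (J : Iso γ s) (η ε₀ : ℝ) (hη : 0 < η)
    (hε₀ : 0 < ε₀) :
    ∃ (S : CSys) (ε : ℝ), 0 < ε ∧ ε < ε₀ ∧ ε < 1 ∧ S.Bdd J.Q.B ∧ S.RSat γ ε η :=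
  irs_rsat_exists γ s h0 h1 J η ε₀ hη hε₀

end Claimed.Agent.R255
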