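import Claimed.Agent.R255.Iso.StarDefs

/-!
# Row 255, Sec. 5: LEAF ISO-TRANSFER (Gibbs transfer between two star laws)      (architect helper220)
Pure finite probability.  Tools: `Iso/Ent.lean` (`ie_*`), `RW/Ent.lean` (`en_*`, `Pm.copies`, `Pm.pi`, `Pm.cond`; sorry-free).
-/

set_option autoImplicit false

namespace Claimed.Agent.R255

open Claimed.Agent.RW
open scoped BigOperators
open Classical

variable {Ω : Type} [Fintype Ω]

section TransferAux

variable {ι : Type} [Fintype ι] [DecidableEq ι] {υ ζ ϖ : Type}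

/-- expectation of a function of the base point under the copies law -/
theorem iso_tr_ex_base (Q : Pm Ω) (U : Ω → υ) (φ : Ω → ℝ) :
    ∑ x, (Q.copies U ι).w x * φ x.1 = ∑ ω, Q.w ω * φ ω := by
  rw [Fintype.sum_prod_type]
  refine Finset.sum_congr rfl fun ω₁ _ => ?_
  have e : ∑ b : ι → Ω, (Q.copies U ι).w (ω₁, b) = Q.w ω₁ := by
    show ∑ b, Q.w ω₁ * (Pm.pi fun _ : ι => Q.cond U (U ω₁)).w b = _
    rw [← Finset.mul_sum, Pm.sum_one, mul_one]
  rw [← e, Finset.sum_mul]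

/-- expectation of a function of `U` and of one copy -/
theorem iso_tr_ex_marg (Q : Pm Ω) (U : Ω → υ) (t : ι) (ψ : υ → Ω → ℝ) :
    ∑ x, (Q.copies U ι).w x * ψ (U x.1) (x.2 t) = ∑ ω, Q.w ω * ψ (U ω) ω := by
  rw [Fintype.sum_prod_type]
  have e : ∀ ω₁ : Ω, ∑ b : ι → Ω, (Q.copies U ι).w (ω₁, b) * ψ (U ω₁) (b t)
      = Q.w ω₁ * ∑ ω', (Q.cond U (U ω₁)).w ω' * ψ (U ω₁) ω' := by
    intro ω₁
    rw [← en_cp_pi_marg (fun _ : ι => Q.cond U (U ω₁)) t (fun ω' => ψ (U ω₁) ω'), Finset.mul_sum]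
    refine Finset.sum_congr rfl fun b _ => ?_
    show Q.w ω₁ * (Pm.pi fun _ : ι => Q.cond U (U ω₁)).w b * _ = _
    ring
  simp only [e]
  exact en_cp_disint Q U ψ

/-- the law of `(Z, W₀, …)` under the copies over `Z` -/
theorem iso_tr_law (Q : Pm Ω) (Z : Ω → ζ) (W : Ω → ϖ) (z : ζ) (w : ι → ϖ) :
    (Q.copies Z ι).pr (fun x => (Z x.1, fun i => W (x.2 i))) (z, w)
      = Q.pr Z z * ∏ i, (Q.cond Z z).pr W (w i) := by
  rw [← en_cp_pi_pr_prod (fun _ : ι => Q.cond Z z) (fun _ => W) w]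
  rw [en_cp_pr_eq_sum, Fintype.sum_prod_type, en_cp_pr_eq_sum Q Z z, Finset.sum_mul]
  refine Finset.sum_congr rfl fun ω₁ _ => ?_
  rw [en_cp_pr_eq_sum, Finset.mul_sum]
  refine Finset.sum_congr rfl fun b _ => ?_
  show Q.w ω₁ * (Pm.pi fun _ : ι => Q.cond Z (Z ω₁)).w b * _ = _
  by_cases h : Z ω₁ = z
  · subst h
    by_cases h2 : (fun i => W (b i)) = w
    · simp [h2]
    · simp [h2]
  · simp [h]

/-- support of the copies law -/
theorem iso_tr_supp (Q : Pm Ω) (U : Ω → υ) (x : Ω × (ι → Ω)) (hx : (Q.copies U ι).w x ≠ 0) :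
    Q.w x.1 ≠ 0 ∧ ∀ i, Q.w (x.2 i) ≠ 0 ∧ U (x.2 i) = U x.1 := by
  have hx' : Q.w x.1 * ∏ t, (Q.cond U (U x.1)).w (x.2 t) ≠ 0 := hx
  have h1 : Q.w x.1 ≠ 0 := left_ne_zero_of_mul hx'
  refine ⟨h1, fun i => ?_⟩
  have h2 : (Q.cond U (U x.1)).w (x.2 i) ≠ 0 :=
    (Finset.prod_ne_zero_iff.1 (right_ne_zero_of_mul hx')) i (Finset.mem_univ i)
  rw [en_cp_cond_w Q U _ (en_cp_pr_ne_zero Q U x.1 h1)] at h2
  by_cases h3 : U (x.2 i) = U x.1
  · rw [if_pos h3] at h2
    exact ⟨fun h0 => h2 (by rw [h0, zero_div]), h3⟩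
  · rw [if_neg h3] at h2
    exact absurd rfl h2

/-- `E[- log P(W | Z)] = H(W, Z) - H(Z)` -/
theorem iso_tr_condent (Q : Pm Ω) (Z : Ω → ζ) (W : Ω → ϖ) :
    ∑ ω, Q.w ω * (- Real.log ((Q.cond Z (Z ω)).pr W (W ω)))
      = Q.ent (fun ω => (W ω, Z ω)) - Q.ent Z := by
  rw [en_ent_eq_ex, en_ent_eq_ex, ← Finset.sum_sub_distrib]
  refine Finset.sum_congr rfl fun ω _ => ?_
  by_cases hw : Q.w ω = 0
  · simp [hw]
  · have h1 := en_pr_pos Q (fun ω => (W ω, Z ω)) ω hw
    have h3 := en_pr_pos Q Z ω hw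
    rw [en_cond_pr Q W Z _ h3.ne', Real.log_div h1.ne' h3.ne']
    ring

/-- positivity of the factors of the reference law on the support of the copies over `U` -/
theorem iso_tr_pos (Q : Pm Ω) (Z : Ω → ζ) (U : Ω → υ) (W : Ω → ϖ) (gZ : υ → ζ)
    (hZ : ∀ ω, Z ω = gZ (U ω)) (x : Ω × (ι → Ω)) (hx : (Q.copies U ι).w x ≠ 0) :
    0 < Q.pr Z (Z x.1) ∧ ∀ i, 0 < (Q.cond Z (Z x.1)).pr W (W (x.2 i)) := by
  obtain ⟨h1, h2⟩ := iso_tr_supp Q U x hx
  have h3 := en_pr_pos Q Z x.1 h1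
  refine ⟨h3, fun i => ?_⟩
  refine en_pr_pos _ W (x.2 i) ?_
  have hz : Z (x.2 i) = Z x.1 := by rw [hZ, hZ, (h2 i).2]
  rw [en_cp_cond_w Q Z _ h3.ne', if_pos hz]
  exact div_ne_zero (h2 i).1 h3.ne'

/-- cross entropy of the star over `U` against the star over `Z` -/
theorem iso_tr_cross (Q : Pm Ω) (Z : Ω → ζ) (U : Ω → υ) (W : Ω → ϖ) (gZ : υ → ζ)
    (hZ : ∀ ω, Z ω = gZ (U ω)) :
    ∑ x, (Q.copies U ι).w x *
        (- Real.log ((Q.copies Z ι).pr (fun x => (Z x.1, fun i => W (x.2 i))) (Z x.1, fun i => W (x.2 i))))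
      = Q.ent Z + (Fintype.card ι : ℝ) * (Q.ent (fun ω => (W ω, Z ω)) - Q.ent Z) := by
  have e : ∀ x : Ω × (ι → Ω), (Q.copies U ι).w x *
        (- Real.log ((Q.copies Z ι).pr (fun x => (Z x.1, fun i => W (x.2 i))) (Z x.1, fun i => W (x.2 i))))
      = (Q.copies U ι).w x * (- Real.log (Q.pr Z (Z x.1)))
        + ∑ i, (Q.copies U ι).w x * (- Real.log ((Q.cond Z (gZ (U x.1))).pr W (W (x.2 i)))) := by
    intro x
    by_cases hx : (Q.copies U ι).w x = 0
    · simp [hx]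
    · obtain ⟨h1, h2⟩ := iso_tr_pos Q Z U W gZ hZ x hx
      rw [iso_tr_law, Real.log_mul h1.ne' (Finset.prod_ne_zero_iff.2 fun i _ => (h2 i).ne'),
        Real.log_prod (fun i _ => (h2 i).ne'), ← Finset.mul_sum, ← hZ, Finset.sum_neg_distrib]
      ring
  simp only [e]
  rw [Finset.sum_add_distrib, Finset.sum_comm,
    iso_tr_ex_base Q U (fun ω => - Real.log (Q.pr Z (Z ω))), ← en_ent_eq_ex]
  congr 1
  have e2 : ∀ i : ι, ∑ x, (Q.copies U ι).w x * (- Real.log ((Q.cond Z (gZ (U x.1))).pr W (W (x.2 i))))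
      = Q.ent (fun ω => (W ω, Z ω)) - Q.ent Z := by
    intro i
    rw [iso_tr_ex_marg Q U i (fun u ω' => - Real.log ((Q.cond Z (gZ u)).pr W (W ω'))),
      ← iso_tr_condent]
    refine Finset.sum_congr rfl fun ω _ => ?_
    rw [hZ]
  simp only [e2]
  rw [Finset.sum_const, Finset.card_univ, nsmul_eq_mul]

/-- entropy of `(Z, W₀, …)` under the star over `U`, from below -/
theorem iso_tr_ent_lower (Q : Pm Ω) (Z : Ω → ζ) (U : Ω → υ) (W : Ω → ϖ) (gZ : υ → ζ)
    (hZ : ∀ ω, Z ω = gZ (U ω)) :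
    Q.ent Z + (Fintype.card ι : ℝ) * (Q.ent (fun ω => (U ω, W ω)) - Q.ent U)
      ≤ (Q.copies U ι).ent (fun x => (Z x.1, fun i => W (x.2 i))) := by
  set L := Q.copies U ι with hL
  have hci := en_copies_ci (ι := ι) Q U (fun _ => W)
  have hb : L.ent (fun x => U x.1) = Q.ent U := en_copies_base (ι := ι) Q U (fun u => u)
  have hbz : L.ent (fun x => Z x.1) = Q.ent Z := by
    have := en_copies_base (ι := ι) Q U gZ
    simpa only [← hZ] using this
  have hm : ∀ t : ι, L.ent (fun x => (U x.1, W (x.2 t))) = Q.ent (fun ω => (U ω, W ω)) :=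
    fun t => en_copies_marg (ι := ι) Q U t (fun u ω => (u, W ω))
  simp only [← hL, hb, hm, Finset.sum_const, Finset.card_univ, nsmul_eq_mul] at hci
  have hs := en_submod L (fun x => U x.1) (fun x => (fun i => W (x.2 i) : ι → ϖ)) (fun x => Z x.1)
  have e1 : L.ent (fun x => (U x.1, (fun i => W (x.2 i) : ι → ϖ), Z x.1))
      = L.ent (fun x => (U x.1, (fun i => W (x.2 i) : ι → ϖ))) :=
    en_congr L _ _ (fun t => (t.1, t.2.1)) (fun t => (t.1, t.2, gZ t.1)) (fun _ _ => rfl)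
      (fun x _ => by simp only [hZ])
  have e2 : L.ent (fun x => (U x.1, Z x.1)) = L.ent (fun x => U x.1) :=
    en_congr L _ _ (fun t => t.1) (fun t => (t, gZ t)) (fun _ _ => rfl) (fun x _ => by simp only [hZ])
  have e3 : L.ent (fun x => ((fun i => W (x.2 i) : ι → ϖ), Z x.1))
      = L.ent (fun x => (Z x.1, (fun i => W (x.2 i) : ι → ϖ))) :=
    en_congr L _ _ Prod.swap Prod.swap (fun _ _ => rfl) (fun _ _ => rfl)
  rw [e1, e2, e3, hci, hb, hbz] at hs
  linarith

/-- tilted Gibbs inequality -/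
theorem iso_tr_gibbs {Ω' α : Type} [Fintype Ω'] [DecidableEq α] (L M : Pm Ω') (X : Ω' → α) (A : α → Prop) (a : ℝ)
    (ha : a = ∑ x, M.w x * (if A (X x) then 1 else 0)) (ha0 : 0 < a)
    (hpos : ∀ x, L.w x ≠ 0 → M.pr X (X x) ≠ 0) :
    (∑ x, L.w x * (if A (X x) then 1 else 0)) * Real.log (1 + 1 / a)
      ≤ ∑ x, L.w x * (- Real.log (M.pr X (X x))) - L.ent X + Real.log 2 := by
  set q : α → ℝ := fun y => M.pr X y * ((1 + (if A y then 1 / a else 0)) / 2) with hq
  have hfac : ∀ y, 0 < (1 + (if A y then 1 / a else 0)) / 2 := by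
    intro y
    split_ifs
    · positivity
    · norm_num
  have hg := en_gibbs L X q (fun y => mul_nonneg (en_pr_nonneg M X y) (hfac y).le) ?_
    (fun x hx => mul_ne_zero (hpos x hx) (hfac _).ne')
  · have e : ∀ x, L.w x * (- Real.log (q (X x)))
        = L.w x * (- Real.log (M.pr X (X x))) + L.w x * Real.log 2
          - (L.w x * (if A (X x) then 1 else 0)) * Real.log (1 + 1 / a) := by
      intro x
      by_cases hx : L.w x = 0
      · simp [hx]
      · simp only [hq]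
        rw [Real.log_mul (hpos x hx) (hfac _).ne']
        by_cases hA : A (X x)
        · simp only [hA, if_true]
          rw [Real.log_div (by positivity) (by norm_num)]
          ring
        · simp only [hA, if_false, add_zero]
          rw [Real.log_div (by norm_num) (by norm_num), Real.log_one]
          ring
    simp only [e] at hg
    rw [Finset.sum_sub_distrib, Finset.sum_add_distrib, ← Finset.sum_mul, ← Finset.sum_mul,
      L.sum_one, one_mul] at hg
    linarith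
  · have e1 : ∑ y ∈ Finset.univ.image X, q y
        = (∑ y ∈ Finset.univ.image X, M.pr X y) / 2
          + (∑ y ∈ Finset.univ.image X, M.pr X y * (if A y then 1 else 0)) / (2 * a) := by
      rw [Finset.sum_div, Finset.sum_div, ← Finset.sum_add_distrib]
      refine Finset.sum_congr rfl fun y _ => ?_
      simp only [hq]
      by_cases hA : A y
      · simp only [hA, if_true]; field_simp
      · simp only [hA, if_false]; ring
    rw [e1, en_pr_sum, ← en_sum_comp M X (fun y => if A y then 1 else 0), ← ha]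
    have : a / (2 * a) = 1 / 2 := by field_simp
    rw [this]; norm_num

end TransferAux

/-- LEAF (Gibbs transfer from the star over `U` to the star over `Z`).
Let `λ, π` be the laws of `starY` under `P.star U r`, `P.star Z r`; `π(z,w) = P(z) ∏ ν_z(w_i)`.  `E_λ[-log π] - H(λ) ≤ r I(U;W|Z)` and Gibbs (`en_gibbs`) with `q = π (1 + 1_A / π(A)) / 2` give
`λ(A) log (1/π(A)) ≤ r I(U;W|Z) + log 2`. -/
theorem iso_star_transfer (P : FLaw Ω) (r : ℕ) {ζ υ ϖ : Type} (Z : Ω → ζ) (U : Ω → υ) (W : Ω → ϖ)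
    (gZ : υ → ζ) (hZ : ∀ ω, Z ω = gZ (U ω)) (A : ζ × (Fin r → ϖ) → Prop) (δ : ℝ) (hδ : 0 < δ)
    (hA : δ ≤ (P.star U r).pr (fun x => A (starY r Z W x))) :
    Real.exp (-(r * P.miC U W Z + Real.log 2) / δ) ≤ (P.star Z r).pr (fun x => A (starY r Z W x)) := by
  set Q := P.isoPm with hQ
  set L := Q.copies U (Fin r) with hL
  set M := Q.copies Z (Fin r) with hM
  -- probabilities as sums
  have eL : (P.star U r).pr (fun x => A (starY r Z W x))
      = ∑ x, L.w x * (if A (starY r Z W x) then 1 else 0) := by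
    unfold FLaw.pr
    refine Finset.sum_congr rfl fun x _ => ?_
    by_cases h : A (starY r Z W x)
    · simp only [h, if_true, mul_one]; rfl
    · simp only [h, if_false, mul_zero]
  have eM : (P.star Z r).pr (fun x => A (starY r Z W x))
      = ∑ x, M.w x * (if A (starY r Z W x) then 1 else 0) := by
    unfold FLaw.pr
    refine Finset.sum_congr rfl fun x _ => ?_
    by_cases h : A (starY r Z W x)
    · simp only [h, if_true, mul_one]; rfl
    · simp only [h, if_false, mul_zero]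
  set a := (P.star Z r).pr (fun x => A (starY r Z W x)) with ha
  set lam := (P.star U r).pr (fun x => A (starY r Z W x)) with hlam
  -- absolute continuity
  have hpos : ∀ x, L.w x ≠ 0 → M.pr (starY r Z W) (starY r Z W x) ≠ 0 := by
    intro x hx
    obtain ⟨h1, h2⟩ := iso_tr_pos Q Z U W gZ hZ x hx
    have := iso_tr_law (ι := Fin r) Q Z W (Z x.1) (fun i => W (x.2 i))
    show M.pr (fun x => (Z x.1, fun i => W (x.2 i))) (Z x.1, fun i => W (x.2 i)) ≠ 0
    rw [this]
    exact mul_ne_zero h1.ne' (Finset.prod_ne_zero_iff.2 fun i _ => (h2 i).ne')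
  have ha0 : 0 < a := by
    have hl : 0 < ∑ x, L.w x * (if A (starY r Z W x) then (1 : ℝ) else 0) := by
      rw [← eL]; exact lt_of_lt_of_le hδ hA
    obtain ⟨x, -, hx⟩ := Finset.exists_ne_zero_of_sum_ne_zero hl.ne'
    have hx1 : L.w x ≠ 0 := left_ne_zero_of_mul hx
    have hx2 : A (starY r Z W x) := by
      by_contra h
      simp [h] at hx
    have h3 : 0 < M.pr (starY r Z W) (starY r Z W x) :=
      lt_of_le_of_ne (en_pr_nonneg _ _ _) (Ne.symm (hpos x hx1))
    refine lt_of_lt_of_le h3 ?_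
    rw [eM, en_cp_pr_eq_sum]
    refine Finset.sum_le_sum fun x' _ => mul_le_mul_of_nonneg_left ?_ (M.nonneg x')
    by_cases h4 : starY r Z W x' = starY r Z W x
    · rw [if_pos h4, h4, if_pos hx2]
    · rw [if_neg h4]; split_ifs <;> norm_num
  have ha1 : a ≤ 1 := ie_pr_le_one _ _
  have hg := iso_tr_gibbs L M (starY r Z W) A a eM ha0 hpos
  rw [← eL] at hg
  have hcross := iso_tr_cross (ι := Fin r) Q Z U W gZ hZ
  have hlow := iso_tr_ent_lower (ι := Fin r) Q Z U W gZ hZ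
  rw [Fintype.card_fin] at hcross hlow
  have hcross' : ∑ x, L.w x * (- Real.log (M.pr (starY r Z W) (starY r Z W x)))
      = Q.ent Z + (r : ℝ) * (Q.ent (fun ω => (W ω, Z ω)) - Q.ent Z) := hcross
  have hlow' : Q.ent Z + (r : ℝ) * (Q.ent (fun ω => (U ω, W ω)) - Q.ent U) ≤ L.ent (starY r Z W) := hlow
  -- the conditional information
  have hmi : P.miC U W Z = Q.ent U + Q.ent (fun ω => (W ω, Z ω)) - Q.ent (fun ω => (U ω, W ω)) - Q.ent Z := by
    unfold FLaw.miC
    rw [ie_ent, ie_ent, ie_ent, ie_ent]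
    have e1 : Q.ent (FLaw.pair U Z) = Q.ent U :=
      en_congr Q _ _ (fun t => t.1) (fun t => (t, gZ t)) (fun _ _ => rfl)
        (fun ω _ => by simp only [FLaw.pair, hZ])
    have e2 : Q.ent (FLaw.pair (FLaw.pair U W) Z) = Q.ent (fun ω => (U ω, W ω)) :=
      en_congr Q _ _ (fun t => t.1) (fun t => (t, gZ t.1)) (fun _ _ => rfl)
        (fun ω _ => by simp only [FLaw.pair, hZ])
    rw [e1, e2]
    rfl
  have hkey : lam * Real.log (1 + 1 / a) ≤ r * P.miC U W Z + Real.log 2 := by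
    rw [hmi]
    rw [hcross'] at hg
    nlinarith [hg, hlow']
  -- conclusion
  have hla : 0 ≤ Real.log (1 / a) := Real.log_nonneg (by rw [le_div_iff₀ ha0]; linarith)
  have hla2 : Real.log (1 / a) ≤ Real.log (1 + 1 / a) :=
    Real.log_le_log (by positivity) (by linarith)
  have h5 : δ * Real.log (1 / a) ≤ r * P.miC U W Z + Real.log 2 :=
    calc δ * Real.log (1 / a) ≤ lam * Real.log (1 / a) := mul_le_mul_of_nonneg_right hA hla
      _ ≤ lam * Real.log (1 + 1 / a) :=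
        mul_le_mul_of_nonneg_left hla2 (le_trans hδ.le hA)
      _ ≤ _ := hkey
  rw [← Real.le_log_iff_exp_le ha0]
  rw [one_div, Real.log_inv] at h5
  rw [div_le_iff₀ hδ]
  linarith

end Claimed.Agent.R255
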