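import Claimed.Agent.R255.Iso.StarCopies
import Claimed.Agent.R255.Iso.Split
import Claimed.Agent.R255.Iso.Transfer
import Claimed.Agent.R255.Iso.Avg

/-!
# Row 255, Sec. 5: the abstract star theorem, glue      (architect helper220)
-/

set_option autoImplicit false

namespace Claimed.Agent.R255

open Claimed.Agent.RW
open scoped BigOperators
open Classical

variable {Ω : Type} [Fintype Ω]

/-- entropy form of the intercept count (Lemma 5.2) -/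
theorem iso_int_le (P : FLaw Ω) {ζ υ ϖ ι θ : Type}
    (Z : Ω → ζ) (U : Ω → υ) (W : Ω → ϖ) (In : Ω → ι) (TC : Ω → θ) (Cf : Ω → ℤ)
    (gC : υ → ℤ) (hC : ∀ ω, Cf ω = gC (U ω))
    (g1 : θ → ζ) (h1 : ∀ ω, Z ω = g1 (TC ω))
    (g2 : θ → ϖ) (h2 : ∀ ω, W ω = g2 (TC ω))
    (g3 : θ → ι) (h3 : ∀ ω, In ω = g3 (TC ω))
    (c1 : ℝ) (H1 : P.entC In (FLaw.pair U W) ≤ c1) :
    P.entC In (FLaw.pair W Z) ≤ P.entC U Z - P.entC Cf TC + c1 := by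
  -- H(In, U | W, Z) two ways
  have a1 := ie_entC_chain P In U (FLaw.pair W Z)
  have a2 := ie_entC_chain P U In (FLaw.pair W Z)
  have a3 : P.entC (FLaw.pair In U) (FLaw.pair W Z) = P.entC (FLaw.pair U In) (FLaw.pair W Z) := by
    unfold FLaw.entC
    congr 1
    exact ie_ent_congr P _ _ (fun t => ((t.1.2, t.1.1), t.2)) (fun t => ((t.1.2, t.1.1), t.2))
      (fun _ _ => rfl) (fun _ _ => rfl)
  -- H(In | U, W, Z) ≤ c1
  have b1 : P.entC In (FLaw.pair U (FLaw.pair W Z)) ≤ c1 :=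
    (ie_entC_anti P In _ (FLaw.pair U W) (fun t => (t.1, t.2.1)) (fun _ _ => rfl)).trans H1
  -- H(U | W, Z) ≤ H(U | Z)
  have b2 : P.entC U (FLaw.pair W Z) ≤ P.entC U Z := ie_entC_anti P U _ Z Prod.snd (fun _ _ => rfl)
  -- H(U | In, W, Z) ≥ H(U | TC) ≥ H(Cf | TC)
  have b3 : P.entC U TC ≤ P.entC U (FLaw.pair In (FLaw.pair W Z)) :=
    ie_entC_anti P U TC _ (fun t => (g3 t, g2 t, g1 t))
      (fun ω _ => by simp [FLaw.pair, h1 ω, h2 ω, h3 ω])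
  have b4 : P.entC Cf TC ≤ P.entC U TC :=
    ie_entC_mono P U Cf TC (fun t => gC t.1) (fun ω _ => hC ω)
  linarith

/-- the entropy half of the star theorem -/
theorem iso_star_ent (P : FLaw Ω) (r : ℕ) (m : ℝ) {ζ υ ϖ ι θ : Type}
    (Z : Ω → ζ) (U : Ω → υ) (W : Ω → ϖ) (In : Ω → ι) (TC : Ω → θ) (Cf : Ω → ℤ)
    (gZ : υ → ζ) (hZ : ∀ ω, Z ω = gZ (U ω))
    (gC : υ → ℤ) (hC : ∀ ω, Cf ω = gC (U ω))
    (g1 : θ → ζ) (h1 : ∀ ω, Z ω = g1 (TC ω))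
    (g2 : θ → ϖ) (h2 : ∀ ω, W ω = g2 (TC ω))
    (g3 : θ → ι) (h3 : ∀ ω, In ω = g3 (TC ω))
    (c1 cg cb : ℝ) (hm : 0 ≤ m) (hcg : 0 ≤ cg) (hcb : 0 ≤ cb)
    (H1 : P.entC In (FLaw.pair U W) ≤ c1)
    (Bad : ζ → (Fin r → ϖ) → Prop)
    (H2 : ∀ (z : ζ) (w : Fin r → ϖ), ¬ Bad z w → ∀ Q : FLaw (Ω × (Fin r → Ω)),
      (∀ x, 0 < Q.p x → 0 < P.p x.1 ∧ Z x.1 = z ∧ ∀ i, 0 < P.p (x.2 i) ∧ U (x.2 i) = U x.1 ∧ W (x.2 i) = w i) →
      m * Q.ent (fun x => U x.1) ≤ ∑ i, Q.ent (fun x => In (x.2 i)) + cg)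
    (H3 : ∀ (z : ζ) (Q : FLaw (Ω × (Fin r → Ω))), (∀ x, 0 < Q.p x → 0 < P.p x.1 ∧ Z x.1 = z) →
      Q.ent (fun x => U x.1) ≤ cb) :
    m * P.entC U Z ≤ r * (P.entC U Z - P.entC Cf TC + c1) + m * r * P.miC U W Z + cg
      + m * cb * (P.star U r).pr (fun x => Bad (Z x.1) (fun i => W (x.2 i))) := by
  have hs := iso_split (P.star U r) r m cg cb (fun x => U x.1) (fun i x => In (x.2 i)) (starY r Z W)
    (fun y => Bad y.1 y.2) hm hcg hcb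
    (fun y hy Q hQ => H2 y.1 y.2 hy Q (fun x hx => by
      obtain ⟨h0, hY⟩ := hQ x hx
      have hsup := iso_star_supp P U r x h0
      refine ⟨hsup.1, by rw [← hY]; rfl, fun i => ⟨(hsup.2 i).1, (hsup.2 i).2, by rw [← hY]; rfl⟩⟩))
    (fun y Q hQ => H3 y.1 Q (fun x hx =>
      ⟨(iso_star_supp P U r x (hQ x hx).1).1, by rw [← (hQ x hx).2]; rfl⟩))
  have hl := iso_star_lower P r Z U W gZ hZ
  have hi := iso_int_le P Z U W In TC Cf gC hC g1 h1 g2 h2 g3 h3 c1 H1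
  have hsum : ∑ i : Fin r, (P.star U r).entC (fun x => In (x.2 i)) (starY r Z W)
      ≤ r * (P.entC U Z - P.entC Cf TC + c1) := by
    calc ∑ i : Fin r, (P.star U r).entC (fun x => In (x.2 i)) (starY r Z W)
        ≤ ∑ _i : Fin r, (P.entC U Z - P.entC Cf TC + c1) :=
          Finset.sum_le_sum fun i _ => (iso_star_marg P r Z U W In gZ hZ i).trans hi
      _ = r * (P.entC U Z - P.entC Cf TC + c1) := by
          rw [Finset.sum_const, Finset.card_univ, Fintype.card_fin, nsmul_eq_mul]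
  have hml := mul_le_mul_of_nonneg_left hl hm
  have e : (P.star U r).pr (fun x => Bad (starY r Z W x).1 (starY r Z W x).2)
      = (P.star U r).pr (fun x => Bad (Z x.1) (fun i => W (x.2 i))) := rfl
  rw [e] at hs
  linarith

/-- **The star theorem.** -/
theorem iso_star (P : FLaw Ω) (r : ℕ) (m : ℝ) {ζ υ ϖ ι θ σ : Type}
    (Z : Ω → ζ) (U : Ω → υ) (W : Ω → ϖ) (In : Ω → ι) (TC : Ω → θ) (Cf : Ω → ℤ)
    (gZ : υ → ζ) (hZ : ∀ ω, Z ω = gZ (U ω))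
    (gC : υ → ℤ) (hC : ∀ ω, Cf ω = gC (U ω))
    (g1 : θ → ζ) (h1 : ∀ ω, Z ω = g1 (TC ω))
    (g2 : θ → ϖ) (h2 : ∀ ω, W ω = g2 (TC ω))
    (g3 : θ → ι) (h3 : ∀ ω, In ω = g3 (TC ω))
    (c1 cg cb δ : ℝ) (hm : 0 ≤ m) (hcg : 0 ≤ cg) (hcb : 0 ≤ cb) (hδ : 0 < δ)
    (H1 : P.entC In (FLaw.pair U W) ≤ c1)
    (Bad : ζ → (Fin r → ϖ) → Prop)
    (H2 : ∀ (z : ζ) (w : Fin r → ϖ), ¬ Bad z w → ∀ Q : FLaw (Ω × (Fin r → Ω)),
      (∀ x, 0 < Q.p x → 0 < P.p x.1 ∧ Z x.1 = z ∧ ∀ i, 0 < P.p (x.2 i) ∧ U (x.2 i) = U x.1 ∧ W (x.2 i) = w i) →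
      m * Q.ent (fun x => U x.1) ≤ ∑ i, Q.ent (fun x => In (x.2 i)) + cg)
    (H3 : ∀ (z : ζ) (Q : FLaw (Ω × (Fin r → Ω))), (∀ x, 0 < Q.p x → 0 < P.p x.1 ∧ Z x.1 = z) →
      Q.ent (fun x => U x.1) ≤ cb)
    (mem : σ → ϖ → Prop) (φ : Fin r → ζ → (Fin r → ϖ) → σ)
    (hφ : ∀ i z w x, φ i z (Function.update w i x) = φ i z w)
    (hBad : ∀ z w, Bad z w → ∃ i, mem (φ i z w) (w i)) :
    (m * P.entC U Z ≤ r * (P.entC U Z - P.entC Cf TC + c1) + m * r * P.miC U W Z + cg + m * cb * δ)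
    ∨ ∃ f : ζ → σ, Real.exp (-(r * P.miC U W Z + Real.log 2) / δ)
        ≤ r * P.pr (fun ω => mem (f (Z ω)) (W ω)) := by
  by_cases hc : (P.star U r).pr (fun x => Bad (Z x.1) (fun i => W (x.2 i))) ≤ δ
  · left
    have := iso_star_ent P r m Z U W In TC Cf gZ hZ gC hC g1 h1 g2 h2 g3 h3 c1 cg cb hm hcg hcb H1 Bad H2 H3
    have h' := mul_le_mul_of_nonneg_left hc (mul_nonneg hm hcb)
    linarith
  · right
    push Not at hc
    have ht := iso_star_transfer P r Z U W gZ hZ (fun y => Bad y.1 y.2) δ hδ hc.le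
    have hpos : 0 < (P.star Z r).pr (fun x => (fun y : ζ × (Fin r → ϖ) => Bad y.1 y.2) (starY r Z W x)) :=
      lt_of_lt_of_le (Real.exp_pos _) ht
    obtain ⟨f, hf⟩ := iso_star_avg P r Z W (fun y => Bad y.1 y.2) mem φ hφ hBad hpos
    exact ⟨f, ht.trans hf⟩

end Claimed.Agent.R255
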