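import Claimed.Agent.R255.Iso.StarDefs

/-!
# Row 255, Sec. 5: LEAF ISO-STAR-COPIES (support, lower bound, marginals of the star law)      (architect helper220)
Pure finite probability.  Tools: `Iso/Ent.lean` (`ie_*`), `RW/Ent.lean` (`en_*`, `Pm.copies`, `Pm.pi`, `Pm.cond`; sorry-free).
-/

set_option autoImplicit false

namespace Claimed.Agent.R255

open Claimed.Agent.RW
open scoped BigOperators
open Classical

variable {Ω : Type} [Fintype Ω]

/-- the weight of the star law -/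
theorem iso_star_p_eq (P : FLaw Ω) {υ : Type} (U : Ω → υ) (r : ℕ) (x : Ω × (Fin r → Ω)) :
    (P.star U r).p x = P.p x.1 * ∏ i, (P.isoPm.cond U (U x.1)).w (x.2 i) := rfl

/-- entropies in the star law are `Pm.copies` entropies -/
theorem iso_star_ent_pm (P : FLaw Ω) {υ α : Type} [DecidableEq α] (U : Ω → υ) (r : ℕ)
    (X : Ω × (Fin r → Ω) → α) :
    (P.star U r).ent X = (P.isoPm.copies U (Fin r)).ent X := by
  rw [ie_ent]; rfl

/-- conditional subadditivity: `H(Z, W₀, …, W_{r-1}) ≤ H(Z) + ∑ H(W_i | Z)` -/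
theorem iso_ent_pi_le {Ω' : Type} [Fintype Ω'] (Q : FLaw Ω') {ζ ϖ : Type} (Z : Ω' → ζ) :
    ∀ (r : ℕ) (W : Fin r → Ω' → ϖ),
      Q.ent (fun x => (Z x, fun i => W i x)) ≤ Q.ent Z + ∑ i, (Q.ent (FLaw.pair (W i) Z) - Q.ent Z) := by
  intro r
  induction r with
  | zero =>
    intro W
    simp only [Finset.univ_eq_empty, Finset.sum_empty, add_zero]
    exact ie_ent_mono Q Z _ (fun z => (z, fun i => i.elim0)) (fun ω _ => by
      refine Prod.ext rfl ?_
      funext i
      exact i.elim0)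
  | succ r ih =>
    intro W
    have h1 : Q.ent (fun x => (Z x, fun i => W i x))
        ≤ Q.ent (FLaw.pair (FLaw.pair (fun x => (fun i : Fin r => W i.succ x)) (W 0)) Z) := by
      refine ie_ent_mono Q _ _ (fun t => (t.2, Fin.cons t.1.2 t.1.1)) (fun ω _ => ?_)
      refine Prod.ext rfl ?_
      funext i
      refine Fin.cases ?_ (fun j => ?_) i
      · simp [FLaw.pair]
      · simp [FLaw.pair]
    have h2 := ie_submod Q (fun x => (fun i : Fin r => W i.succ x)) (W 0) Z
    have h3 := ih (fun i => W i.succ)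
    have h4 : Q.ent (FLaw.pair (fun x => (fun i : Fin r => W i.succ x)) Z)
        = Q.ent (fun x => (Z x, fun i : Fin r => W i.succ x)) := ie_ent_pair_comm Q _ _
    rw [Fin.sum_univ_succ]
    linarith

/-- LEAF (support of the star law) -/
theorem iso_star_supp (P : FLaw Ω) {υ : Type} (U : Ω → υ) (r : ℕ) (x : Ω × (Fin r → Ω))
    (hx : 0 < (P.star U r).p x) : 0 < P.p x.1 ∧ ∀ i, 0 < P.p (x.2 i) ∧ U (x.2 i) = U x.1 := by
  rw [iso_star_p_eq] at hx
  have h1 : P.p x.1 ≠ 0 := fun h => by rw [h, zero_mul] at hx; exact lt_irrefl _ hx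
  have h2 : ∏ i, (P.isoPm.cond U (U x.1)).w (x.2 i) ≠ 0 := fun h => by
    rw [h, mul_zero] at hx; exact lt_irrefl _ hx
  refine ⟨lt_of_le_of_ne (P.nonneg _) (Ne.symm h1), fun i => ?_⟩
  have h3 : (P.isoPm.cond U (U x.1)).w (x.2 i) ≠ 0 := (Finset.prod_ne_zero_iff.1 h2) i (Finset.mem_univ i)
  rw [en_cp_cond_w P.isoPm U (U x.1) (en_cp_pr_ne_zero P.isoPm U x.1 h1)] at h3
  by_cases hU : U (x.2 i) = U x.1
  · rw [if_pos hU] at h3
    refine ⟨lt_of_le_of_ne (P.nonneg _) fun h => h3 ?_, hU⟩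
    show P.p (x.2 i) / _ = 0
    rw [← h, zero_div]
  · rw [if_neg hU] at h3
    exact absurd rfl h3

/-- LEAF.  `H(U | Z, W₀, …, W_{r-1}) ≥ H(U | Z) - r I(U ; W | Z)` in the star law.
Proof: `en_copies_ci` gives `H(U, W₀..) = H(U) + r (H(U,W) - H(U))`; `H(Z, W₀..) ≤ H(Z) + ∑ H(W_i | Z)` (subadditivity), and `(Z, W_i)` has the law of `(Z, W)` (`en_copies_marg`). -/
theorem iso_star_lower (P : FLaw Ω) (r : ℕ) {ζ υ ϖ : Type} (Z : Ω → ζ) (U : Ω → υ) (W : Ω → ϖ)
    (gZ : υ → ζ) (hZ : ∀ ω, Z ω = gZ (U ω)) :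
    P.entC U Z - r * P.miC U W Z ≤ (P.star U r).entC (fun x => U x.1) (starY r Z W) := by
  -- entropies in `P`
  have a1 : P.ent (FLaw.pair U Z) = P.ent U := ie_ent_pair_det P U Z gZ (fun ω _ => hZ ω)
  have a2 : P.ent (FLaw.pair (FLaw.pair U W) Z) = P.ent (FLaw.pair U W) :=
    ie_ent_pair_det P _ Z (fun t => gZ t.1) (fun ω _ => hZ ω)
  -- marginals of the star law
  have b1 : (P.star U r).ent (fun x => U x.1) = P.ent U := by
    rw [iso_star_ent_pm, ie_ent]
    exact en_copies_base P.isoPm U (fun u => u)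
  have b2 : ∀ t : Fin r, (P.star U r).ent (fun x => (U x.1, W (x.2 t))) = P.ent (FLaw.pair U W) := by
    intro t
    rw [iso_star_ent_pm, ie_ent]
    exact en_copies_marg P.isoPm U t (fun u ω => (u, W ω))
  have b3 : (P.star U r).ent (fun x => Z x.1) = P.ent Z := by
    rw [iso_star_ent_pm, ie_ent]
    have e1 : (fun x : Ω × (Fin r → Ω) => Z x.1) = fun x => gZ (U x.1) := by
      funext x; exact hZ _
    have e2 : Z = fun ω => gZ (U ω) := funext hZ
    rw [e1]
    conv_rhs => rw [e2]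
    exact en_copies_base P.isoPm U gZ
  have b4 : ∀ t : Fin r, (P.star U r).ent (FLaw.pair (fun x => W (x.2 t)) (fun x => Z x.1))
      = P.ent (FLaw.pair W Z) := by
    intro t
    rw [iso_star_ent_pm, ie_ent]
    have e1 : (FLaw.pair (fun x : Ω × (Fin r → Ω) => W (x.2 t)) (fun x => Z x.1))
        = fun x => (W (x.2 t), gZ (U x.1)) := by
      funext x; exact Prod.ext rfl (hZ _)
    have e2 : FLaw.pair W Z = fun ω => (W ω, gZ (U ω)) := by
      funext x; exact Prod.ext rfl (hZ _)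
    rw [e1, e2]
    exact en_copies_marg P.isoPm U t (fun u ω => (W ω, gZ u))
  -- numerator
  have c1 : (P.star U r).ent (FLaw.pair (fun x => U x.1) (starY r Z W))
      = (P.star U r).ent (fun x => (U x.1, fun t => W (x.2 t))) :=
    ie_ent_congr _ _ _ (fun t => (t.1, t.2.2)) (fun t => (t.1, (gZ t.1, t.2))) (fun _ _ => rfl)
      (fun ω _ => by
        show (U ω.1, (Z ω.1, fun i => W (ω.2 i))) = _
        rw [hZ])
  have c2 : (P.star U r).ent (fun x => (U x.1, fun t => W (x.2 t)))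
      = P.ent U + r * (P.ent (FLaw.pair U W) - P.ent U) := by
    have h := en_copies_ci (ι := Fin r) P.isoPm U (fun _ => W)
    simp only [← iso_star_ent_pm] at h
    rw [h, b1]
    simp only [b2]
    simp only [Finset.sum_const, Finset.card_univ, Fintype.card_fin, nsmul_eq_mul]
  -- denominator
  have d1 : (P.star U r).ent (starY r Z W)
      ≤ P.ent Z + r * (P.ent (FLaw.pair W Z) - P.ent Z) := by
    have h := iso_ent_pi_le (P.star U r) (fun x => Z x.1) r (fun t x => W (x.2 t))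
    rw [b3] at h
    simp only [b4] at h
    simp only [Finset.sum_const, Finset.card_univ, Fintype.card_fin, nsmul_eq_mul] at h
    exact h
  unfold FLaw.entC FLaw.miC
  rw [a1, a2, c1, c2]
  linarith

/-- LEAF.  `H(In_i | Z, W₀, …) ≤ H(In | W, Z)`: drop the other slopes, then `en_copies_marg`. -/
theorem iso_star_marg (P : FLaw Ω) (r : ℕ) {ζ υ ϖ ι : Type} (Z : Ω → ζ) (U : Ω → υ) (W : Ω → ϖ)
    (In : Ω → ι) (gZ : υ → ζ) (hZ : ∀ ω, Z ω = gZ (U ω)) (i : Fin r) :
    (P.star U r).entC (fun x => In (x.2 i)) (starY r Z W) ≤ P.entC In (FLaw.pair W Z) := by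
  have h1 := ie_entC_anti (P.star U r) (fun x => In (x.2 i)) (starY r Z W)
    (FLaw.pair (fun x => W (x.2 i)) (fun x => Z x.1)) (fun y => (y.2 i, y.1)) (fun _ _ => rfl)
  refine h1.trans (le_of_eq ?_)
  unfold FLaw.entC
  have b4 : (P.star U r).ent (FLaw.pair (fun x => W (x.2 i)) (fun x => Z x.1))
      = P.ent (FLaw.pair W Z) := by
    rw [iso_star_ent_pm, ie_ent]
    have e1 : (FLaw.pair (fun x : Ω × (Fin r → Ω) => W (x.2 i)) (fun x => Z x.1))
        = fun x => (W (x.2 i), gZ (U x.1)) := by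
      funext x; exact Prod.ext rfl (hZ _)
    have e2 : FLaw.pair W Z = fun ω => (W ω, gZ (U ω)) := by
      funext x; exact Prod.ext rfl (hZ _)
    rw [e1, e2]
    exact en_copies_marg P.isoPm U i (fun u ω => (W ω, gZ u))
  have b5 : (P.star U r).ent (FLaw.pair (fun x => In (x.2 i))
        (FLaw.pair (fun x => W (x.2 i)) (fun x => Z x.1)))
      = P.ent (FLaw.pair In (FLaw.pair W Z)) := by
    rw [iso_star_ent_pm, ie_ent]
    have e1 : (FLaw.pair (fun x : Ω × (Fin r → Ω) => In (x.2 i))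
        (FLaw.pair (fun x => W (x.2 i)) (fun x => Z x.1)))
        = fun x => (In (x.2 i), (W (x.2 i), gZ (U x.1))) := by
      funext x; exact Prod.ext rfl (Prod.ext rfl (hZ _))
    have e2 : FLaw.pair In (FLaw.pair W Z) = fun ω => (In ω, (W ω, gZ (U ω))) := by
      funext x; exact Prod.ext rfl (Prod.ext rfl (hZ _))
    rw [e1, e2]
    exact en_copies_marg P.isoPm U i (fun u ω => (In ω, (W ω, gZ u)))
  rw [b4, b5]

end Claimed.Agent.R255
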