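import Claimed.Agent.R255.Iso.Ent

/-!
# Row 255, Sec. 5: the abstract star theorem      (architect helper220)

PURE finite probability (no geometry, no paper).  `P.star U r` = the law of `(ω, ω₀, …, ω_{r-1})`, `ω ~ P`, and given `U ω` the replicas `ω_i` are i.i.d. with law `P(· | U = U ω)`
(`RW.Pm.copies`, all its lemmas `en_copies_*`, `en_cp_*` in `RW/Ent.lean` are sorry-free).
Dictionary: `Z` base cell, `U` point cell (determines `Z`), `W` slope bin, `In` intercept, `TC = (T, coarse time)` determines `Z, W, In`; `Cf` fine time, determined by `U`.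
LEAVES: `iso_star_lower`, `iso_star_marg`, `iso_star_split`, `iso_star_transfer`, `iso_star_avg`.
-/

set_option autoImplicit false

namespace Claimed.Agent.R255

open Claimed.Agent.RW
open scoped BigOperators
open Classical

variable {Ω : Type} [Fintype Ω]

/-- the star law: `r` conditionally i.i.d. replicas given `U` -/
noncomputable def FLaw.star (P : FLaw Ω) {υ : Type} (U : Ω → υ) (r : ℕ) : FLaw (Ω × (Fin r → Ω)) :=
  iso_ofPm (P.isoPm.copies U (Fin r))

/-- the conditioning variable of the star: base cell and the `r` slope bins -/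
def starY {ζ ϖ : Type} (r : ℕ) (Z : Ω → ζ) (W : Ω → ϖ) : Ω × (Fin r → Ω) → ζ × (Fin r → ϖ) :=
  fun x => (Z x.1, fun i => W (x.2 i))

end Claimed.Agent.R255
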