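import Claimed.Agent.R255.Iso.Facts2
import Claimed.Agent.R255.Iso.Star
import Claimed.Agent.R255.Iso.Shearer
import Claimed.Agent.R255.Iso.Slope2

/-!
# Row 255, Sec. 5: the first window (three slopes)      (architect helper220)
-/

set_option autoImplicit false

namespace Claimed.Agent.R255

open scoped BigOperators
open Classical

variable (S : CSys) (P : FLaw S.Ω)

/-- the point observation of the first window -/
noncomputable def CSys.U1 (S : CSys) (ε k h : ℝ) : S.Ω → (ℤ × ℤ × ℤ) × (ℤ × ℤ × ℤ) :=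
  FLaw.pair (S.Oo ε k) (S.Oo ε (k + h))

/-- (H1) the intercepts are determined by the point and the slope bin up to bounded ambiguity -/
theorem iw1_H1 (ε k h : ℝ) (h0 : 0 < ε) (h1 : ε < 1) (hh : 0 ≤ h) :
    P.entC (S.In1 ε k h) (FLaw.pair (S.U1 ε k h) (S.Vo ε h)) ≤ 2 * Real.log 7 := by
  have hp := ie_entC_pair_le P (fun ω => tcell ε (k + h) ((S.Aa ω).1 + trep ε k (S.c ω) * (S.Vv ω).1))
    (fun ω => tcell ε (k + h) ((S.Aa ω).2 + trep ε k (S.c ω) * (S.Vv ω).2))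
    (FLaw.pair (S.U1 ε k h) (S.Vo ε h))
  have e1 := ie_entC_int_le P (fun ω => tcell ε (k + h) ((S.Aa ω).1 + trep ε k (S.c ω) * (S.Vv ω).1))
    (FLaw.pair (S.U1 ε k h) (S.Vo ε h))
    (fun x => (x.1.2.2.1 : ℝ) - ((x.1.2.1 : ℝ) - (x.1.1.1 : ℝ) * 2 ^ (tlev ε (k + h) - tlev ε k))
      * ((x.2.1 : ℝ) * msh ε h)) 3 (by norm_num)
    (fun ω _ => ig_intercept ε k h _ _ _ h0 h1 hh)
  have e2 := ie_entC_int_le P (fun ω => tcell ε (k + h) ((S.Aa ω).2 + trep ε k (S.c ω) * (S.Vv ω).2))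
    (FLaw.pair (S.U1 ε k h) (S.Vo ε h))
    (fun x => (x.1.2.2.2 : ℝ) - ((x.1.2.1 : ℝ) - (x.1.1.1 : ℝ) * 2 ^ (tlev ε (k + h) - tlev ε k))
      * ((x.2.2 : ℝ) * msh ε h)) 3 (by norm_num)
    (fun ω _ => ig_intercept ε k h _ _ _ h0 h1 hh)
  have e : P.entC (S.In1 ε k h) (FLaw.pair (S.U1 ε k h) (S.Vo ε h)) = P.entC (FLaw.pair
    (fun ω => tcell ε (k + h) ((S.Aa ω).1 + trep ε k (S.c ω) * (S.Vv ω).1))
    (fun ω => tcell ε (k + h) ((S.Aa ω).2 + trep ε k (S.c ω) * (S.Vv ω).2)))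
    (FLaw.pair (S.U1 ε k h) (S.Vo ε h)) := rfl
  rw [e]
  norm_num at e1 e2
  linarith

/-- a law has a support point -/
theorem iw_exists_supp {Ω : Type} [Fintype Ω] (Q : FLaw Ω) : ∃ x, 0 < Q.p x := by
  by_contra hc
  push Not at hc
  have : ∑ ω, Q.p ω ≤ 0 := Finset.sum_nonpos fun ω _ => hc ω
  rw [Q.sum_one] at this
  linarith

theorem iw_msh_le_one (ε u : ℝ) : msh ε u ≤ 1 := by
  unfold msh
  rw [div_le_one (by positivity)]
  exact one_le_pow₀ (by norm_num)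

/-- the representative of a bin is within one mesh of the value -/
theorem iw_rep_abs (ε d v : ℝ) : |v - (tcell ε d v : ℝ) * msh ε d| ≤ msh ε d := by
  have a1 := ig_cell_le ε d v
  have a2 := ig_lt_cell ε d v
  rw [abs_le]; constructor <;> linarith

/-- (H3) capacity of the first window -/
theorem iw1_H3 (ε k h B : ℝ) (h0 : 0 < ε) (h1 : ε < 1) (hh : 0 ≤ h) (hB : (S.withLaw P).Bdd B)
    {Ω' : Type} [Fintype Ω'] (Q : FLaw Ω') (π : Ω' → S.Ω) (z : ℤ × ℤ × ℤ)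
    (hQ : ∀ x, 0 < Q.p x → 0 < P.p (π x) ∧ S.Oo ε k (π x) = z) :
    Q.ent (fun x => S.U1 ε k h (π x)) ≤ 3 * (h * lg ε) + (Real.log 5 + 2 * Real.log (2 * (2 * (B + 2)) + 1)) := by
  have hB0 := if_B_nonneg S P B hB
  have e0 : Q.ent (fun x => S.U1 ε k h (π x)) ≤ Q.ent (fun x => S.Oo ε (k + h) (π x)) :=
    ie_ent_mono Q _ _ (fun o => (z, o)) (fun x hx => by
      show (S.Oo ε k (π x), S.Oo ε (k + h) (π x)) = _
      rw [(hQ x hx).2])
  have e1 : Q.ent (fun x => S.Oo ε (k + h) (π x)) ≤ Q.ent (fun x => (S.Oo ε (k + h) (π x)).1)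
      + (Q.ent (fun x => (S.Oo ε (k + h) (π x)).2.1) + Q.ent (fun x => (S.Oo ε (k + h) (π x)).2.2)) := by
    have a := ie_ent_pair_le Q (fun x => (S.Oo ε (k + h) (π x)).1)
      (FLaw.pair (fun x => (S.Oo ε (k + h) (π x)).2.1) (fun x => (S.Oo ε (k + h) (π x)).2.2))
    have b := ie_ent_pair_le Q (fun x => (S.Oo ε (k + h) (π x)).2.1) (fun x => (S.Oo ε (k + h) (π x)).2.2)
    have c : Q.ent (fun x => S.Oo ε (k + h) (π x)) = Q.ent (FLaw.pair (fun x => (S.Oo ε (k + h) (π x)).1)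
      (FLaw.pair (fun x => (S.Oo ε (k + h) (π x)).2.1) (fun x => (S.Oo ε (k + h) (π x)).2.2))) := rfl
    rw [c]; linarith
  have t0 := ie_ent_int_le Q (fun x => (S.Oo ε (k + h) (π x)).1)
    ((z.1 : ℝ) * 2 ^ (tlev ε (k + h) - tlev ε k)) (2 * ε ^ (-h)) (by positivity) (fun x hx => by
      have hr := ig_rel_nonneg ε k (k + h) (S.c (π x)) h0 h1 (by linarith)
      have hR := ig_ratio_le ε k h h0 h1 hh
      have hz : (z.1 : ℝ) = (tcell ε k (S.c (π x)) : ℝ) := by rw [← (hQ x hx).2]; rfl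
      show |(tcell ε (k + h) (S.c (π x)) : ℝ) - _| ≤ _
      rw [hz, abs_of_nonneg hr.1]
      linarith [hr.2])
  have t1 := ie_ent_int_le Q (fun x => (S.Oo ε (k + h) (π x)).2.1)
    ((z.2.1 : ℝ) * 2 ^ (tlev ε (k + h) - tlev ε k)) ((B + 2) * (2 * ε ^ (-h))) (by positivity) (fun x hx => by
      have hz : (z.2.1 : ℝ) = (tcell ε k ((S.Aa (π x)).1 + trep ε k (S.c (π x)) * (S.Vv (π x)).1) : ℝ) := by
        rw [← (hQ x hx).2]; rfl
      rw [hz]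
      exact ig_children ε k h _ _ _ B h0 h1 hh (if_bdd S P B hB _ (hQ x hx).1).1)
  have t2 := ie_ent_int_le Q (fun x => (S.Oo ε (k + h) (π x)).2.2)
    ((z.2.2 : ℝ) * 2 ^ (tlev ε (k + h) - tlev ε k)) ((B + 2) * (2 * ε ^ (-h))) (by positivity) (fun x hx => by
      have hz : (z.2.2 : ℝ) = (tcell ε k ((S.Aa (π x)).2 + trep ε k (S.c (π x)) * (S.Vv (π x)).2) : ℝ) := by
        rw [← (hQ x hx).2]; rfl
      rw [hz]
      exact ig_children ε k h _ _ _ B h0 h1 hh (if_bdd S P B hB _ (hQ x hx).1).2.1)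
  have l0 := if_log_count ε 2 h h0 h1 hh (by norm_num)
  have l1 := if_log_count ε (2 * (B + 2)) h h0 h1 hh (by positivity)
  have r1 : (B + 2) * (2 * ε ^ (-h)) = 2 * (B + 2) * ε ^ (-h) := by ring
  rw [r1] at t1 t2
  norm_num at l0
  linarith

/-- (H2) three slopes with a large determinant -/
theorem iw1_H2 (B : ℝ) (hB0 : 0 ≤ B) : ∃ C : ℝ, 0 ≤ C ∧ ∀ (S : CSys) (P : FLaw S.Ω) (ε k h l : ℝ),
    0 < ε → ε < 1 → 0 ≤ h → 0 ≤ l → (S.withLaw P).Bdd B →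
    ∀ (z : ℤ × ℤ × ℤ) (w : Fin 3 → ℤ × ℤ),
      ¬ |det3 (vrep ε h (w 0)) (vrep ε h (w 1)) (vrep ε h (w 2))| < (ε ^ l) ^ 2 →
      ∀ Q : FLaw (S.Ω × (Fin 3 → S.Ω)),
      (∀ x, 0 < Q.p x → 0 < P.p x.1 ∧ S.Oo ε k x.1 = z ∧
        ∀ i, 0 < P.p (x.2 i) ∧ S.U1 ε k h (x.2 i) = S.U1 ε k h x.1 ∧ S.Vo ε h (x.2 i) = w i) →
      2 * Q.ent (fun x => S.U1 ε k h x.1) ≤ ∑ i, Q.ent (fun x => S.In1 ε k h (x.2 i)) + (12 * l * lg ε + C) := by
  obtain ⟨C, hC, hsh⟩ := iso_shearer3 (B + 1) 3 (by linarith) (by norm_num)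
  refine ⟨C, hC, ?_⟩
  intro S P ε k h l h0 h1 hh hl hB z w hbad Q hQ
  obtain ⟨x0, hx0⟩ := iw_exists_supp Q
  have hpl : 0 < ε ^ l := Real.rpow_pos_of_pos h0 l
  push Not at hbad
  have hD0 : det3 (vrep ε h (w 0)) (vrep ε h (w 1)) (vrep ε h (w 2)) ≠ 0 := by
    intro h'
    rw [h', abs_zero] at hbad
    have : 0 < (ε ^ l) ^ 2 := by positivity
    linarith
  have hs : ∀ i, |(vrep ε h (w i)).1| ≤ B + 1 ∧ |(vrep ε h (w i)).2| ≤ B + 1 := by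
    intro i
    obtain ⟨hp, -, hw⟩ := (hQ x0 hx0).2.2 i
    have hb := if_bdd S P B hB _ hp
    have hm := iw_msh_le_one ε h
    have r1 := iw_rep_abs ε h (S.Vv (x0.2 i)).1
    have r2 := iw_rep_abs ε h (S.Vv (x0.2 i)).2
    have w1 : (vrep ε h (w i)).1 = (tcell ε h (S.Vv (x0.2 i)).1 : ℝ) * msh ε h := by rw [← hw]; rfl
    have w2 : (vrep ε h (w i)).2 = (tcell ε h (S.Vv (x0.2 i)).2 : ℝ) * msh ε h := by rw [← hw]; rfl
    rw [w1, w2]
    have b1 := hb.1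
    have b2 := hb.2.1
    rw [abs_le] at r1 r2 b1 b2
    constructor <;> rw [abs_le] <;> constructor <;> linarith [r1.1, r1.2, r2.1, r2.2, b1.1, b1.2, b2.1, b2.2]
  have main := hsh Q (fun x => (S.Oo ε (k + h) x.1).1 - z.1 * 2 ^ (tlev ε (k + h) - tlev ε k))
    (fun x => (S.Oo ε (k + h) x.1).2.1) (fun x => (S.Oo ε (k + h) x.1).2.2)
    (fun i x => S.In1 ε k h (x.2 i)) (fun i => vrep ε h (w i)) hs hD0 (fun x hx i => by
      obtain ⟨-, hz, hi⟩ := hQ x hx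
      obtain ⟨-, hU, hw⟩ := hi i
      have hU1 : S.Oo ε k (x.2 i) = z := by
        have := congrArg Prod.fst hU
        exact this.trans hz
      have hU2 : S.Oo ε (k + h) (x.2 i) = S.Oo ε (k + h) x.1 := congrArg Prod.snd hU
      have i1 := ig_intercept ε k h (S.Aa (x.2 i)).1 (S.Vv (x.2 i)).1 (S.c (x.2 i)) h0 h1 hh
      have i2 := ig_intercept ε k h (S.Aa (x.2 i)).2 (S.Vv (x.2 i)).2 (S.c (x.2 i)) h0 h1 hh
      have a1 : (tcell ε (k + h) ((S.Aa (x.2 i)).1 + trep ε (k + h) (S.c (x.2 i)) * (S.Vv (x.2 i)).1) : ℝ)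
          = ((S.Oo ε (k + h) x.1).2.1 : ℝ) := by rw [← hU2]; rfl
      have a2 : (tcell ε (k + h) ((S.Aa (x.2 i)).2 + trep ε (k + h) (S.c (x.2 i)) * (S.Vv (x.2 i)).2) : ℝ)
          = ((S.Oo ε (k + h) x.1).2.2 : ℝ) := by rw [← hU2]; rfl
      have a3 : (tcell ε (k + h) (S.c (x.2 i)) : ℝ) = ((S.Oo ε (k + h) x.1).1 : ℝ) := by rw [← hU2]; rfl
      have a4 : (tcell ε k (S.c (x.2 i)) : ℝ) = (z.1 : ℝ) := by rw [← hU1]; rfl
      have a5 : (tcell ε h (S.Vv (x.2 i)).1 : ℝ) * msh ε h = (vrep ε h (w i)).1 := by rw [← hw]; rfl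
      have a6 : (tcell ε h (S.Vv (x.2 i)).2 : ℝ) * msh ε h = (vrep ε h (w i)).2 := by rw [← hw]; rfl
      rw [a1, a3, a4, a5] at i1
      rw [a2, a3, a4, a6] at i2
      refine ⟨?_, ?_⟩
      · push_cast
        exact i1
      · push_cast
        exact i2)
  have eU : Q.ent (fun x => S.U1 ε k h x.1) = Q.ent (fun x =>
      ((S.Oo ε (k + h) x.1).1 - z.1 * 2 ^ (tlev ε (k + h) - tlev ε k), (S.Oo ε (k + h) x.1).2.1,
        (S.Oo ε (k + h) x.1).2.2)) :=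
    ie_ent_congr Q _ _ (fun u => (u.2.1 - z.1 * 2 ^ (tlev ε (k + h) - tlev ε k), u.2.2.1, u.2.2.2))
      (fun t => (z, (t.1 + z.1 * 2 ^ (tlev ε (k + h) - tlev ε k), t.2.1, t.2.2)))
      (fun _ _ => rfl) (fun x hx => by
        show (S.Oo ε k x.1, S.Oo ε (k + h) x.1) = _
        rw [(hQ x hx).2.1]
        simp)
  have hlog : Real.log (1 / |det3 (vrep ε h (w 0)) (vrep ε h (w 1)) (vrep ε h (w 2))|) ≤ 2 * l * lg ε := by
    rw [one_div, Real.log_inv]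
    have h2 := Real.log_le_log (by positivity) hbad
    rw [Real.log_pow, Real.log_rpow h0] at h2
    unfold lg
    rw [one_div, Real.log_inv]
    push_cast at h2
    linarith
  rw [eU]
  linarith

/-- **The first window.** -/
theorem iso_win1 (B : ℝ) : ∃ C : ℝ, 0 ≤ C ∧ ∀ (ε : ℝ) (S : CSys) (P : FLaw S.Ω) (k h l δ : ℝ),
    0 < ε → ε < 1 → (S.withLaw P).Bdd B → 0 ≤ h → 0 ≤ l → l ≤ h → 0 < δ → δ ≤ 1 →
    (3 * P.entC (S.Ct ε (k + h)) (S.TC ε k) - P.entC (S.U1 ε k h) (S.Oo ε k)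
        ≤ 6 * P.miC (S.U1 ε k h) (S.Vo ε h) (S.Oo ε k) + 12 * l * lg ε + 6 * h * lg ε * δ + C)
    ∨ ∃ f : ℤ × ℤ × ℤ → ℝ × ℝ,
      Real.exp (-(3 * P.miC (S.U1 ε k h) (S.Vo ε h) (S.Oo ε k) + Real.log 2) / δ)
        ≤ 3 * P.pr (S.Strip ε k l f) := by
  by_cases hB0 : 0 ≤ B
  swap
  · exact ⟨0, le_rfl, fun ε S P k h l δ _ _ hB => absurd (if_B_nonneg S P B hB) hB0⟩
  obtain ⟨C2, hC2, hH2⟩ := iw1_H2 B hB0
  obtain ⟨thOf, hth⟩ := iso_det_strip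
  have hlog5 : 0 ≤ Real.log 5 := Real.log_nonneg (by norm_num)
  have hlog7 : 0 ≤ Real.log 7 := Real.log_nonneg (by norm_num)
  have hlogB : 0 ≤ Real.log (2 * (2 * (B + 2)) + 1) := Real.log_nonneg (by linarith)
  refine ⟨6 * Real.log 7 + C2 + 2 * (Real.log 5 + 2 * Real.log (2 * (2 * (B + 2)) + 1)), by positivity, ?_⟩
  intro ε S P k h l δ h0 h1 hB hh hl hlh hδ hδ1
  have hℓ := if_lg_pos ε h0 h1
  have hpl : 0 < ε ^ l := Real.rpow_pos_of_pos h0 l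
  have key := iso_star P 3 2 (S.Oo ε k) (S.U1 ε k h) (S.Vo ε h) (S.In1 ε k h) (S.TC ε k) (S.Ct ε (k + h))
    Prod.fst (fun _ => rfl) (fun u => u.2.1) (fun _ => rfl)
    (fun x => (x.2, tcell ε k ((S.A x.1).1 + (x.2 : ℝ) / 2 ^ (tlev ε k) * (S.V x.1).1),
      tcell ε k ((S.A x.1).2 + (x.2 : ℝ) / 2 ^ (tlev ε k) * (S.V x.1).2))) (fun _ => rfl)
    (fun x => vObs ε h (S.V x.1)) (fun _ => rfl)
    (fun x => (tcell ε (k + h) ((S.A x.1).1 + (x.2 : ℝ) / 2 ^ (tlev ε k) * (S.V x.1).1),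
      tcell ε (k + h) ((S.A x.1).2 + (x.2 : ℝ) / 2 ^ (tlev ε k) * (S.V x.1).2))) (fun _ => rfl)
    (2 * Real.log 7) (12 * l * lg ε + C2)
    (3 * (h * lg ε) + (Real.log 5 + 2 * Real.log (2 * (2 * (B + 2)) + 1))) δ (by norm_num) (by positivity)
    (by positivity) hδ (iw1_H1 S P ε k h h0 h1 hh)
    (fun _ w => |det3 (vrep ε h (w 0)) (vrep ε h (w 1)) (vrep ε h (w 2))| < (ε ^ l) ^ 2)
    (fun z w hw Q hQ => hH2 S P ε k h l h0 h1 hh hl hB z w hw Q hQ)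
    (fun z Q hQ => iw1_H3 S P ε k h B h0 h1 hh hB Q Prod.fst z hQ)
    (fun (σ : ℝ × ℝ) (wb : ℤ × ℤ) => |ip (vrep ε h wb) (nrm σ.1) - σ.2| ≤ ε ^ l)
    (fun i _ w => if i = 1 then (0, ip (vrep ε h (w 0)) (nrm 0))
      else if i = 2 then (thOf (vrep ε h (w 0)) (vrep ε h (w 1)),
        ip (vrep ε h (w 0)) (nrm (thOf (vrep ε h (w 0)) (vrep ε h (w 1))))) else (0, 0))
    (fun i z w x => by
      fin_cases i
      · simp
      · simp [Function.update]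
      · simp [Function.update])
    (fun z w hw => by
      rcases hth _ _ _ (ε ^ l) hpl hw with h' | h'
      · exact ⟨1, by simpa using h'⟩
      · exact ⟨2, by simpa using h'⟩)
  rcases key with h' | ⟨f, hf⟩
  · left
    have hδ' : 2 * (3 * (h * lg ε) + (Real.log 5 + 2 * Real.log (2 * (2 * (B + 2)) + 1))) * δ
        ≤ 6 * h * lg ε * δ + 2 * (Real.log 5 + 2 * Real.log (2 * (2 * (B + 2)) + 1)) := by
      have : (Real.log 5 + 2 * Real.log (2 * (2 * (B + 2)) + 1)) * δ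
          ≤ (Real.log 5 + 2 * Real.log (2 * (2 * (B + 2)) + 1)) * 1 :=
        mul_le_mul_of_nonneg_left hδ1 (by positivity)
      nlinarith
    push_cast at h'
    linarith
  · right
    refine ⟨f, hf.trans ?_⟩
    push_cast
    refine mul_le_mul_of_nonneg_left (ie_pr_mono P _ _ (fun ω _ hω => ?_)) (by norm_num)
    -- from the bin representative to the true velocity
    show |ip (S.Vv ω) (nrm (f (S.Oo ε k ω)).1) - (f (S.Oo ε k ω)).2| ≤ 3 * ε ^ l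
    obtain ⟨n, hn⟩ : ∃ n, n = nrm (f (S.Oo ε k ω)).1 := ⟨_, rfl⟩
    have hn1 : |n.1| ≤ 1 := by rw [hn]; exact (ig_nrm_abs _).1
    have hn2 : |n.2| ≤ 1 := by rw [hn]; exact (ig_nrm_abs _).2
    rw [← hn] at hω ⊢
    have r1 := iw_rep_abs ε h (S.Vv ω).1
    have r2 := iw_rep_abs ε h (S.Vv ω).2
    have hm : msh ε h ≤ ε ^ l :=
      (ig_msh_le ε h h0).trans (Real.rpow_le_rpow_of_exponent_ge h0 h1.le hlh)
    have hm0 := ig_msh_pos ε h
    have hd : |ip (S.Vv ω) n - ip (vrep ε h (S.Vo ε h ω)) n| ≤ 2 * msh ε h := by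
      have : ip (S.Vv ω) n - ip (vrep ε h (S.Vo ε h ω)) n
          = ((S.Vv ω).1 - (tcell ε h (S.Vv ω).1 : ℝ) * msh ε h) * n.1
            + ((S.Vv ω).2 - (tcell ε h (S.Vv ω).2 : ℝ) * msh ε h) * n.2 := by
        simp only [ip, vrep, CSys.Vo, vObs]; ring
      rw [this]
      refine (abs_add_le _ _).trans ?_
      rw [abs_mul, abs_mul]
      have q1 := mul_le_mul r1 hn1 (abs_nonneg _) hm0.le
      have q2 := mul_le_mul r2 hn2 (abs_nonneg _) hm0.le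
      linarith
    rw [abs_le] at hd hω ⊢
    constructor <;> linarith [hd.1, hd.2, hω.1, hω.2]

end Claimed.Agent.R255
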