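import Claimed.Agent.R255.Iso.Win1

/-!
# Row 255, Sec. 5: the second window (two slopes in the last block)      (architect helper220)
-/

set_option autoImplicit false

namespace Claimed.Agent.R255

open scoped BigOperators
open Classical

variable (S : CSys) (P : FLaw S.Ω)

/-- the point observation of the second window -/
noncomputable def CSys.U2 (S : CSys) (ε k a t g : ℝ) (f : ℤ × ℤ × ℤ → ℝ × ℝ) :
    S.Ω → (((ℤ × ℤ × ℤ) × (ℤ × ℤ × ℤ) × ℤ) × (ℤ × ℤ)) × (((ℤ × ℤ × ℤ) × (ℤ × ℤ × ℤ) × ℤ) × (ℤ × ℤ)) :=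
  FLaw.pair (S.Zo ε k a t f) (S.Zo ε k a (t + g) f)

/-- a function constant on the fibres of `Y` is a function of `Y` -/
theorem iw_factor {Ω α β : Type} [Nonempty β] (Y : Ω → α) (X : Ω → β)
    (h : ∀ ω ω', Y ω = Y ω' → X ω = X ω') : ∃ g : α → β, ∀ ω, X ω = g (Y ω) := by
  obtain ⟨e, he⟩ := (Function.factorsThrough_iff X).1 (fun a b hab => h a b hab)
  exact ⟨e, fun ω => congrFun he ω⟩

section ker

variable {S} {ε t : ℝ} {ω ω' : S.Ω}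

theorem iw2_V (h : S.TC ε t ω = S.TC ε t ω') : S.Vv ω = S.Vv ω' := by
  have hT : S.T ω = S.T ω' := congrArg Prod.fst h
  unfold CSys.Vv; rw [hT]

theorem iw2_A (h : S.TC ε t ω = S.TC ε t ω') : S.Aa ω = S.Aa ω' := by
  have hT : S.T ω = S.T ω' := congrArg Prod.fst h
  unfold CSys.Aa; rw [hT]

theorem iw2_cell (h0 : 0 < ε) (h1 : ε < 1) (h : S.TC ε t ω = S.TC ε t ω') (u : ℝ) (hu : u ≤ t) :
    tcell ε u (S.c ω) = tcell ε u (S.c ω') := by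
  have hC : tcell ε t (S.c ω) = tcell ε t (S.c ω') := congrArg Prod.snd h
  rw [ig_cell_nest ε u t _ h0 h1 hu, ig_cell_nest ε u t (S.c ω') h0 h1 hu, hC]

theorem iw2_trep (h0 : 0 < ε) (h1 : ε < 1) (h : S.TC ε t ω = S.TC ε t ω') (u : ℝ) (hu : u ≤ t) :
    trep ε u (S.c ω) = trep ε u (S.c ω') := by
  unfold trep; rw [iw2_cell h0 h1 h u hu]

theorem iw2_Oo (h0 : 0 < ε) (h1 : ε < 1) (h : S.TC ε t ω = S.TC ε t ω') (u : ℝ) (hu : u ≤ t) :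
    S.Oo ε u ω = S.Oo ε u ω' := by
  unfold CSys.Oo iObs
  rw [iw2_V h, iw2_A h, iw2_cell h0 h1 h u hu, iw2_trep h0 h1 h u hu]

theorem iw2_Xa (h0 : 0 < ε) (h1 : ε < 1) (h : S.TC ε t ω = S.TC ε t ω') (u : ℝ) (hu : u ≤ t) :
    S.Xa ε u ω = S.Xa ε u ω' := by
  unfold CSys.Xa
  rw [iw2_V h, iw2_A h, iw2_trep h0 h1 h u hu]

theorem iw2_th (h0 : 0 < ε) (h1 : ε < 1) (h : S.TC ε t ω = S.TC ε t ω') (k : ℝ) (hk : k ≤ t)
    (f : ℤ × ℤ × ℤ → ℝ × ℝ) : S.th ε k f ω = S.th ε k f ω' := by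
  unfold CSys.th; rw [iw2_Oo h0 h1 h k hk]

theorem iw2_Zo (h0 : 0 < ε) (h1 : ε < 1) (h : S.TC ε t ω = S.TC ε t ω') (k a : ℝ) (hk : k ≤ a) (ha : a ≤ t)
    (f : ℤ × ℤ × ℤ → ℝ × ℝ) : S.Zo ε k a t f ω = S.Zo ε k a t f ω' := by
  unfold CSys.Zo FLaw.pair CSys.Bo CSys.Psi CSys.Ct
  rw [iw2_Oo h0 h1 h k (hk.trans ha), iw2_Oo h0 h1 h a ha, iw2_Xa h0 h1 h a ha,
    iw2_th h0 h1 h k (hk.trans ha), iw2_cell h0 h1 h t le_rfl, iw2_Xa h0 h1 h t le_rfl]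

theorem iw2_Xo (h0 : 0 < ε) (h1 : ε < 1) (h : S.TC ε t ω = S.TC ε t ω') (k g : ℝ) (hk : k ≤ t)
    (f : ℤ × ℤ × ℤ → ℝ × ℝ) : S.Xo ε k g f ω = S.Xo ε k g f ω' := by
  unfold CSys.Xo
  rw [iw2_V h, iw2_th h0 h1 h k hk]

theorem iw2_In2 (h0 : 0 < ε) (h1 : ε < 1) (h : S.TC ε t ω = S.TC ε t ω') (k g : ℝ) (hk : k ≤ t)
    (f : ℤ × ℤ × ℤ → ℝ × ℝ) : S.In2 ε k t g f ω = S.In2 ε k t g f ω' := by
  unfold CSys.In2
  rw [iw2_Xa h0 h1 h t le_rfl, iw2_th h0 h1 h k hk]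

end ker

/-- the pointwise intercept relation of the second window -/
theorem iw2_int (ε k t g : ℝ) (f : ℤ × ℤ × ℤ → ℝ × ℝ) (h0 : 0 < ε) (h1 : ε < 1) (hg : 0 ≤ g) (ω : S.Ω) :
    |(S.In2 ε k t g f ω : ℝ) - (((S.Psi ε k (t + g) f ω).2 : ℝ)
      - (((S.Psi ε k (t + g) f ω).1 : ℝ) - ((S.Psi ε k t f ω).1 : ℝ) * 2 ^ (tlev ε (t + g) - tlev ε t))
        * ((S.Xo ε k g f ω : ℝ) * msh ε g))| ≤ 3 := by
  have := ig_intercept ε t g (ip (S.Aa ω) (tang (S.th ε k f ω))) (ip (S.Vv ω) (tang (S.th ε k f ω)))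
    (S.c ω) h0 h1 hg
  rw [← if_Xa_ip, ← if_Xa_ip] at this
  exact this

/-- (H1) -/
theorem iw2_H1 (ε k a t g : ℝ) (f : ℤ × ℤ × ℤ → ℝ × ℝ) (h0 : 0 < ε) (h1 : ε < 1) (hg : 0 ≤ g) :
    P.entC (S.In2 ε k t g f) (FLaw.pair (S.U2 ε k a t g f) (S.Xo ε k g f)) ≤ Real.log 7 := by
  have e1 := ie_entC_int_le P (S.In2 ε k t g f) (FLaw.pair (S.U2 ε k a t g f) (S.Xo ε k g f))
    (fun x => (x.1.2.2.2 : ℝ) - ((x.1.2.2.1 : ℝ) - (x.1.1.2.1 : ℝ) * 2 ^ (tlev ε (t + g) - tlev ε t))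
      * ((x.2 : ℝ) * msh ε g)) 3 (by norm_num)
    (fun ω _ => iw2_int S ε k t g f h0 h1 hg ω)
  norm_num at e1
  exact e1

/-- (H3) capacity of the second window -/
theorem iw2_H3 (ε k a t g B : ℝ) (f : ℤ × ℤ × ℤ → ℝ × ℝ) (h0 : 0 < ε) (h1 : ε < 1) (hg : 0 ≤ g)
    (hB : (S.withLaw P).Bdd B) {Ω' : Type} [Fintype Ω'] (Q : FLaw Ω') (π : Ω' → S.Ω)
    (z : ((ℤ × ℤ × ℤ) × (ℤ × ℤ × ℤ) × ℤ) × (ℤ × ℤ))
    (hQ : ∀ x, 0 < Q.p x → 0 < P.p (π x) ∧ S.Zo ε k a t f (π x) = z) :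
    Q.ent (fun x => S.U2 ε k a t g f (π x))
      ≤ 2 * (g * lg ε) + (Real.log 5 + Real.log (2 * (2 * (2 * B + 2)) + 1)) := by
  have hB0 := if_B_nonneg S P B hB
  have e0 : Q.ent (fun x => S.U2 ε k a t g f (π x)) ≤ Q.ent (fun x => S.Psi ε k (t + g) f (π x)) :=
    ie_ent_mono Q _ _ (fun o => (z, (z.1, o))) (fun x hx => by
      have hz := (hQ x hx).2
      have hz1 : S.Bo ε k a f (π x) = z.1 := by rw [← hz]; rfl
      show (S.Zo ε k a t f (π x), (S.Bo ε k a f (π x), S.Psi ε k (t + g) f (π x))) = _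
      rw [hz, hz1])
  have e1 := ie_ent_pair_le Q (fun x => (S.Psi ε k (t + g) f (π x)).1) (fun x => (S.Psi ε k (t + g) f (π x)).2)
  have c : Q.ent (fun x => S.Psi ε k (t + g) f (π x)) = Q.ent (FLaw.pair
    (fun x => (S.Psi ε k (t + g) f (π x)).1) (fun x => (S.Psi ε k (t + g) f (π x)).2)) := rfl
  have t0 := ie_ent_int_le Q (fun x => (S.Psi ε k (t + g) f (π x)).1)
    ((z.2.1 : ℝ) * 2 ^ (tlev ε (t + g) - tlev ε t)) (2 * ε ^ (-g)) (by positivity) (fun x hx => by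
      have hr := ig_rel_nonneg ε t (t + g) (S.c (π x)) h0 h1 (by linarith)
      have hR := ig_ratio_le ε t g h0 h1 hg
      have hz : (z.2.1 : ℝ) = (tcell ε t (S.c (π x)) : ℝ) := by rw [← (hQ x hx).2]; rfl
      show |(tcell ε (t + g) (S.c (π x)) : ℝ) - _| ≤ _
      rw [hz, abs_of_nonneg hr.1]
      linarith [hr.2])
  have t1 := ie_ent_int_le Q (fun x => (S.Psi ε k (t + g) f (π x)).2)
    ((z.2.2 : ℝ) * 2 ^ (tlev ε (t + g) - tlev ε t)) ((2 * B + 2) * (2 * ε ^ (-g))) (by positivity)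
    (fun x hx => by
      have hz : (z.2.2 : ℝ) = (tcell ε t (ip (S.Xa ε t (π x)) (tang (S.th ε k f (π x)))) : ℝ) := by
        rw [← (hQ x hx).2]; rfl
      rw [hz]
      have := ig_children ε t g (ip (S.Aa (π x)) (tang (S.th ε k f (π x))))
        (ip (S.Vv (π x)) (tang (S.th ε k f (π x)))) (S.c (π x)) (2 * B) h0 h1 hg
        (if_ip_V S P B hB _ (ig_tang_abs _).1 (ig_tang_abs _).2 _ (hQ x hx).1)
      rw [← if_Xa_ip, ← if_Xa_ip] at this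
      exact this)
  have l0 := if_log_count ε 2 g h0 h1 hg (by norm_num)
  have l1 := if_log_count ε (2 * (2 * B + 2)) g h0 h1 hg (by positivity)
  have r1 : (2 * B + 2) * (2 * ε ^ (-g)) = 2 * (2 * B + 2) * ε ^ (-g) := by ring
  rw [r1] at t1
  norm_num at l0
  linarith

/-- (H2) two separated slopes -/
theorem iw2_H2 : ∃ C : ℝ, 0 ≤ C ∧ ∀ (S : CSys) (P : FLaw S.Ω) (ε k a t g d : ℝ) (f : ℤ × ℤ × ℤ → ℝ × ℝ),
    0 < ε → ε < 1 → 0 ≤ g → 0 ≤ d →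
    ∀ (z : ((ℤ × ℤ × ℤ) × (ℤ × ℤ × ℤ) × ℤ) × (ℤ × ℤ)) (w : Fin 2 → ℤ),
      ¬ |(w 0 : ℝ) * msh ε g - (w 1 : ℝ) * msh ε g| < ε ^ d →
      ∀ Q : FLaw (S.Ω × (Fin 2 → S.Ω)),
      (∀ x, 0 < Q.p x → 0 < P.p x.1 ∧ S.Zo ε k a t f x.1 = z ∧
        ∀ i, 0 < P.p (x.2 i) ∧ S.U2 ε k a t g f (x.2 i) = S.U2 ε k a t g f x.1 ∧ S.Xo ε k g f (x.2 i) = w i) →
      1 * Q.ent (fun x => S.U2 ε k a t g f x.1)
        ≤ ∑ i, Q.ent (fun x => S.In2 ε k t g f (x.2 i)) + (d * lg ε + C) := by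
  obtain ⟨C, hC, hsl⟩ := iso_slope2 3 (by norm_num)
  refine ⟨C, hC, ?_⟩
  intro S P ε k a t g d f h0 h1 hg hd z w hbad Q hQ
  push Not at hbad
  have hpd : 0 < ε ^ d := Real.rpow_pos_of_pos h0 d
  have hpd1 : ε ^ d ≤ 1 := Real.rpow_le_one h0.le h1.le hd
  have main := hsl Q (fun x => (S.Psi ε k (t + g) f x.1).1 - z.2.1 * 2 ^ (tlev ε (t + g) - tlev ε t))
    (fun x => (S.Psi ε k (t + g) f x.1).2) (fun i x => S.In2 ε k t g f (x.2 i))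
    (fun i => (w i : ℝ) * msh ε g) (ε ^ d) hpd hpd1 hbad (fun x hx i => by
      obtain ⟨-, hz, hi⟩ := hQ x hx
      obtain ⟨-, hU, hw⟩ := hi i
      have hU1 : S.Zo ε k a t f (x.2 i) = z := (congrArg Prod.fst hU).trans hz
      have hU2 : S.Zo ε k a (t + g) f (x.2 i) = S.Zo ε k a (t + g) f x.1 := congrArg Prod.snd hU
      have hP2 : S.Psi ε k (t + g) f (x.2 i) = S.Psi ε k (t + g) f x.1 := congrArg Prod.snd hU2
      have hP1 : S.Psi ε k t f (x.2 i) = z.2 := congrArg Prod.snd hU1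
      have i1 := iw2_int S ε k t g f h0 h1 hg (x.2 i)
      rw [hP2, hP1, hw] at i1
      push_cast
      exact i1)
  have eU : Q.ent (fun x => S.U2 ε k a t g f x.1) = Q.ent (fun x =>
      ((S.Psi ε k (t + g) f x.1).1 - z.2.1 * 2 ^ (tlev ε (t + g) - tlev ε t), (S.Psi ε k (t + g) f x.1).2)) :=
    ie_ent_congr Q _ _ (fun u => (u.2.2.1 - z.2.1 * 2 ^ (tlev ε (t + g) - tlev ε t), u.2.2.2))
      (fun s => (z, (z.1, (s.1 + z.2.1 * 2 ^ (tlev ε (t + g) - tlev ε t), s.2))))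
      (fun _ _ => rfl) (fun x hx => by
        have hz := (hQ x hx).2.1
        have hz1 : S.Bo ε k a f x.1 = z.1 := by rw [← hz]; rfl
        show (S.Zo ε k a t f x.1, (S.Bo ε k a f x.1, S.Psi ε k (t + g) f x.1)) = _
        rw [hz, hz1]
        simp)
  have hlog : Real.log (1 / ε ^ d) = d * lg ε := by
    rw [one_div, Real.log_inv, Real.log_rpow h0]
    unfold lg
    rw [one_div, Real.log_inv]
    ring
  rw [one_mul, eU]
  rw [hlog] at main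
  linarith

/-- **The second window.** -/
theorem iso_win2 (B : ℝ) : ∃ C : ℝ, 0 ≤ C ∧ ∀ (ε : ℝ) (S : CSys) (P : FLaw S.Ω) (k a t g d δ : ℝ)
    (f : ℤ × ℤ × ℤ → ℝ × ℝ),
    0 < ε → ε < 1 → (S.withLaw P).Bdd B → k ≤ a → a ≤ t → 0 ≤ g → 0 ≤ d → d ≤ g → 0 < δ → δ ≤ 1 →
    (2 * P.entC (S.Ct ε (t + g)) (S.TC ε t) - P.entC (S.U2 ε k a t g f) (S.Zo ε k a t f)
        ≤ 2 * P.miC (S.U2 ε k a t g f) (S.Xo ε k g f) (S.Zo ε k a t f) + d * lg ε + 2 * g * lg ε * δ + C)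
    ∨ ∃ f₂ : ((ℤ × ℤ × ℤ) × (ℤ × ℤ × ℤ) × ℤ) × (ℤ × ℤ) → ℝ,
      Real.exp (-(2 * P.miC (S.U2 ε k a t g f) (S.Xo ε k g f) (S.Zo ε k a t f) + Real.log 2) / δ)
        ≤ 2 * P.pr (S.Conf ε k a t d f f₂) := by
  by_cases hB0 : 0 ≤ B
  swap
  · exact ⟨0, le_rfl, fun ε S P k a t g d δ f _ _ hB => absurd (if_B_nonneg S P B hB) hB0⟩
  obtain ⟨C2, hC2, hH2⟩ := iw2_H2
  have hlog5 : 0 ≤ Real.log 5 := Real.log_nonneg (by norm_num)
  have hlog7 : 0 ≤ Real.log 7 := Real.log_nonneg (by norm_num)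
  have hlogB : 0 ≤ Real.log (2 * (2 * (2 * B + 2)) + 1) := Real.log_nonneg (by linarith)
  refine ⟨2 * Real.log 7 + C2 + (Real.log 5 + Real.log (2 * (2 * (2 * B + 2)) + 1)), by positivity, ?_⟩
  intro ε S P k a t g d δ f h0 h1 hB hka hat hg hd hdg hδ hδ1
  have hℓ := if_lg_pos ε h0 h1
  obtain ⟨g1, hg1⟩ := iw_factor (S.TC ε t) (S.Zo ε k a t f) (fun ω ω' h => iw2_Zo h0 h1 h k a hka hat f)
  obtain ⟨g2, hg2⟩ := iw_factor (S.TC ε t) (S.Xo ε k g f) (fun ω ω' h => iw2_Xo h0 h1 h k g (hka.trans hat) f)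
  obtain ⟨g3, hg3⟩ := iw_factor (S.TC ε t) (S.In2 ε k t g f)
    (fun ω ω' h => iw2_In2 h0 h1 h k g (hka.trans hat) f)
  have key := iso_star P 2 1 (S.Zo ε k a t f) (S.U2 ε k a t g f) (S.Xo ε k g f) (S.In2 ε k t g f) (S.TC ε t)
    (S.Ct ε (t + g)) Prod.fst (fun _ => rfl) (fun u => u.2.2.1) (fun _ => rfl) g1 hg1 g2 hg2 g3 hg3
    (Real.log 7) (d * lg ε + C2)
    (2 * (g * lg ε) + (Real.log 5 + Real.log (2 * (2 * (2 * B + 2)) + 1))) δ (by norm_num) (by positivity)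
    (by positivity) hδ (iw2_H1 S P ε k a t g f h0 h1 hg)
    (fun _ w => |(w 0 : ℝ) * msh ε g - (w 1 : ℝ) * msh ε g| < ε ^ d)
    (fun z w hw Q hQ => hH2 S P ε k a t g d f h0 h1 hg hd z w hw Q hQ)
    (fun z Q hQ => iw2_H3 S P ε k a t g B f h0 h1 hg hB Q Prod.fst z hQ)
    (fun (σ : ℝ) (wb : ℤ) => |(wb : ℝ) * msh ε g - σ| < ε ^ d)
    (fun i _ w => if i = 1 then (w 0 : ℝ) * msh ε g else 0)
    (fun i z w x => by
      fin_cases i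
      · simp
      · simp [Function.update])
    (fun z w hw => ⟨1, by
      rw [abs_sub_comm] at hw
      simpa using hw⟩)
  rcases key with h' | ⟨f₂, hf⟩
  · left
    have hδ' : 1 * (2 * (g * lg ε) + (Real.log 5 + Real.log (2 * (2 * (2 * B + 2)) + 1))) * δ
        ≤ 2 * g * lg ε * δ + (Real.log 5 + Real.log (2 * (2 * (2 * B + 2)) + 1)) := by
      have : (Real.log 5 + Real.log (2 * (2 * (2 * B + 2)) + 1)) * δ
          ≤ (Real.log 5 + Real.log (2 * (2 * (2 * B + 2)) + 1)) * 1 :=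
        mul_le_mul_of_nonneg_left hδ1 (by positivity)
      nlinarith
    push_cast at h'
    linarith
  · right
    refine ⟨f₂, hf.trans ?_⟩
    push_cast
    refine mul_le_mul_of_nonneg_left (ie_pr_mono P _ _ (fun ω _ hω => ?_)) (by norm_num)
    show |ip (S.Vv ω) (tang (S.th ε k f ω)) - f₂ (S.Zo ε k a t f ω)| ≤ 2 * ε ^ d
    have r1 := iw_rep_abs ε g (ip (S.Vv ω) (tang (S.th ε k f ω)))
    have hm : msh ε g ≤ ε ^ d :=
      (ig_msh_le ε g h0).trans (Real.rpow_le_rpow_of_exponent_ge h0 h1.le hdg)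
    have hω' : |(tcell ε g (ip (S.Vv ω) (tang (S.th ε k f ω))) : ℝ) * msh ε g - f₂ (S.Zo ε k a t f ω)| < ε ^ d := hω
    rw [abs_lt] at hω'
    rw [abs_le] at r1 ⊢
    constructor <;> linarith [r1.1, r1.2, hω'.1, hω'.2]

end Claimed.Agent.R255
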